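import Vale.Agent.P106.U.Cell
import Vale.Agent.P127.U.CellE

/-!
# P106 / U / H364 : [NHC], from the margin calculus to conditional entropies (helper364)

* `nhc` : if `f` is a function of `g` outside the event `B`, and takes at most `k` values given `g`, then
  `H(f | g) ≤ (2 + log k) √P(B)` (and `≤ log k` : `hc_le_log`).
* `nhc_sum` : the same, summed over a list, with the average of the probabilities of the bad events.
* `nhc_dg` : the digits of the cell; the numbers are close, given `g`, and the digits are a function of `g`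
  outside the event `B`.
* `nhc_cell`, `nhc_cell_sum` : the same for the cells of `U/Cell.lean`.
* `cell_le` : `H(cell | g) ≤ 8 log (2 M + 3)` without the second hypothesis.
-/

set_option autoImplicit false

namespace Vale.Agent.P106.U.H364

open Finset Vale.Agent.P127 Vale.Agent.P127.Stk Vale.Agent.P106.U.Cell
open Vale.Agent.P127.U.CellD (q2 rd Nb q2_pos)

section raw

variable {Ω : Type} [Fintype Ω] {S T : Type*}

/-- `p ≤ √p` for a probability -/
lemma prE_le_sqrt (P : Law Ω) (B : Ω → Prop) : prE P B ≤ Real.sqrt (prE P B) := by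
  have h0 := prE_nonneg P B
  have h1 := prE_le_one P B
  refine Real.le_sqrt_of_sq_le ?_
  nlinarith

/-- **a variable known outside of a small event** -/
theorem nhc (P : Law Ω) (f : Ω → S) (g : Ω → T) (B : Ω → Prop) (k : ℕ) (hk : 1 ≤ k)
    (h1 : ∀ ω ω', 0 < P.w ω → 0 < P.w ω' → ¬ B ω → ¬ B ω' → g ω = g ω' → f ω = f ω')
    (h2 : ∀ ω, 0 < P.w ω → ∃ F : Finset S, F.card ≤ k ∧ ∀ ω', 0 < P.w ω' → g ω' = g ω → f ω' ∈ F) :
    hc P f g ≤ (2 + Real.log k) * Real.sqrt (prE P B) := by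
  have e := Vale.Agent.P127.U.CellE.hc_bad P f g B k hk h1 h2
  have hl : 0 ≤ Real.log k := Real.log_nonneg (by exact_mod_cast hk)
  have := mul_le_mul_of_nonneg_right (prE_le_sqrt P B) hl
  nlinarith

/-- sum of square roots of numbers with a small average -/
lemma sum_sqrt_le {ι : Type*} (I : Finset ι) (p : ι → ℝ) {m : ℝ} (hp : ∀ x ∈ I, 0 ≤ p x) (hm : 0 ≤ m)
    (h : ∑ x ∈ I, p x ≤ m * I.card) : ∑ x ∈ I, Real.sqrt (p x) ≤ I.card * Real.sqrt m := by
  have e1 : (∑ x ∈ I, Real.sqrt (p x)) ^ 2 ≤ I.card * ∑ x ∈ I, (Real.sqrt (p x)) ^ 2 :=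
    sq_sum_le_card_mul_sum_sq
  have e2 : ∑ x ∈ I, (Real.sqrt (p x)) ^ 2 = ∑ x ∈ I, p x :=
    Finset.sum_congr rfl fun x hx => Real.sq_sqrt (hp x hx)
  have e3 : (I.card : ℝ) * ∑ x ∈ I, p x ≤ (I.card * Real.sqrt m) ^ 2 := by
    rw [mul_pow, Real.sq_sqrt hm]
    have : (0 : ℝ) ≤ I.card := by positivity
    nlinarith [mul_le_mul_of_nonneg_left h this]
  have e4 : (∑ x ∈ I, Real.sqrt (p x)) ^ 2 ≤ (I.card * Real.sqrt m) ^ 2 := by
    rw [e2] at e1
    exact e1.trans e3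
  exact (abs_le_of_sq_le_sq' e4 (by positivity)).2

/-- **the same, summed over a list** -/
theorem nhc_sum {ι : Type*} (I : Finset ι) (P : Law Ω) (f : ι → Ω → S) (g : ι → Ω → T) (B : ι → Ω → Prop)
    (k : ℕ) (hk : 1 ≤ k) {m : ℝ} (hm : 0 ≤ m) (hB : ∑ x ∈ I, prE P (B x) ≤ m * I.card)
    (h1 : ∀ x ∈ I, ∀ ω ω', 0 < P.w ω → 0 < P.w ω' → ¬ B x ω → ¬ B x ω' → g x ω = g x ω' → f x ω = f x ω')
    (h2 : ∀ x ∈ I, ∀ ω, 0 < P.w ω → ∃ F : Finset S, F.card ≤ k ∧
      ∀ ω', 0 < P.w ω' → g x ω' = g x ω → f x ω' ∈ F) :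
    ∑ x ∈ I, hc P (f x) (g x) ≤ (2 + Real.log k) * (I.card * Real.sqrt m) := by
  have hl : 0 ≤ Real.log k := Real.log_nonneg (by exact_mod_cast hk)
  calc ∑ x ∈ I, hc P (f x) (g x) ≤ ∑ x ∈ I, (2 + Real.log k) * Real.sqrt (prE P (B x)) :=
        Finset.sum_le_sum fun x hx => nhc P (f x) (g x) (B x) k hk (h1 x hx) (h2 x hx)
    _ = (2 + Real.log k) * ∑ x ∈ I, Real.sqrt (prE P (B x)) := by rw [Finset.mul_sum]
    _ ≤ (2 + Real.log k) * (I.card * Real.sqrt m) :=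
        mul_le_mul_of_nonneg_left (sum_sqrt_le I _ (fun x _ => prE_nonneg P (B x)) hm hB) (by linarith)

end raw

/-! ### digits -/

/-- digits of close numbers are close -/
lemma fl1_le_of_near {n M : ℕ} {x y : ℝ} (h : |x - y| ≤ M * q2 n) : |fl1 n x - fl1 n y| ≤ M + 1 := by
  have h2 : (0 : ℝ) < 2 ^ n := by positivity
  have e : |(2 : ℝ) ^ n * x - 2 ^ n * y| ≤ M := by
    rw [← mul_sub, abs_mul, abs_of_pos h2]
    calc (2 : ℝ) ^ n * |x - y| ≤ 2 ^ n * (M * q2 n) := mul_le_mul_of_nonneg_left h h2.le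
      _ = M * (2 ^ n * q2 n) := by ring
      _ = M := by rw [Vale.Agent.P127.U.CellD.q2_mul_pow, mul_one]
  have a1 := Int.floor_le ((2 : ℝ) ^ n * x)
  have a2 := Int.lt_floor_add_one ((2 : ℝ) ^ n * x)
  have b1 := Int.floor_le ((2 : ℝ) ^ n * y)
  have b2 := Int.lt_floor_add_one ((2 : ℝ) ^ n * y)
  have c := abs_le.1 e
  have d1 : ((fl1 n x - fl1 n y : ℤ) : ℝ) < M + 1 + 1 := by
    unfold fl1
    push_cast
    linarith
  have d2 : -((M : ℝ) + 1 + 1) < ((fl1 n x - fl1 n y : ℤ) : ℝ) := by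
    unfold fl1
    push_cast
    linarith
  rw [abs_le]
  constructor
  · have : (-((M : ℤ) + 1 + 1)) < fl1 n x - fl1 n y := by exact_mod_cast d2
    linarith
  · have : fl1 n x - fl1 n y < (M : ℤ) + 1 + 1 := by exact_mod_cast d1
    linarith

/-- the digit vectors within `M + 1` of `z` -/
noncomputable def nb (M : ℕ) (z : Pth.Dg) : Finset Pth.Dg :=
  (Finset.Icc (z.1 - (M + 1)) (z.1 + (M + 1))) ×ˢ
    Fintype.piFinset fun k => Finset.Icc (z.2 k - (M + 1)) (z.2 k + (M + 1))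

lemma nb_card (M : ℕ) (z : Pth.Dg) : (nb M z).card = (2 * M + 3) ^ 8 := by
  have e : ∀ x : ℤ, (Finset.Icc (x - (M + 1)) (x + (M + 1))).card = 2 * M + 3 := by
    intro x
    rw [Int.card_Icc]
    have : x + (M + 1) + 1 - (x - (M + 1)) = ((2 * M + 3 : ℕ) : ℤ) := by push_cast; ring
    rw [this, Int.toNat_natCast]
  unfold nb
  rw [Finset.card_product, Fintype.card_piFinset, e]
  simp only [e, Finset.prod_const, Finset.card_univ, Fintype.card_fin]
  ring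

lemma mem_nb {M : ℕ} {z z' : Pth.Dg} (h0 : |z'.1 - z.1| ≤ M + 1) (h : ∀ k, |z'.2 k - z.2 k| ≤ M + 1) :
    z' ∈ nb M z := by
  unfold nb
  rw [Finset.mem_product, Fintype.mem_piFinset, Finset.mem_Icc]
  refine ⟨?_, fun k => ?_⟩
  · have := abs_le.1 h0
    constructor <;> linarith
  · rw [Finset.mem_Icc]
    have := abs_le.1 (h k)
    constructor <;> linarith

section cells

variable {Ω τ : Type} [Fintype Ω] {T : Type*}

/-- the cells of `ω` and `ω'` have the same letter, and close numbers -/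
structure Clo (C : Pth Ω τ) (M : ℕ) (i b : ℕ) (ω ω' : Ω) : Prop where
  T : C.T i ω = C.T i ω'
  v : |(C.l ω).v - (C.l ω').v| ≤ M * q2 b
  va : ∀ k, |C.va i b ω k - C.va i b ω' k| ≤ M * q2 (C.lv i b k)

omit [Fintype Ω] in
/-- finite number of cells among the close ones -/
theorem clo_mem (C : Pth Ω τ) {M i b : ℕ} {ω ω' : Ω} (h : Clo C M i b ω' ω) :
    C.dg i b ω' ∈ nb M (C.dg i b ω) := by
  refine mem_nb (fl1_le_of_near h.v) fun k => ?_
  refine fl1_le_of_near (M := M) ?_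
  have := h.va k
  rwa [add_sub_add_right_eq_sub]

/-- given `Y`, all cells are close : at most `(2 M + 3)^8` values -/
theorem clo_card (P : Law Ω) (C : Pth Ω τ) (Y : Ω → T) {M i b : ℕ}
    (h : ∀ ω ω', 0 < P.w ω → 0 < P.w ω' → Y ω = Y ω' → Clo C M i b ω ω') :
    ∀ ω, 0 < P.w ω → ∃ F : Finset (τ × Pth.Dg), F.card ≤ (2 * M + 3) ^ 8 ∧
      ∀ ω', 0 < P.w ω' → Y ω' = Y ω → C.cell i b ω' ∈ F := by
  classical
  intro ω hω
  refine ⟨(nb M (C.dg i b ω)).image fun z => (C.T i ω, z), Finset.card_image_le.trans (nb_card M _).le,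
    fun ω' hω' e => ?_⟩
  have c := h ω' ω hω' hω e
  rw [Finset.mem_image]
  exact ⟨C.dg i b ω', clo_mem C c, by unfold Pth.cell; rw [c.T]⟩

/-- `H(cell | Y) ≤ 8 log (2 M + 3)` -/
theorem cell_le (P : Law Ω) (C : Pth Ω τ) (Y : Ω → T) {M i b : ℕ}
    (h : ∀ ω ω', 0 < P.w ω → 0 < P.w ω' → Y ω = Y ω' → Clo C M i b ω ω') :
    hc P (C.cell i b) Y ≤ 8 * Real.log (2 * M + 3) := by
  have e := hc_le_log P (C.cell i b) Y ((2 * M + 3) ^ 8) (clo_card P C Y h)
  push_cast at e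
  rwa [Real.log_pow] at e

/-- **the cell is a function of `Y` outside of `B`, and close to one another given `Y`** -/
theorem nhc_cell (P : Law Ω) (C : Pth Ω τ) (Y : Ω → T) (B : Ω → Prop) {M i b : ℕ}
    (h : ∀ ω ω', 0 < P.w ω → 0 < P.w ω' → Y ω = Y ω' → Clo C M i b ω ω')
    (hB : ∀ ω ω', 0 < P.w ω → 0 < P.w ω' → ¬ B ω → ¬ B ω' → Y ω = Y ω' → C.dg i b ω = C.dg i b ω') :
    hc P (C.cell i b) Y ≤ (2 + 8 * Real.log (2 * M + 3)) * Real.sqrt (prE P B) := by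
  have e := nhc P (C.cell i b) Y B ((2 * M + 3) ^ 8) (Nat.one_le_pow _ _ (by omega))
    (fun ω ω' p p' n n' e => Prod.ext (h ω ω' p p' e).T (hB ω ω' p p' n n' e)) (clo_card P C Y h)
  push_cast at e
  rwa [Real.log_pow] at e

/-- **the same, summed over a list of cells** -/
theorem nhc_cell_sum (I : Finset (ℕ × ℕ)) (P : Law Ω) (C : Pth Ω τ) (Y : ℕ × ℕ → Ω → T)
    (B : ℕ × ℕ → Ω → Prop) {M : ℕ} {m : ℝ} (hm : 0 ≤ m) (hp : ∑ x ∈ I, prE P (B x) ≤ m * I.card)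
    (h : ∀ x ∈ I, ∀ ω ω', 0 < P.w ω → 0 < P.w ω' → Y x ω = Y x ω' → Clo C M x.1 x.2 ω ω')
    (hB : ∀ x ∈ I, ∀ ω ω', 0 < P.w ω → 0 < P.w ω' → ¬ B x ω → ¬ B x ω' → Y x ω = Y x ω' →
      C.dg x.1 x.2 ω = C.dg x.1 x.2 ω') :
    ∑ x ∈ I, hc P (C.cell x.1 x.2) (Y x) ≤ (2 + 8 * Real.log (2 * M + 3)) * (I.card * Real.sqrt m) := by
  have e := nhc_sum I P (fun x => C.cell x.1 x.2) Y B ((2 * M + 3) ^ 8) (Nat.one_le_pow _ _ (by omega)) hm hp
    (fun x hx ω ω' p p' n n' e => Prod.ext (h x hx ω ω' p p' e).T (hB x hx ω ω' p p' n n' e))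
    (fun x hx => clo_card P C (Y x) (h x hx))
  push_cast at e
  rwa [Real.log_pow] at e

end cells

end Vale.Agent.P106.U.H364
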