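import Vale.Agent.P106.U.CellE
import Vale.Agent.P106.U.H364.Nhc
import Vale.Agent.P106.U.H786.Adp2

/-!
# P106 / U / H364 : [N4], the cell of a step is a function of the end label (helper364)

* `OkW C K A i F s ω` : the functional `F` of the end label `W`, written at the time `s`, at the point `ω`:
  normalisation, true own slope up to the digits `rf i`, agreement with the slab functional of the step `i` on the
  level `A`.
* `ClW M h q F l l' s` : two rays of the end label (level `h`, thickness `q`): all differences at the time `s`.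
* `clo_of_W` : same letter `T i`, same digits of `v`, `ClW`, `OkW` at both points ⇒ `Pth.Clo i b (cst K M)`
  (`a i ≤ A`, `A + 2 b ≤ h`, `R i b + b ≤ q`).
* `cell_of_W` : the cells are equal outside `Bad`.
* `n4` : `H(cell i b | Y) ≤ (6 + 10 log ..) √P(Bad)` for every variable `Y` which determines these data.
-/

set_option autoImplicit false

namespace Vale.Agent.P106.U.H364.N4

open Finset Vale.Agent.P127 Vale.Agent.P127.Stk Vale.Agent.P106.U.Cell Vale.Agent.P106.U.Cell.Pth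
open Vale.Agent.P127.U.CellD (q2 rd Nb q2_pos q2_add q2_mul_pow q2_le rd_err)

variable {Ω τ : Type} {C : Pth Ω τ} {i b : ℕ} {ω ω' : Ω} {K M : ℝ}

/-- the end label at the point `ω`: functional `F` written at the time `s` -/
structure OkW (C : Pth Ω τ) (K : ℝ) (A i : ℕ) (F : Fu) (s : ℝ) (ω : Ω) : Prop where
  n1 : 1 ≤ K * F.cN (C.l ω) s
  n2 : F.cN (C.l ω) s ≤ K
  k1 : |F.ka| ≤ K
  a1 : |F.al| * q2 A ≤ K
  pv : |F.cV (C.l ω) s - C.p ω * F.cN (C.l ω) s| ≤ K * q2 (C.rf i)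
  ag : Agr K (C.rk i) A ((C.F i ω).sh (s - C.s i ω)) F (C.l ω) s
  ts : |s - C.s i ω| ≤ q2 (C.a i)

/-- two rays of the end label (level `h`, thickness `q`) -/
structure ClW (M : ℝ) (h q : ℕ) (F : Fu) (l l' : Ray) (s : ℝ) : Prop where
  X : |l'.X s - l.X s| ≤ M * q2 h
  N : |l'.N s - l.N s| ≤ M * q2 h
  z : |l.dz l' s| ≤ M * q2 h
  c : |F.gd l' s - F.gd l s| ≤ M * q2 q
  g : |F.g l' s - F.g l s| ≤ M * q2 (h + q)

/-- the constant of `N4` -/
def cst (K M : ℝ) : ℝ := 200 * K ^ 7 * M ^ 2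

lemma abs_add3 {x y z a b c : ℝ} (h1 : |x| ≤ a) (h2 : |y| ≤ b) (h3 : |z| ≤ c) : |x + y + z| ≤ a + b + c :=
  (abs_add_le _ _).trans (add_le_add ((abs_add_le _ _).trans (add_le_add h1 h2)) h3)

/-- the coefficient `cN` on another ray -/
lemma cN_dif (F : Fu) (l l' : Ray) (s : ℝ) :
    F.cN l' s = F.cN l s - F.ka * (l'.w - l.w) - F.al * (l'.N s - l.N s) := by
  unfold Fu.cN; ring

lemma cV_dif (F : Fu) (l l' : Ray) (s : ℝ) :
    F.cV l' s = F.cV l s + F.ka * (l'.v - l.v) + F.al * (l'.X s - l.X s) := by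
  unfold Fu.cV; ring

/-- **the normal velocity is determined by the end label**, by the positivity of `cN` on both rays -/
theorem dw_le {F : Fu} {l l' : Ray} {s dv Q A0 P k a Z : ℝ} (h1 : 1 ≤ K) (n1 : 1 ≤ K * F.cN l s)
    (n1' : 1 ≤ K * F.cN l' s) (hP : |F.cV l' s| ≤ P) (hk : |F.ka| ≤ k) (ha : |F.al| ≤ a) (hv : |l'.v - l.v| ≤ dv)
    (hdv : dv ≤ 1) (hN : |l'.N s - l.N s| ≤ A0) (hz : |l.dz l' s| ≤ Z) (hc : |F.gd l' s - F.gd l s| ≤ Q)
    (hs : K * (a * A0) ≤ 1) :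
    |l'.w - l.w| ≤ 2 * K * (Q + (P + k) * dv + a * Z) := by
  have K0 : 0 < K := by linarith
  have k0 : 0 ≤ k := (abs_nonneg _).trans hk
  have a0 : 0 ≤ a := (abs_nonneg _).trans ha
  have dv0 : 0 ≤ dv := (abs_nonneg _).trans hv
  have e := Vale.Agent.P106.U.H786.Adp.gd_pair F l l' s
  have e1 : F.cN l' s + F.ka * (l'.w - l.w) / 2 =
      (F.cN l s + F.cN l' s) / 2 - F.al * (l'.N s - l.N s) / 2 := by
    rw [cN_dif F l l']; ring
  rw [e1] at e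
  set D := (F.cN l s + F.cN l' s) / 2 - F.al * (l'.N s - l.N s) / 2 with hD
  have hD1 : 1 ≤ 2 * K * D := by
    have t : |F.al * (l'.N s - l.N s)| ≤ a * A0 := by
      rw [abs_mul]
      exact mul_le_mul ha hN (abs_nonneg _) a0
    have t2 := (abs_le.1 t).2
    have t3 := mul_le_mul_of_nonneg_left t2 K0.le
    rw [hD]
    nlinarith
  have hDpos : 0 < D := by
    by_contra hn
    push Not at hn
    nlinarith
  have hB : |(l'.w - l.w) * D| ≤ Q + (P + k) * dv + a * Z := by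
    have e2 : (l'.w - l.w) * D = (F.gd l' s - F.gd l s) +
        (l'.v - l.v) * (F.cV l' s - F.ka * (l'.v - l.v) / 2) + -(F.al * l.dz l' s) := by
      rw [e]; ring
    rw [e2]
    refine abs_add3 hc ?_ ?_
    · rw [abs_mul, mul_comm]
      refine mul_le_mul ?_ hv (abs_nonneg _) (by have := (abs_nonneg _).trans hP; linarith)
      refine (abs_sub _ _).trans (add_le_add hP ?_)
      rw [abs_div, abs_mul, abs_of_pos (by norm_num : (0 : ℝ) < 2)]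
      have : |F.ka| * |l'.v - l.v| ≤ k * 1 := mul_le_mul hk (hv.trans hdv) (abs_nonneg _) k0
      linarith
    · rw [abs_neg, abs_mul]
      exact mul_le_mul ha hz (abs_nonneg _) a0
  rw [abs_mul, abs_of_pos hDpos] at hB
  calc |l'.w - l.w| = |l'.w - l.w| * 1 := (mul_one _).symm
    _ ≤ |l'.w - l.w| * (2 * K * D) := mul_le_mul_of_nonneg_left hD1 (abs_nonneg _)
    _ = 2 * K * (|l'.w - l.w| * D) := by ring
    _ ≤ _ := mul_le_mul_of_nonneg_left hB (by linarith)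

lemma cN_pos {x : ℝ} (h1 : 1 ≤ K) (h : 1 ≤ K * x) : 0 < x := by
  by_contra hn
  push Not at hn
  nlinarith

/-- `|cN|` of the end label -/
lemma OkW.abs {A : ℕ} {F : Fu} {s : ℝ} (h : OkW C K A i F s ω) (h1 : 1 ≤ K) : |F.cN (C.l ω) s| ≤ K := by
  rw [abs_of_pos (cN_pos h1 h.n1)]
  exact h.n2

lemma OkW.al_le {A : ℕ} {F : Fu} {s : ℝ} (h : OkW C K A i F s ω) : |F.al| ≤ K / q2 A := by
  rw [le_div_iff₀ (q2_pos _)]
  exact h.a1

/-- own slope of the end label -/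
lemma OkW.cV_le {A : ℕ} {F : Fu} {s : ℝ} (h : OkW C K A i F s ω) (h1 : 1 ≤ K) (hK : C.Ok K ω) :
    |F.cV (C.l ω) s| ≤ 2 * K := by
  have e : F.cV (C.l ω) s = (F.cV (C.l ω) s - C.p ω * F.cN (C.l ω) s) + C.p ω * F.cN (C.l ω) s := by ring
  rw [e]
  refine (abs_add_le _ _).trans ?_
  have t1 := h.pv
  have t2 : |C.p ω * F.cN (C.l ω) s| ≤ 1 * K := by
    rw [abs_mul]
    exact mul_le_mul (hK.p1.trans (q2_le_one _)) (h.abs h1) (abs_nonneg _) (by norm_num)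
  have t3 := q2_le_one (C.rf i)
  nlinarith

/-- **the two rays in the end label**, with the good bound of `w` -/
theorem nrW (h1 : 1 ≤ K) (hM : 1 ≤ M) {A h q : ℕ} {F : Fu} {s : ℝ} (hK' : C.Ok K ω')
    (hw : OkW C K A i F s ω) (hw' : OkW C K A i F s ω') (hv : fl1 b (C.l ω).v = fl1 b (C.l ω').v)
    (hA : A + 2 * b ≤ h) (hq : b ≤ q) (hb : K ^ 2 * M * q2 (2 * b) ≤ 1) (hc : ClW M h q F (C.l ω) (C.l ω') s) :
    Nr F (C.l ω) (C.l ω') s (q2 b) (10 * K ^ 2 * M * q2 b) (M * q2 h) (M * q2 h) (M * q2 h) (M * q2 q)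
      (M * q2 (h + q)) := by
  refine ⟨near_of_fl hv, ?_, hc.X, hc.N, hc.z, hc.c, hc.g⟩
  have K0 : 0 < K := by linarith
  have M0 : 0 < M := by linarith
  have hA0 := q2_pos A
  have H1 : q2 h ≤ q2 A * q2 (2 * b) := by rw [← q2_add]; exact q2_le (by omega)
  have H2 : K / q2 A * (M * q2 h) ≤ K * M * q2 (2 * b) := by
    rw [div_mul_eq_mul_div, div_le_iff₀ hA0]
    calc K * (M * q2 h) ≤ K * (M * (q2 A * q2 (2 * b))) := by gcongr
      _ = K * M * q2 (2 * b) * q2 A := by ring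
  have e := dw_le h1 hw.n1 hw'.n1 (hw'.cV_le h1 hK') hw.k1 hw.al_le (near_of_fl hv) (q2_le_one b) hc.N hc.z hc.c
    (by
      calc K * (K / q2 A * (M * q2 h)) ≤ K * (K * M * q2 (2 * b)) := mul_le_mul_of_nonneg_left H2 K0.le
        _ = K ^ 2 * M * q2 (2 * b) := by ring
        _ ≤ 1 := hb)
  refine e.trans ?_
  have b0 := q2_pos b
  have q1 : M * q2 q ≤ M * q2 b := mul_le_mul_of_nonneg_left (q2_le hq) M0.le
  have q3 : q2 (2 * b) ≤ q2 b := q2_le (by omega)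
  have q4 : K * M * q2 (2 * b) ≤ K * M * q2 b := mul_le_mul_of_nonneg_left q3 (by positivity)
  have q5 : M * q2 q + (2 * K + K) * q2 b + K / q2 A * (M * q2 h) ≤ (M + 3 * K + K * M) * q2 b := by
    nlinarith
  have q6 : M + 3 * K + K * M ≤ 5 * (K * M) := by nlinarith
  calc _ ≤ 2 * K * ((M + 3 * K + K * M) * q2 b) := mul_le_mul_of_nonneg_left q5 (by positivity)
    _ ≤ 2 * K * (5 * (K * M) * q2 b) := by gcongr
    _ = _ := by ring

/-- the slab functional of the step, written at the time of the end label -/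
lemma sh_cN (C : Pth Ω τ) (i : ℕ) (ω : Ω) (s : ℝ) :
    ((C.F i ω).sh (s - C.s i ω)).cN (C.l ω) s = (C.F i ω).cN (C.l ω) (C.s i ω) := by
  have := Fu.cN_sh (C.F i ω) (C.l ω) (C.s i ω) (s - C.s i ω)
  rwa [add_sub_cancel] at this

lemma sh_cV (C : Pth Ω τ) (i : ℕ) (ω : Ω) (s : ℝ) :
    ((C.F i ω).sh (s - C.s i ω)).cV (C.l ω) s = (C.F i ω).cV (C.l ω) (C.s i ω) := by
  have := Fu.cV_sh (C.F i ω) (C.l ω) (C.s i ω) (s - C.s i ω)
  rwa [add_sub_cancel] at this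

/-- comparison of the own slopes -/
lemma eV_le (h1 : 1 ≤ K) {A : ℕ} {F : Fu} {s : ℝ} (hK : C.Ok K ω) (hw : OkW C K A i F s ω) :
    |((C.F i ω).sh (s - C.s i ω)).cN (C.l ω) s / F.cN (C.l ω) s * F.cV (C.l ω) s -
      ((C.F i ω).sh (s - C.s i ω)).cV (C.l ω) s| ≤ 2 * K ^ 3 * q2 (C.rf i) := by
  have K0 : 0 < K := by linarith
  rw [sh_cN, sh_cV, F_cV]
  have hp := cN_pos h1 hw.n1
  set c := F.cN (C.l ω) s with hc
  set n := (C.F i ω).cN (C.l ω) (C.s i ω) with hn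
  have e : n / c * F.cV (C.l ω) s - rd (C.rf i) (C.p ω) * n =
      n * ((F.cV (C.l ω) s - C.p ω * c) * (1 / c) + (C.p ω - rd (C.rf i) (C.p ω))) := by
    field_simp
    ring
  have hinv : 1 / c ≤ K := by
    rw [div_le_iff₀ hp]
    exact hw.n1
  have hinv0 : 0 ≤ 1 / c := by positivity
  have φ := q2_pos (C.rf i)
  have t1 : |(F.cV (C.l ω) s - C.p ω * c) * (1 / c)| ≤ K * q2 (C.rf i) * K := by
    rw [abs_mul, abs_of_nonneg hinv0]
    exact mul_le_mul hw.pv hinv hinv0 (by positivity)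
  have t2 : |C.p ω - rd (C.rf i) (C.p ω)| ≤ q2 (C.rf i) := by
    rw [abs_sub_comm]; exact rd_err _ _
  rw [e, abs_mul]
  calc _ ≤ K * (K * q2 (C.rf i) * K + q2 (C.rf i)) :=
        mul_le_mul (cN_abs hK h1 i) ((abs_add_le _ _).trans (add_le_add t1 t2)) (abs_nonneg _) K0.le
    _ = (K ^ 3 + K) * q2 (C.rf i) := by ring
    _ ≤ _ := by
      refine mul_le_mul_of_nonneg_right ?_ φ.le
      have : K ≤ K ^ 3 := by
        calc K = K ^ 1 := (pow_one K).symm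
          _ ≤ K ^ 3 := pow_le_pow_right₀ h1 (by norm_num)
      linarith

/-- pure arithmetic of the derivative -/
lemma arith_c {ρ β RR φ H A0 Q D : ℝ} (h1 : 1 ≤ K) (hM : 1 ≤ M) (hρ : 0 ≤ ρ) (hβ : 0 ≤ β) (hβ1 : β ≤ 1)
    (hA : 0 < A0) (h2 : ρ * β ≤ RR) (h3 : φ ≤ RR) (h4 : H ≤ A0 * β ^ 2) (h5 : Q ≤ RR * β)
    (hD : D = 10 * K ^ 2 * M) :
    K ^ 2 * (M * Q) + 2 * K ^ 3 * φ * β + 2 * K ^ 3 * ρ * ((β ^ 2 + (D * β) ^ 2) / 2) +
      2 * K ^ 3 * ρ / A0 * (M * H * β + M * H * (D * β) + M * H) ≤ 130 * K ^ 7 * M ^ 2 * (RR * β) := by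
  have K0 : 0 < K := by linarith
  have M0 : 0 < M := by linarith
  have D1 : 0 ≤ D := by rw [hD]; positivity
  have RR0 : 0 ≤ RR := (mul_nonneg hρ hβ).trans h2
  have e1 : K ^ 2 * (M * Q) ≤ K ^ 2 * M * (RR * β) := by
    rw [mul_assoc]; gcongr
  have e2 : 2 * K ^ 3 * φ * β ≤ 2 * K ^ 3 * (RR * β) := by
    rw [mul_assoc (2 * K ^ 3)]; gcongr
  have e3 : 2 * K ^ 3 * ρ * ((β ^ 2 + (D * β) ^ 2) / 2) ≤ K ^ 3 * (1 + D ^ 2) * (RR * β) := by
    calc _ = K ^ 3 * (1 + D ^ 2) * (ρ * β * β) := by ring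
      _ ≤ K ^ 3 * (1 + D ^ 2) * (RR * β) := by gcongr
  have e4 : 2 * K ^ 3 * ρ / A0 * (M * H * β + M * H * (D * β) + M * H) ≤ 2 * K ^ 3 * M * (2 + D) * (RR * β) := by
    have f1 : H / A0 ≤ β ^ 2 := by
      rw [div_le_iff₀ hA]; linarith
    have f2 : β + D * β + 1 ≤ 2 + D := by nlinarith
    calc _ = 2 * K ^ 3 * M * ρ * (H / A0) * (β + D * β + 1) := by ring
      _ ≤ 2 * K ^ 3 * M * ρ * β ^ 2 * (2 + D) := by gcongr
      _ = 2 * K ^ 3 * M * (2 + D) * (ρ * β * β) := by ring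
      _ ≤ _ := by gcongr
  have e5 : K ^ 2 * M + 2 * K ^ 3 + K ^ 3 * (1 + D ^ 2) + 2 * K ^ 3 * M * (2 + D) ≤ 130 * K ^ 7 * M ^ 2 := by
    have a1 : K ^ 2 ≤ K ^ 7 := pow_le_pow_right₀ h1 (by norm_num)
    have a2 : K ^ 3 ≤ K ^ 7 := pow_le_pow_right₀ h1 (by norm_num)
    have a3 : K ^ 5 ≤ K ^ 7 := pow_le_pow_right₀ h1 (by norm_num)
    have a4 : 1 ≤ M ^ 2 := one_le_pow₀ hM
    have a5 : M ≤ M ^ 2 := by nlinarith
    have K7 : 0 < K ^ 7 := by positivity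
    rw [hD]
    have b1 : K ^ 2 * M ≤ K ^ 7 * M ^ 2 := by gcongr
    have b2 : K ^ 3 ≤ K ^ 7 * M ^ 2 := by nlinarith
    have b3 : K ^ 3 * M ≤ K ^ 7 * M ^ 2 := by gcongr
    have b4 : K ^ 5 * M ^ 2 ≤ K ^ 7 * M ^ 2 := by gcongr
    calc _ = K ^ 2 * M + 3 * K ^ 3 + 100 * (K ^ 7 * M ^ 2) + 4 * (K ^ 3 * M) + 20 * (K ^ 5 * M ^ 2) := by ring
      _ ≤ _ := by linarith
  have e6 := mul_le_mul_of_nonneg_right e5 (mul_nonneg RR0 hβ)
  linarith

/-- pure arithmetic of the value -/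
lemma arith_g {ρ β RR φ H A0 Q α : ℝ} (h1 : 1 ≤ K) (hM : 1 ≤ M) (hρ : 0 ≤ ρ) (hβ : 0 ≤ β) (hβ1 : β ≤ 1)
    (hA : 0 < A0) (hH : 0 ≤ H) (h2 : ρ * β ≤ RR) (h3 : φ ≤ RR) (h4 : H ≤ A0 * β ^ 2) (hα : H ≤ α * β)
    (hα2 : H ≤ α * β ^ 2) (hα0 : 0 ≤ α) (h5 : Q ≤ H * RR) :
    K ^ 2 * (M * Q) + 2 * K ^ 3 * φ * (M * H) + 2 * K ^ 3 * ρ * (M * H) +
      2 * K ^ 3 * ρ / A0 * (((M * H) ^ 2 + (M * H) ^ 2) / 2) ≤ 7 * K ^ 3 * M ^ 2 * (α * β * RR) := by
  have K0 : 0 < K := by linarith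
  have M0 : 0 < M := by linarith
  have RR0 : 0 ≤ RR := (mul_nonneg hρ hβ).trans h2
  have a4 : 1 ≤ M ^ 2 := one_le_pow₀ hM
  have a5 : M ≤ M ^ 2 := by nlinarith
  have a6 : K ^ 2 ≤ K ^ 3 := pow_le_pow_right₀ h1 (by norm_num)
  set X := α * β * RR with hX
  have X0 : 0 ≤ X := by positivity
  have c1 : Q ≤ X := by
    refine h5.trans ?_
    rw [hX]; gcongr
  have c2 : φ * H ≤ X := by
    calc φ * H ≤ RR * H := by gcongr
      _ ≤ RR * (α * β) := by gcongr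
      _ = X := by rw [hX]; ring
  have c3 : ρ * H ≤ X := by
    calc ρ * H ≤ ρ * (α * β ^ 2) := by gcongr
      _ = α * β * (ρ * β) := by ring
      _ ≤ X := by rw [hX]; gcongr
  have c4 : ρ * (H / A0) * H ≤ X := by
    have f1 : H / A0 ≤ β ^ 2 := by
      rw [div_le_iff₀ hA]; linarith
    have f2 : β ^ 2 ≤ 1 := pow_le_one₀ hβ hβ1
    calc ρ * (H / A0) * H ≤ ρ * 1 * H := by
          gcongr
          exact f1.trans f2
      _ = ρ * H := by ring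
      _ ≤ X := c3
  have e1 : K ^ 2 * (M * Q) ≤ K ^ 3 * M ^ 2 * X := by
    calc K ^ 2 * (M * Q) = K ^ 2 * M * Q := by ring
      _ ≤ K ^ 2 * M * X := by gcongr
      _ ≤ K ^ 3 * M ^ 2 * X := by gcongr
  have e2 : 2 * K ^ 3 * φ * (M * H) ≤ 2 * (K ^ 3 * M ^ 2 * X) := by
    calc 2 * K ^ 3 * φ * (M * H) = 2 * (K ^ 3 * M * (φ * H)) := by ring
      _ ≤ 2 * (K ^ 3 * M * X) := by gcongr
      _ ≤ _ := by gcongr
  have e3 : 2 * K ^ 3 * ρ * (M * H) ≤ 2 * (K ^ 3 * M ^ 2 * X) := by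
    calc 2 * K ^ 3 * ρ * (M * H) = 2 * (K ^ 3 * M * (ρ * H)) := by ring
      _ ≤ 2 * (K ^ 3 * M * X) := by gcongr
      _ ≤ _ := by gcongr
  have e4 : 2 * K ^ 3 * ρ / A0 * (((M * H) ^ 2 + (M * H) ^ 2) / 2) ≤ 2 * (K ^ 3 * M ^ 2 * X) := by
    calc _ = 2 * (K ^ 3 * M ^ 2 * (ρ * (H / A0) * H)) := by ring
      _ ≤ _ := by gcongr
  linarith

/-- **the two rays with the slab functional of the step, at the time of the end label** -/
theorem nrG (h1 : 1 ≤ K) (hM : 1 ≤ M) {A h q : ℕ} {F : Fu} {s : ℝ} (hK : C.Ok K ω) (hK' : C.Ok K ω')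
    (hw : OkW C K A i F s ω) (hw' : OkW C K A i F s ω') (hv : fl1 b (C.l ω).v = fl1 b (C.l ω').v)
    (ha : C.a i ≤ A) (hA : A + 2 * b ≤ h) (hq : C.R i b + b ≤ q) (hb : K ^ 2 * M * q2 (2 * b) ≤ 1)
    (hc : ClW M h q F (C.l ω) (C.l ω') s) :
    Nr ((C.F i ω).sh (s - C.s i ω)) (C.l ω) (C.l ω') s (q2 b) (10 * K ^ 2 * M * q2 b) (M * q2 h) (M * q2 h)
      (M * q2 h) (130 * K ^ 7 * M ^ 2 * q2 (C.R i b + b)) (7 * K ^ 3 * M ^ 2 * q2 (C.a i + b + C.R i b)) := by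
  have hN := nrW h1 hM hK' hw hw' hv hA (by omega) hb hc
  have hne : F.cN (C.l ω) s ≠ 0 := (cN_pos h1 hw.n1).ne'
  have hG : |((C.F i ω).sh (s - C.s i ω)).cN (C.l ω) s| ≤ K := by
    rw [sh_cN]; exact cN_abs hK h1 i
  obtain ⟨r1, r2, r3⟩ := ratios h1 hw.ag hw.n1 hG hw.k1 hw.a1
  have hcmp := hN.cmp hne r1 (eV_le h1 hK hw) r2 r3
  have hrk := C.R_le_rk i b
  have hrf := C.R_le_rf i b
  have x1 : q2 (C.rk i) * q2 b ≤ q2 (C.R i b) := by rw [← q2_add]; exact q2_le (by omega)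
  have x2 : q2 (C.rf i) ≤ q2 (C.R i b) := q2_le hrf
  have x3 : q2 h ≤ q2 A * q2 b ^ 2 := by rw [pow_two, ← q2_add, ← q2_add]; exact q2_le (by omega)
  have x4 : q2 q ≤ q2 (C.R i b) * q2 b := by rw [← q2_add]; exact q2_le (by omega)
  have x5 : q2 h ≤ q2 (C.a i) * q2 b := by rw [← q2_add]; exact q2_le (by omega)
  have x6 : q2 h ≤ q2 (C.a i) * q2 b ^ 2 := by rw [pow_two, ← q2_add, ← q2_add]; exact q2_le (by omega)
  have x7 : q2 (h + q) ≤ q2 h * q2 (C.R i b) := by rw [← q2_add]; exact q2_le (by omega)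
  refine hcmp.mono le_rfl le_rfl le_rfl le_rfl le_rfl ?_ ?_
  · rw [q2_add (C.R i b) b]
    exact arith_c h1 hM (q2_pos _).le (q2_pos _).le (q2_le_one _) (q2_pos A) x1 x2 x3 x4 rfl
  · rw [q2_add (C.a i + b), q2_add (C.a i)]
    exact arith_g h1 hM (q2_pos _).le (q2_pos _).le (q2_le_one _) (q2_pos A) (q2_pos _).le x1 x2 x3
      x5 x6 (q2_pos _).le x7

/-- **the two rays with the slab functional of the step, at its own time** -/
theorem nrF (h1 : 1 ≤ K) (hM : 1 ≤ M) {A h q : ℕ} {F : Fu} {s : ℝ} (hK : C.Ok K ω) (hK' : C.Ok K ω')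
    (hw : OkW C K A i F s ω) (hw' : OkW C K A i F s ω') (hv : fl1 b (C.l ω).v = fl1 b (C.l ω').v)
    (ha : C.a i ≤ A) (hA : A + 2 * b ≤ h) (hq : C.R i b + b ≤ q) (hb : K ^ 2 * M * q2 (2 * b) ≤ 1)
    (hc : ClW M h q F (C.l ω) (C.l ω') s) :
    Nr (C.F i ω) (C.l ω) (C.l ω') (C.s i ω) (q2 b) (cst K M * q2 b) (cst K M * q2 (C.a i + b))
      (cst K M * q2 (C.a i + b)) (cst K M * q2 (C.a i + 2 * b)) (cst K M * q2 (C.R i b + b))
      (cst K M * q2 (C.a i + b + C.R i b)) := by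
  have hN := nrG h1 hM hK hK' hw hw' hv ha hA hq hb hc
  have hd : |C.s i ω - s| ≤ q2 (C.a i) := by
    rw [abs_sub_comm]; exact hw.ts
  have hE := hN.evolve hd
  rw [Fu.sh_sh, show s - C.s i ω + (C.s i ω - s) = 0 by ring, Fu.sh_zero,
    show s + (C.s i ω - s) = C.s i ω by ring] at hE
  have K0 : 0 < K := by linarith
  have M0 : 0 < M := by linarith
  have a1 : K ^ 2 ≤ K ^ 7 := pow_le_pow_right₀ h1 (by norm_num)
  have a2 : K ^ 3 ≤ K ^ 7 := pow_le_pow_right₀ h1 (by norm_num)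
  have a3 : K ^ 4 ≤ K ^ 7 := pow_le_pow_right₀ h1 (by norm_num)
  have a4 : 1 ≤ M ^ 2 := one_le_pow₀ hM
  have a5 : M ≤ M ^ 2 := by nlinarith
  have K7 : 1 ≤ K ^ 7 := one_le_pow₀ h1
  have c1 : K ^ 2 * M ≤ K ^ 7 * M ^ 2 := by gcongr
  have c2 : M ≤ K ^ 7 * M ^ 2 := by nlinarith
  have c3 : 1 ≤ K ^ 7 * M ^ 2 := by nlinarith
  have c4 : K ^ 4 * M ^ 2 ≤ K ^ 7 * M ^ 2 := by gcongr
  have c5 : K ^ 3 * M ^ 2 ≤ K ^ 7 * M ^ 2 := by gcongr
  have hcst : cst K M = 200 * (K ^ 7 * M ^ 2) := by unfold cst; ring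
  have α0 := q2_pos (C.a i)
  have β0 := q2_pos b
  refine hE.mono le_rfl ?_ ?_ ?_ ?_ ?_ ?_
  · rw [hcst]
    exact mul_le_mul_of_nonneg_right (by nlinarith) β0.le
  · have e1 : q2 h ≤ q2 (C.a i + b) := q2_le (by omega)
    have e2 : q2 (C.a i) * q2 b = q2 (C.a i + b) := (q2_add _ _).symm
    have e3 := q2_pos (C.a i + b)
    rw [e2, hcst]
    nlinarith
  · have e1 : q2 h ≤ q2 (C.a i + b) := q2_le (by omega)
    have e2 : q2 (C.a i) * (10 * K ^ 2 * M * q2 b) = 10 * (K ^ 2 * M) * q2 (C.a i + b) := by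
      rw [q2_add]; ring
    have e3 := q2_pos (C.a i + b)
    rw [e2, hcst]
    nlinarith
  · have e1 : q2 h ≤ q2 (C.a i + 2 * b) := q2_le (by omega)
    have e2 : q2 (C.a i) * ((q2 b ^ 2 + (10 * K ^ 2 * M * q2 b) ^ 2) / 2) =
        (1 / 2 + 50 * (K ^ 4 * M ^ 2)) * q2 (C.a i + 2 * b) := by
      rw [show C.a i + 2 * b = C.a i + b + b by ring, q2_add, q2_add]; ring
    have e3 := q2_pos (C.a i + 2 * b)
    rw [e2, hcst]
    nlinarith
  · have e3 := q2_pos (C.R i b + b)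
    rw [hcst]
    nlinarith
  · have e2 : q2 (C.a i) * (130 * K ^ 7 * M ^ 2 * q2 (C.R i b + b)) =
        130 * (K ^ 7 * M ^ 2) * q2 (C.a i + b + C.R i b) := by
      rw [show C.a i + b + C.R i b = C.a i + (C.R i b + b) by ring, q2_add (C.a i)]; ring
    have e3 := q2_pos (C.a i + b + C.R i b)
    rw [e2, hcst]
    nlinarith

/-- the difference of the own slopes -/
lemma ph_s3 {p p' n c e e' x3 x4 β RR ρ φ : ℝ} (h1 : 1 ≤ K) (hM : 1 ≤ M)
    (hβ : 0 ≤ β) (hρ : 0 ≤ ρ) (hρβ : ρ * β ≤ RR) (hφ : 0 ≤ φ) (hφR : φ ≤ RR) (hρ1 : ρ ≤ 1)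
    (eq3 : (p' - p) * c = x3 - (e' - e) - p' * x4) (hp' : |p'| ≤ 1)
    (hc : 1 ≤ K * c) (hnc : |n - c| ≤ K * ρ) (he : |e' - e| ≤ 2 * (K * φ))
    (hx3 : |x3| ≤ 2 * K * M * β) (hx4 : |x4| ≤ 11 * K ^ 3 * M * β) :
    |(p' - p) * (n - c)| ≤ 15 * (K ^ 5 * M * RR) := by
  have K0 : 0 < K := by linarith
  have M0 : 0 < M := by linarith
  have RR0 : 0 ≤ RR := hφ.trans hφR
  have cpos := cN_pos h1 hc
  have k13 : K ≤ K ^ 3 := by
    calc K = K ^ 1 := (pow_one K).symm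
      _ ≤ K ^ 3 := pow_le_pow_right₀ h1 (by norm_num)
  have k35 : K ^ 3 ≤ K ^ 5 := pow_le_pow_right₀ h1 (by norm_num)
  have s1 : |(p' - p) * c| ≤ 13 * K ^ 3 * M * β + 2 * K * φ := by
    rw [eq3]
    have t1 : |p' * x4| ≤ 1 * (11 * K ^ 3 * M * β) := by
      rw [abs_mul]; exact mul_le_mul hp' hx4 (abs_nonneg _) (by norm_num)
    have t3 : |x3 - (e' - e) - p' * x4| ≤ |x3| + |e' - e| + |p' * x4| :=
      (abs_sub _ _).trans (add_le_add (abs_sub _ _) le_rfl)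
    have t4 : K * M * β ≤ K ^ 3 * M * β :=
      mul_le_mul_of_nonneg_right (mul_le_mul_of_nonneg_right k13 M0.le) hβ
    linarith
  have s2 : |p' - p| ≤ K * (13 * K ^ 3 * M * β + 2 * K * φ) := by
    rw [abs_mul, abs_of_pos cpos] at s1
    calc |p' - p| = |p' - p| * 1 := (mul_one _).symm
      _ ≤ |p' - p| * (K * c) := mul_le_mul_of_nonneg_left hc (abs_nonneg _)
      _ = K * (|p' - p| * c) := by ring
      _ ≤ _ := mul_le_mul_of_nonneg_left s1 K0.le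
  rw [abs_mul]
  have u1 : K ^ 5 * M * (ρ * β) ≤ K ^ 5 * M * RR := mul_le_mul_of_nonneg_left hρβ (by positivity)
  have u2 : ρ * φ ≤ RR := by nlinarith
  have u3 : K ^ 3 * (ρ * φ) ≤ K ^ 5 * M * RR := by
    calc K ^ 3 * (ρ * φ) ≤ K ^ 5 * RR := mul_le_mul k35 u2 (mul_nonneg hρ hφ) (by positivity)
      _ = K ^ 5 * 1 * RR := by ring
      _ ≤ K ^ 5 * M * RR :=
        mul_le_mul_of_nonneg_right (mul_le_mul_of_nonneg_left hM (by positivity)) RR0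
  calc |p' - p| * |n - c| ≤ K * (13 * K ^ 3 * M * β + 2 * K * φ) * (K * ρ) :=
        mul_le_mul s2 hnc (abs_nonneg _) (by positivity)
    _ = 13 * (K ^ 5 * M * (ρ * β)) + 2 * (K ^ 3 * (ρ * φ)) := by ring
    _ ≤ _ := by linarith

/-- real part of the comparison of the slopes -/
lemma ph_arith {p p' rp rp' n n' c c' e e' dph x1 x2 x3 x4 β RR ρ φ : ℝ} (h1 : 1 ≤ K) (hM : 1 ≤ M)
    (hβ : 0 ≤ β) (hρ : 0 ≤ ρ) (hρβ : ρ * β ≤ RR) (hφ : 0 ≤ φ) (hφR : φ ≤ RR) (hρ1 : ρ ≤ 1)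
    (eq1 : dph = p' * ((n' - c') - (n - c)) + (p' - p) * (n - c) + (rp' - p') * n' - (rp - p) * n - (e' - e) - x1)
    (eq2 : (n' - c') - (n - c) = x2) (eq3 : (p' - p) * c = x3 - (e' - e) - p' * x4) (hp' : |p'| ≤ 1)
    (hc : 1 ≤ K * c) (hn : |n| ≤ K) (hn' : |n'| ≤ K) (hnc : |n - c| ≤ K * ρ) (he : |e| ≤ K * φ) (he' : |e'| ≤ K * φ)
    (hrp : |rp - p| ≤ φ) (hrp' : |rp' - p'| ≤ φ) (hx1 : |x1| ≤ 2 * (K * M * RR))
    (hx2 : |x2| ≤ 11 * (K ^ 3 * M * RR)) (hx3 : |x3| ≤ 2 * K * M * β) (hx4 : |x4| ≤ 11 * K ^ 3 * M * β) :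
    |dph| ≤ 40 * (K ^ 5 * M * RR) := by
  have K0 : 0 < K := by linarith
  have M0 : 0 < M := by linarith
  have RR0 : 0 ≤ RR := hφ.trans hφR
  have k15 : K ≤ K ^ 5 := by
    calc K = K ^ 1 := (pow_one K).symm
      _ ≤ K ^ 5 := pow_le_pow_right₀ h1 (by norm_num)
  have k35 : K ^ 3 ≤ K ^ 5 := pow_le_pow_right₀ h1 (by norm_num)
  have he2 : |e' - e| ≤ 2 * (K * φ) := by
    have : |e' - e| ≤ K * φ + K * φ := (abs_sub _ _).trans (add_le_add he' he)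
    linarith
  have s3 := ph_s3 (n := n) h1 hM hβ hρ hρβ hφ hφR hρ1 eq3 hp' hc hnc he2 hx3 hx4
  set X := K ^ 5 * M * RR with hX
  have kR : K * φ ≤ X := by
    calc K * φ ≤ K ^ 5 * RR := mul_le_mul k15 hφR hφ (by positivity)
      _ = K ^ 5 * 1 * RR := by ring
      _ ≤ K ^ 5 * M * RR :=
        mul_le_mul_of_nonneg_right (mul_le_mul_of_nonneg_left hM (by positivity)) RR0
  have s4 : |p' * ((n' - c') - (n - c))| ≤ 11 * X := by
    rw [eq2, abs_mul]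
    have t := mul_le_mul hp' hx2 (abs_nonneg _) (by norm_num : (0 : ℝ) ≤ 1)
    have t2 : K ^ 3 * M * RR ≤ X := mul_le_mul_of_nonneg_right (mul_le_mul_of_nonneg_right k35 M0.le) RR0
    linarith
  have s5 : |(rp' - p') * n'| ≤ X := by
    rw [abs_mul]
    have t := mul_le_mul hrp' hn' (abs_nonneg _) hφ
    linarith
  have s6 : |(rp - p) * n| ≤ X := by
    rw [abs_mul]
    have t := mul_le_mul hrp hn (abs_nonneg _) hφ
    linarith
  have s8 : |x1| ≤ 2 * X := by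
    have t2 : K * M * RR ≤ X := mul_le_mul_of_nonneg_right (mul_le_mul_of_nonneg_right k15 M0.le) RR0
    linarith
  have n0 : 0 ≤ X := by positivity
  rw [eq1]
  have a1 := abs_le.1 s3
  have a2 := abs_le.1 s4
  have a3 := abs_le.1 s5
  have a4 := abs_le.1 s6
  have a5 := abs_le.1 he2
  have a6 := abs_le.1 s8
  rw [abs_le]
  constructor
  · linarith [a1.1, a2.1, a3.1, a4.2, a5.2, a6.2]
  · linarith [a1.2, a2.2, a3.2, a4.1, a5.1, a6.1]

/-- **the slopes of the step on the two rays** -/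
theorem phW (h1 : 1 ≤ K) (hM : 1 ≤ M) {A h q : ℕ} {F : Fu} {s : ℝ} (hK : C.Ok K ω) (hK' : C.Ok K ω')
    (hw : OkW C K A i F s ω) (hw' : OkW C K A i F s ω') (hT : C.T i ω = C.T i ω')
    (hv : fl1 b (C.l ω).v = fl1 b (C.l ω').v)
    (hA : A + 2 * b ≤ h) (hq : b ≤ q) (hb : K ^ 2 * M * q2 (2 * b) ≤ 1)
    (hc : ClW M h q F (C.l ω) (C.l ω') s) :
    |(C.F i ω').ph - (C.F i ω).ph| ≤ 40 * (K ^ 5 * M * q2 (C.R i b)) := by
  have hN := nrW h1 hM hK' hw hw' hv hA hq hb hc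
  have K0 : 0 < K := by linarith
  have M0 : 0 < M := by linarith
  have hsi : C.s i ω' = C.s i ω := s_eq hT
  have hrk := C.R_le_rk i b
  have hrf := C.R_le_rf i b
  have cVi := F_cV (C := C) i ω
  have cVi' := F_cV (C := C) i ω'
  have cNi := F_cN (C := C) i ω
  have cNi' := F_cN (C := C) i ω'
  have A0 := q2_pos A
  have ρ0 := q2_pos (C.rk i)
  have β0 := q2_pos b
  have β1 := q2_le_one b
  have x1 : q2 (C.rk i) * q2 b ≤ q2 (C.R i b) := by rw [← q2_add]; exact q2_le (by omega)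
  have x2 : q2 (C.rf i) ≤ q2 (C.R i b) := q2_le hrf
  have x3 : q2 h ≤ q2 A * (q2 b * q2 b) := by rw [← q2_add, ← q2_add]; exact q2_le (by omega)
  have hβH : M * q2 h / q2 A ≤ M * q2 b := by
    rw [div_le_iff₀ A0]
    have : q2 A * (q2 b * q2 b) ≤ q2 A * (q2 b * 1) := by gcongr
    nlinarith
  -- the agreement
  have g1 : |F.ka - ((C.F i ω).ka - (s - C.s i ω) * (C.F i ω).al)| ≤ K * q2 (C.rk i) := hw.ag.ka
  have g2 : |F.al - (C.F i ω).al| ≤ K * q2 (C.rk i) / q2 A := by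
    rw [le_div_iff₀ A0]; exact hw.ag.al
  have g3 : |(C.F i ω).cN (C.l ω) (C.s i ω) - F.cN (C.l ω) s| ≤ K * q2 (C.rk i) := by
    have := hw.ag.cN
    rw [sh_cN] at this
    rwa [abs_sub_comm]
  have d1 : ∀ {x : ℝ}, |x| ≤ M * q2 h → |(F.al - (C.F i ω).al) * x| ≤ K * M * q2 (C.R i b) := by
    intro x hx
    refine (abs_mul_le g2 hx).trans ?_
    calc K * q2 (C.rk i) / q2 A * (M * q2 h) = K * q2 (C.rk i) * (M * q2 h / q2 A) := by ring
      _ ≤ K * q2 (C.rk i) * (M * q2 b) := mul_le_mul_of_nonneg_left hβH (by positivity)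
      _ = K * M * (q2 (C.rk i) * q2 b) := by ring
      _ ≤ _ := mul_le_mul_of_nonneg_left x1 (by positivity)
  have d2 : ∀ {x : ℝ}, |x| ≤ M * q2 h → |F.al * x| ≤ K * M * q2 b := by
    intro x hx
    refine (abs_mul_le hw.al_le hx).trans ?_
    calc K / q2 A * (M * q2 h) = K * (M * q2 h / q2 A) := by ring
      _ ≤ K * (M * q2 b) := mul_le_mul_of_nonneg_left hβH K0.le
      _ = _ := by ring
  have k13 : K ≤ K ^ 3 := by
    calc K = K ^ 1 := (pow_one K).symm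
      _ ≤ K ^ 3 := pow_le_pow_right₀ h1 (by norm_num)
  have Xi : (C.l ω).X (C.s i ω) = (C.l ω).X s + (C.s i ω - s) * (C.l ω).v := by
    rw [← Ray.X_add]; congr 1; ring
  have Xi' : (C.l ω').X (C.s i ω) = (C.l ω').X s + (C.s i ω - s) * (C.l ω').v := by
    rw [← Ray.X_add]; congr 1; ring
  have Ni : (C.l ω).N (C.s i ω) = (C.l ω).N s + (C.s i ω - s) * (C.l ω).w := by
    rw [← Ray.N_add]; congr 1; ring
  have Ni' : (C.l ω').N (C.s i ω) = (C.l ω').N s + (C.s i ω - s) * (C.l ω').w := by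
    rw [← Ray.N_add]; congr 1; ring
  rw [F_ga hT, F_ka hT, F_al hT, hsi] at cNi'
  have hn' := cN_abs hK' h1 i
  unfold Fu.cV at cVi cVi'
  rw [F_ka hT, F_al hT, hsi] at cVi'
  rw [hsi] at hn'
  refine ph_arith (n := (C.F i ω).cN (C.l ω) (C.s i ω)) (n' := (C.F i ω').cN (C.l ω') (C.s i ω))
    (c := F.cN (C.l ω) s) (c' := F.cN (C.l ω') s) (p := C.p ω) (p' := C.p ω')
    (e := F.cV (C.l ω) s - C.p ω * F.cN (C.l ω) s) (e' := F.cV (C.l ω') s - C.p ω' * F.cN (C.l ω') s)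
    (rp := rd (C.rf i) (C.p ω)) (rp' := rd (C.rf i) (C.p ω'))
    (x1 := -((F.ka - ((C.F i ω).ka - (s - C.s i ω) * (C.F i ω).al)) * ((C.l ω').v - (C.l ω).v)) +
      -((F.al - (C.F i ω).al) * ((C.l ω').X s - (C.l ω).X s)))
    (x2 := (F.ka - ((C.F i ω).ka - (s - C.s i ω) * (C.F i ω).al)) * ((C.l ω').w - (C.l ω).w) +
      (F.al - (C.F i ω).al) * ((C.l ω').N s - (C.l ω).N s))
    (x3 := F.ka * ((C.l ω').v - (C.l ω).v) + F.al * ((C.l ω').X s - (C.l ω).X s))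
    (x4 := -(F.ka * ((C.l ω').w - (C.l ω).w)) + -(F.al * ((C.l ω').N s - (C.l ω).N s)))
    h1 hM β0.le ρ0.le x1 (q2_pos (C.rf i)).le x2 (q2_le_one _) ?_ ?_ ?_ (hK'.p1.trans (q2_le_one _)) hw.n1
    (cN_abs hK h1 i) hn' g3 hw.pv hw'.pv (rd_err _ _) (rd_err _ _) ?_ ?_ ?_ ?_
  · rw [Xi] at cVi
    rw [Xi'] at cVi'
    unfold Fu.cV
    linear_combination cVi' - cVi
  · rw [Ni] at cNi
    rw [Ni'] at cNi'
    have e1 := cN_dif F (C.l ω) (C.l ω') s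
    linear_combination cNi' - cNi - e1
  · have e1 := cN_dif F (C.l ω) (C.l ω') s
    have e2 := cV_dif F (C.l ω) (C.l ω') s
    linear_combination e2 - C.p ω' * e1
  · have t1 : |(F.ka - ((C.F i ω).ka - (s - C.s i ω) * (C.F i ω).al)) * ((C.l ω').v - (C.l ω).v)| ≤
        K * M * q2 (C.R i b) := by
      refine (abs_mul_le g1 hN.v).trans ?_
      calc K * q2 (C.rk i) * q2 b = K * 1 * (q2 (C.rk i) * q2 b) := by ring
        _ ≤ K * M * (q2 (C.rk i) * q2 b) := by gcongr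
        _ ≤ _ := mul_le_mul_of_nonneg_left x1 (by positivity)
    have t2 := d1 hN.X
    refine (abs_add_le _ _).trans ?_
    rw [abs_neg, abs_neg]
    linarith
  · have t1 : |(F.ka - ((C.F i ω).ka - (s - C.s i ω) * (C.F i ω).al)) * ((C.l ω').w - (C.l ω).w)| ≤
        10 * (K ^ 3 * M * q2 (C.R i b)) := by
      refine (abs_mul_le g1 hN.w).trans ?_
      calc K * q2 (C.rk i) * (10 * K ^ 2 * M * q2 b) = 10 * (K ^ 3 * M * (q2 (C.rk i) * q2 b)) := by ring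
        _ ≤ _ := by gcongr
    have t2 := d1 hN.N
    have t3 : K * M * q2 (C.R i b) ≤ K ^ 3 * M * q2 (C.R i b) := by
      have := (q2_pos (C.R i b)).le
      gcongr
    exact (abs_add_le _ _).trans (by linarith)
  · have t1 : |F.ka * ((C.l ω').v - (C.l ω).v)| ≤ K * M * q2 b := by
      refine (abs_mul_le hw.k1 hN.v).trans ?_
      calc K * q2 b = K * 1 * q2 b := by ring
        _ ≤ _ := by gcongr
    have t2 := d2 hN.X
    exact (abs_add_le _ _).trans (by linarith)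
  · have t1 : |F.ka * ((C.l ω').w - (C.l ω).w)| ≤ 10 * K ^ 3 * M * q2 b := by
      refine (abs_mul_le hw.k1 hN.w).trans (le_of_eq (by ring))
    have t2 := d2 hN.N
    have t3 : K * M * q2 b ≤ K ^ 3 * M * q2 b := by gcongr
    refine (abs_add_le _ _).trans ?_
    rw [abs_neg, abs_neg]
    linarith

lemma one_le_cst (h1 : 1 ≤ K) (hM : 1 ≤ M) : 1 ≤ cst K M := by
  have K7 : 1 ≤ K ^ 7 := one_le_pow₀ h1
  have M2 : 1 ≤ M ^ 2 := one_le_pow₀ hM
  unfold cst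
  nlinarith

/-- **(N4), closeness** : the end label, the letter and the digits of the velocity determine the cell of the
step `i` up to the margins -/
theorem clo_of_W (h1 : 1 ≤ K) (hM : 1 ≤ M) {A h q : ℕ} {F : Fu} {s : ℝ} (hK : C.Ok K ω) (hK' : C.Ok K ω')
    (hw : OkW C K A i F s ω) (hw' : OkW C K A i F s ω') (hT : C.T i ω = C.T i ω')
    (hv : fl1 b (C.l ω).v = fl1 b (C.l ω').v)
    (ha : C.a i ≤ A) (hA : A + 2 * b ≤ h) (hq : C.R i b + b ≤ q) (hb : K ^ 2 * M * q2 (2 * b) ≤ 1)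
    (hc : ClW M h q F (C.l ω) (C.l ω') s) : C.Clo i b (cst K M) ω ω' := by
  have hN := nrF h1 hM hK hK' hw hw' hv ha hA hq hb hc
  have hp := phW h1 hM hK hK' hw hw' hT hv hA (by omega) hb hc
  have c1 := one_le_cst h1 hM
  have c0 : 0 ≤ cst K M := by linarith
  refine ⟨hT, hv, hN.mono le_rfl le_rfl le_rfl le_rfl ?_ ?_ ?_, hp.trans ?_⟩
  · exact mul_le_mul_of_nonneg_left (q2_le (by omega)) c0
  · exact mul_le_mul_of_nonneg_left (q2_le (by omega)) c0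
  · exact mul_le_mul_of_nonneg_left (q2_le (by omega)) c0
  · have a5 : M ≤ M ^ 2 := by nlinarith
    have a6 : K ^ 5 ≤ K ^ 7 := pow_le_pow_right₀ h1 (by norm_num)
    have K0 : 0 < K := by linarith
    have M0 : 0 < M := by linarith
    have e : K ^ 5 * M ≤ K ^ 7 * M ^ 2 := by gcongr
    have x0 : 0 ≤ K ^ 7 * M ^ 2 := by positivity
    have u : q2 (C.R i b) ≤ q2 (C.R i b - 2 * C.μ) := q2_le (by omega)
    calc 40 * (K ^ 5 * M * q2 (C.R i b)) ≤ 40 * (K ^ 7 * M ^ 2 * q2 (C.R i b - 2 * C.μ)) := by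
          have := (q2_pos (C.R i b)).le
          gcongr
      _ ≤ cst K M * q2 (C.R i b - 2 * C.μ) := by
          unfold cst
          have := (q2_pos (C.R i b - 2 * C.μ)).le
          have y0 := mul_nonneg x0 this
          linarith

/-- **(N4)** the cell of the step is a function of the end label, of the letter and of the digits of the
velocity, outside `Bad` -/
theorem cell_of_W (h1 : 1 ≤ K) (hM : 1 ≤ M) {A h q : ℕ} {F : Fu} {s : ℝ} (hK : C.Ok K ω) (hK' : C.Ok K ω')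
    (hw : OkW C K A i F s ω) (hw' : OkW C K A i F s ω') (hT : C.T i ω = C.T i ω')
    (hv : fl1 b (C.l ω).v = fl1 b (C.l ω').v) (hl : C.Lev i b)
    (ha : C.a i ≤ A) (hA : A + 2 * b ≤ h) (hq : C.R i b + b ≤ q) (hb : K ^ 2 * M * q2 (2 * b) ≤ 1)
    (hc : ClW M h q F (C.l ω) (C.l ω') s) (hB : ¬ C.Bad (4 * cst K M) i b ω) : C.cell i b ω = C.cell i b ω' :=
  (clo_of_W h1 hM hK hK' hw hw' hT hv ha hA hq hb hc).cell hl (one_le_cst h1 hM) hB

/-! ### entropies -/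

/-- the numbers of two close cells with the same digits of `w` and of the slope -/
theorem va_of_clo {c : ℝ} (h : C.Clo i b c ω ω') (hl : C.Lev i b) (hc : 1 ≤ c)
    (f1 : fl1 (b - C.μ) ((C.l ω).w + C.o 1) = fl1 (b - C.μ) ((C.l ω').w + C.o 1))
    (f4 : fl1 (C.R i b - 3 * C.μ) (C.sl i b ω + C.o 4) = fl1 (C.R i b - 3 * C.μ) (C.sl i b ω' + C.o 4))
    (k : Fin 7) : |C.va i b ω' k - C.va i b ω k| ≤ 3 * c * q2 (C.lv i b k) := by
  obtain ⟨hT, hv, hN, hp⟩ := h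
  obtain ⟨hb, hR⟩ := hl
  have c0 : 0 ≤ c := by linarith
  have eF : C.Fr i b (C.R i b - 3 * C.μ) ω' = C.Fr i b (C.R i b - 3 * C.μ) ω := Fr_eq hT hv f4
  have hF := C.Fr_ph i b (C.R i b - 3 * C.μ) ω
  have g5 : ∀ l, (C.Fr i b (C.R i b - 3 * C.μ) ω).gd l (C.s i ω) = (C.F i ω).gd l (C.s i ω) +
      ((C.F i ω).ph - (C.Fr i b (C.R i b - 3 * C.μ) ω).ph) * l.v := fun l => Fu.gd_ph _ _ _ _
  have g6 : ∀ l, (C.Fr i b (C.R i b - 3 * C.μ) ω).g l (C.s i ω) = (C.F i ω).g l (C.s i ω) +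
      ((C.F i ω).ph - (C.Fr i b (C.R i b - 3 * C.μ) ω).ph) * l.X (C.s i ω) :=
    fun l => Fu.g_ph _ _ _ _
  have up : ∀ {m n : ℕ}, m ≤ n → c * q2 n ≤ c * q2 m := fun hmn => mul_le_mul_of_nonneg_left (q2_le hmn) c0
  fin_cases k
  · show |C.va i b ω' 0 - C.va i b ω 0| ≤ 3 * c * q2 (C.lv i b 0)
    rw [va0, va0, s_eq hT, lv0]
    have e := up (show C.a i + b - C.μ ≤ C.a i + b by omega)
    have := mul_nonneg c0 (q2_pos (C.a i + b - C.μ)).le
    exact hN.X.trans (by linarith)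
  · show |C.va i b ω' 1 - C.va i b ω 1| ≤ 3 * c * q2 (C.lv i b 1)
    rw [va1, va1, lv1]
    have e := up (show b - C.μ ≤ b by omega)
    have := mul_nonneg c0 (q2_pos (b - C.μ)).le
    exact hN.w.trans (by linarith)
  · show |C.va i b ω' 2 - C.va i b ω 2| ≤ 3 * c * q2 (C.lv i b 2)
    rw [va2, va2, s_eq hT, lv2]
    have e := up (show C.a i + b - C.μ ≤ C.a i + b by omega)
    have := mul_nonneg c0 (q2_pos (C.a i + b - C.μ)).le
    exact hN.N.trans (by linarith)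
  · show |C.va i b ω' 3 - C.va i b ω 3| ≤ 3 * c * q2 (C.lv i b 3)
    rw [va3, va3, s_eq hT, lv3, Zs_sub hv f1]
    set Q := q2 (C.a i + 2 * b - 3 * C.μ) with hQ
    have t0 : c * q2 (C.a i + 2 * b - C.μ) ≤ c * Q := up (by omega)
    have t1 : |((C.l ω).v - rd b (C.l ω).v) * ((C.l ω').X (C.s i ω) - (C.l ω).X (C.s i ω))| ≤ c * Q := by
      have e := rd_err b (C.l ω).v
      rw [abs_sub_comm] at e
      refine (abs_mul_le e hN.X).trans ?_
      calc q2 b * (c * q2 (C.a i + b)) = c * (q2 b * q2 (C.a i + b)) := by ring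
        _ ≤ _ := mul_le_mul_of_nonneg_left (by rw [← q2_add]; exact q2_le (by omega)) c0
    have t2 : |((C.l ω).w - C.ro 1 (b - C.μ) (C.l ω).w) *
        ((C.l ω').N (C.s i ω) - (C.l ω).N (C.s i ω))| ≤ c * Q := by
      refine (abs_mul_le (C.ro_err 1 (b - C.μ) (C.l ω).w) hN.N).trans ?_
      calc q2 (b - C.μ) * (c * q2 (C.a i + b)) = c * (q2 (b - C.μ) * q2 (C.a i + b)) := by ring
        _ ≤ _ := mul_le_mul_of_nonneg_left (by rw [← q2_add]; exact q2_le (by omega)) c0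
    exact (abs_add3 (hN.z.trans t0) t1 t2).trans (by linarith)
  · show |C.va i b ω' 4 - C.va i b ω 4| ≤ 3 * c * q2 (C.lv i b 4)
    rw [va4, va4, sl_sub hT hv, lv4]
    have e := up (show C.R i b - 3 * C.μ ≤ C.R i b - 2 * C.μ by omega)
    have := mul_nonneg c0 (q2_pos (C.R i b - 3 * C.μ)).le
    exact hp.trans (by linarith)
  · show |C.va i b ω' 5 - C.va i b ω 5| ≤ 3 * c * q2 (C.lv i b 5)
    rw [va5, va5, s_eq hT, eF, g5, g5, lv5]
    set Q := q2 (C.R i b + b - 5 * C.μ) with hQ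
    have q : 0 < Q := q2_pos _
    have t0 : c * q2 (C.R i b + b - 4 * C.μ) ≤ c * Q := up (by omega)
    have t1 : |((C.F i ω).ph - (C.Fr i b (C.R i b - 3 * C.μ) ω).ph) *
        ((C.l ω').v - (C.l ω).v)| ≤ Q := by
      refine (abs_mul_le hF hN.v).trans ?_
      rw [← q2_add]; exact q2_le (by omega)
    have t2 := hN.c
    have t3 : Q ≤ c * Q := by nlinarith
    rw [abs_le] at t1 t2 ⊢
    constructor
    · linarith [t1.1, t2.1]
    · linarith [t1.2, t2.2]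
  · show |C.va i b ω' 6 - C.va i b ω 6| ≤ 3 * c * q2 (C.lv i b 6)
    rw [va6, va6, s_eq hT, eF, g6, g6, lv6]
    set Q := q2 (C.a i + b + C.R i b - 7 * C.μ) with hQ
    have q : 0 < Q := q2_pos _
    have t0 : c * q2 (C.a i + b + C.R i b - 6 * C.μ) ≤ c * Q := up (by omega)
    have t1 : |((C.F i ω).ph - (C.Fr i b (C.R i b - 3 * C.μ) ω).ph) *
        ((C.l ω').X (C.s i ω) - (C.l ω).X (C.s i ω))| ≤ c * Q := by
      refine (abs_mul_le hF hN.X).trans ?_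
      calc q2 (C.R i b - 3 * C.μ) * (c * q2 (C.a i + b)) =
          c * (q2 (C.R i b - 3 * C.μ) * q2 (C.a i + b)) := by ring
        _ ≤ _ := by
          apply mul_le_mul_of_nonneg_left _ c0
          rw [← q2_add]; exact q2_le (by omega)
    have t2 := hN.g
    have t3 := mul_nonneg c0 q.le
    rw [abs_le] at t1 t2 ⊢
    constructor
    · linarith [t1.1, t2.1]
    · linarith [t1.2, t2.2]

section ent

variable [Fintype Ω] {T : Type*}

/-- an integer close to the integers of the same fibre -/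
lemma int_card (P : Law Ω) (f : Ω → ℤ) (Y : Ω → T) {m : ℕ}
    (h : ∀ ω ω', 0 < P.w ω → 0 < P.w ω' → Y ω = Y ω' → |f ω' - f ω| ≤ m + 1) :
    ∀ ω, 0 < P.w ω → ∃ F : Finset ℤ, F.card ≤ 2 * m + 3 ∧ ∀ ω', 0 < P.w ω' → Y ω' = Y ω → f ω' ∈ F := by
  intro ω hω
  refine ⟨Finset.Icc (f ω - (m + 1)) (f ω + (m + 1)), ?_, fun ω' hω' e => ?_⟩
  · rw [Int.card_Icc]
    have : f ω + (m + 1) + 1 - (f ω - (m + 1)) = ((2 * m + 3 : ℕ) : ℤ) := by push_cast; ring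
    rw [this, Int.toNat_natCast]
  · rw [Finset.mem_Icc]
    have := abs_le.1 (h ω ω' hω hω' e.symm)
    constructor <;> linarith [this.1, this.2]

/-- **close cells given `Y`** : the entropy of the cell given `Y` -/
theorem hc_of_clo (P : Law Ω) (C : Pth Ω τ) (Y : Ω → T) {c : ℝ} (hc1 : 1 ≤ c) (hl : C.Lev i b)
    (h : ∀ ω ω', 0 < P.w ω → 0 < P.w ω' → Y ω = Y ω' → C.Clo i b c ω ω') :
    hc P (C.cell i b) Y ≤ (6 + 10 * Real.log (2 * ⌈3 * c⌉₊ + 3)) * Real.sqrt (prE P (C.Bad (4 * c) i b)) := by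
  set m := ⌈3 * c⌉₊ with hm
  have hcm : 3 * c ≤ m := Nat.le_ceil _
  set B := C.Bad (4 * c) i b with hB
  set f1 : Ω → ℤ := fun ω => fl1 (b - C.μ) ((C.l ω).w + C.o 1) with hf1
  set f4 : Ω → ℤ := fun ω => fl1 (C.R i b - 3 * C.μ) (C.sl i b ω + C.o 4) with hf4
  have key : ∀ ω ω', 0 < P.w ω → 0 < P.w ω' → ¬ B ω → Y ω = Y ω' → C.cell i b ω = C.cell i b ω' :=
    fun ω ω' p p' n e => (h ω ω' p p' e).cell hl hc1 n
  have a1 : hc P f1 Y ≤ (2 + Real.log ((2 * m + 3 : ℕ) : ℝ)) * Real.sqrt (prE P B) := by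
    refine nhc P f1 Y B (2 * m + 3) (by omega)
      (fun ω ω' p p' n _ e => (cell_iff.1 (key ω ω' p p' n e)).2.2 1) (int_card P f1 Y fun ω ω' p p' e => ?_)
    refine fl1_le_of_near ?_
    rw [add_sub_add_right_eq_sub]
    have hb := q2_pos b
    have u : q2 b ≤ q2 (b - C.μ) := q2_le (by omega)
    have t := (h ω ω' p p' e).N.w
    calc _ ≤ c * q2 b := t
      _ ≤ m * q2 (b - C.μ) := mul_le_mul (by linarith) u hb.le (by linarith)
  have a4 : hc P f4 (fun ω => (f1 ω, Y ω)) ≤ (2 + Real.log ((2 * m + 3 : ℕ) : ℝ)) * Real.sqrt (prE P B) := by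
    refine nhc P f4 _ B (2 * m + 3) (by omega)
      (fun ω ω' p p' n _ e => (cell_iff.1 (key ω ω' p p' n (Prod.ext_iff.1 e).2)).2.2 4)
      (int_card P f4 _ fun ω ω' p p' e => ?_)
    have hcl := h ω ω' p p' (Prod.ext_iff.1 e).2
    refine fl1_le_of_near ?_
    rw [add_sub_add_right_eq_sub, sl_sub hcl.T hcl.v]
    have u : q2 (C.R i b - 2 * C.μ) ≤ q2 (C.R i b - 3 * C.μ) := q2_le (by omega)
    calc _ ≤ c * q2 (C.R i b - 2 * C.μ) := hcl.ph
      _ ≤ m * q2 (C.R i b - 3 * C.μ) := mul_le_mul (by linarith) u (q2_pos _).le (by linarith)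
  have a7 : hc P (C.cell i b) (fun ω => (f4 ω, f1 ω, Y ω)) ≤
      (2 + 8 * Real.log (2 * m + 3)) * Real.sqrt (prE P B) := by
    refine nhc_cell P C _ B (fun ω ω' p p' e => ?_) fun ω ω' p p' n _ e => ?_
    · have e1 := (Prod.ext_iff.1 e).1
      have e2 := (Prod.ext_iff.1 (Prod.ext_iff.1 e).2).1
      have hcl := h ω ω' p p' (Prod.ext_iff.1 (Prod.ext_iff.1 e).2).2
      refine ⟨hcl.T, ?_, fun k => ?_⟩
      · rw [abs_sub_comm]
        refine (near_of_fl hcl.v).trans ?_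
        have := q2_pos b
        nlinarith
      · rw [abs_sub_comm]
        refine (va_of_clo hcl hl hc1 e2 e1 k).trans ?_
        exact mul_le_mul_of_nonneg_right hcm (q2_pos _).le
    · have := key ω ω' p p' n (Prod.ext_iff.1 (Prod.ext_iff.1 e).2).2
      exact (Prod.ext_iff.1 this).2
  have e1 : hc P (C.cell i b) Y ≤ hc P (fun ω => (f1 ω, C.cell i b ω)) Y :=
    hc_mono_left P fun ω ω' _ _ h => by
      simp only [Prod.mk.injEq] at h
      exact h.1.2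
  have e2 := hc_pair P f1 (C.cell i b) Y
  have e3 : hc P (C.cell i b) (fun ω => (f1 ω, Y ω)) ≤ hc P (fun ω => (f4 ω, C.cell i b ω)) (fun ω => (f1 ω, Y ω)) :=
    hc_mono_left P fun ω ω' _ _ h => by
      simp only [Prod.mk.injEq] at h
      exact h.1.2
  have e4 := hc_pair P f4 (C.cell i b) (fun ω => (f1 ω, Y ω))
  push_cast at a1 a4
  have hs := Real.sqrt_nonneg (prE P B)
  have : (6 + 10 * Real.log (2 * m + 3)) * Real.sqrt (prE P B) =
      (2 + Real.log (2 * m + 3)) * Real.sqrt (prE P B) + (2 + Real.log (2 * m + 3)) * Real.sqrt (prE P B) +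
      (2 + 8 * Real.log (2 * m + 3)) * Real.sqrt (prE P B) := by ring
  rw [this]
  linarith

/-- the data of the ends which a variable `Y` determines -/
structure Det (P : Law Ω) (C : Pth Ω τ) (M : ℝ) (i b h q : ℕ) (F : Ω → Fu) (s : Ω → ℝ) (Y : Ω → T) : Prop where
  eT : ∀ ω ω', 0 < P.w ω → 0 < P.w ω' → Y ω = Y ω' → C.T i ω = C.T i ω'
  ev : ∀ ω ω', 0 < P.w ω → 0 < P.w ω' → Y ω = Y ω' → fl1 b (C.l ω).v = fl1 b (C.l ω').v
  eF : ∀ ω ω', 0 < P.w ω → 0 < P.w ω' → Y ω = Y ω' → F ω = F ω'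
  es : ∀ ω ω', 0 < P.w ω → 0 < P.w ω' → Y ω = Y ω' → s ω = s ω'
  cl : ∀ ω ω', 0 < P.w ω → 0 < P.w ω' → Y ω = Y ω' → ClW M h q (F ω) (C.l ω) (C.l ω') (s ω)

/-- **[N4]** -/
theorem n4 (P : Law Ω) (C : Pth Ω τ) (Y : Ω → T) (h1 : 1 ≤ K) (hM : 1 ≤ M) {A h q : ℕ} {F : Ω → Fu} {s : Ω → ℝ}
    (hK : ∀ ω, 0 < P.w ω → C.Ok K ω) (hw : ∀ ω, 0 < P.w ω → OkW C K A i (F ω) (s ω) ω)
    (hY : Det P C M i b h q F s Y) (hl : C.Lev i b)
    (ha : C.a i ≤ A) (hA : A + 2 * b ≤ h) (hq : C.R i b + b ≤ q) (hb : K ^ 2 * M * q2 (2 * b) ≤ 1) :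
    hc P (C.cell i b) Y ≤ (6 + 10 * Real.log (2 * ⌈3 * cst K M⌉₊ + 3)) *
      Real.sqrt (prE P (C.Bad (4 * cst K M) i b)) := by
  refine hc_of_clo P C Y (one_le_cst h1 hM) hl fun ω ω' p p' e => ?_
  have hw' := hw ω' p'
  rw [← hY.eF ω ω' p p' e, ← hY.es ω ω' p p' e] at hw'
  exact clo_of_W h1 hM (hK ω p) (hK ω' p') (hw ω p) hw' (hY.eT ω ω' p p' e) (hY.ev ω ω' p p' e) ha hA hq hb
    (hY.cl ω ω' p p' e)

end ent

/-! ### the end label of `H786` -/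

/-- two rays of one box of `H786.Adp` (cap `0`) -/
theorem clW_of_bc {c : ℝ} (hc : 1 ≤ c) {h q : ℕ} {F : Fu} {s : ℝ} {l l' : Ray}
    (e : Vale.Agent.P106.U.H786.Adp.BC c h 0 q F s l l') : ClW (6 * c ^ 2) h q F l l' s := by
  have c2 : c ≤ c ^ 2 := by nlinarith
  have hq0 : ∀ n, (0 : ℝ) < q2 n := q2_pos
  have e1 := e.X
  have e2 := e.N
  have e3 := e.dz
  have e4 := e.gd
  have e5 := e.g
  rw [add_zero] at e1 e2
  rw [mul_zero, add_zero] at e3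
  refine ⟨?_, ?_, e3, ?_, ?_⟩
  · refine e1.trans (mul_le_mul_of_nonneg_right ?_ (hq0 h).le); linarith
  · refine e2.trans (mul_le_mul_of_nonneg_right ?_ (hq0 h).le); linarith
  · refine e4.trans (mul_le_mul_of_nonneg_right ?_ (hq0 q).le); linarith
  · refine e5.trans (mul_le_mul_of_nonneg_right ?_ (hq0 (h + q)).le); linarith

end Vale.Agent.P106.U.H364.N4
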