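import Vale.Agent.P106.U.H611.Props

/-!
# P106 / U / H364 : activity given a side variable of small entropy (block [ACT] of H611/Props)

`pActT : PActT`.

* `cq_pos`, `hc_eq_cq` : `H(X | Z) = E [- log P(X = own value | Z)]`;
* `ex_ratio` : `E [f(own value) / P(X = own value | Z)] ≤ ∑ f`;
* `act_one` : one block;
* `mi_tel` : the informations of the nested blocks telescope.
-/

set_option autoImplicit false

namespace Vale.Agent.P106.U.EndA

open Finset Vale.Agent.P127 Vale.Agent.P127.Stk Vale.Agent.P127.U.CellD Vale.Agent.P127.U.Mic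

section act

variable {Ω : Type} [Fintype Ω] {S T T' : Type*} (P : Law Ω)

theorem cq_own_pos (X : Ω → S) (Z : Ω → T) {ω : Ω} (h : 0 < P.w ω) : 0 < cq P X Z (X ω) (Z ω) :=
  div_pos (P.pr_pos (fun ω => (X ω, Z ω)) h) (P.pr_pos Z h)

theorem hc_eq_cq (X : Ω → S) (Z : Ω → T) :
    hc P X Z = P.ex (fun ω => - Real.log (cq P X Z (X ω) (Z ω))) := by
  unfold hc Law.H
  rw [← P.ex_sub]
  refine P.ex_congr fun ω hω => ?_
  unfold cq
  rw [Real.log_div (P.pr_pos (fun ω => (X ω, Z ω)) hω).ne' (P.pr_pos Z hω).ne']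
  ring

/-- `E [f(own value) / P(X = own value | Z)] ≤ 1` -/
theorem ex_ratio (X : Ω → S) (Z : Ω → T) (f : S → Ω → ℝ) (hf0 : ∀ x ω, 0 ≤ f x ω)
    (hfn : ∀ x ω ω', 0 < P.w ω → 0 < P.w ω' → Z ω = Z ω' → f x ω = f x ω')
    (hf1 : ∀ ω, 0 < P.w ω → ∑ x ∈ img X, f x ω ≤ 1) :
    P.ex (fun ω => f (X ω) ω / cq P X Z (X ω) (Z ω)) ≤ 1 := by
  rw [ex_own P X Z (fun x ω => f x ω / cq P X Z x (Z ω))
    (fun x ω ω' h h' e => by rw [hfn x ω ω' h h' e, e])]
  have h1 : ∑ x ∈ img X, P.ex (fun ω => cq P X Z x (Z ω) * (f x ω / cq P X Z x (Z ω))) ≤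
      ∑ x ∈ img X, P.ex (fun ω => f x ω) := by
    refine Finset.sum_le_sum fun x _ => P.ex_mono fun ω _ => ?_
    rcases (cq_nonneg P X Z x (Z ω)).eq_or_lt with h0 | h0
    · rw [← h0, zero_mul]
      exact hf0 x ω
    · rw [mul_div_cancel₀ _ h0.ne']
  refine h1.trans ?_
  have h2 : ∑ x ∈ img X, P.ex (fun ω => f x ω) = P.ex (fun ω => ∑ x ∈ img X, f x ω) := by
    unfold Law.ex
    rw [Finset.sum_comm]
    exact Finset.sum_congr rfl fun ω _ => by rw [Finset.mul_sum]
  rw [h2]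
  refine (P.ex_mono (g := fun _ => 1) fun ω hω => hf1 ω hω).trans (le_of_eq ?_)
  rw [P.ex_const]

theorem cq_sum_le (X : Ω → S) (Z : Ω → T) (z : T) (F : Finset S) : ∑ x ∈ F, cq P X Z x z ≤ 1 := by
  unfold cq
  rw [← Finset.sum_div]
  exact div_le_one_of_le₀ (P.sum_pr_pair_le X Z z F) (P.pr_nonneg _ _)

/-- `E [P(own | Z') / P(own | Z)] ≤ 1` for `Z'` a function of `Z` -/
theorem ex_cq_ratio (X : Ω → S) (Z : Ω → T) (Z' : Ω → T') (h : Fn P Z' Z) :
    P.ex (fun ω => cq P X Z' (X ω) (Z' ω) / cq P X Z (X ω) (Z ω)) ≤ 1 :=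
  ex_ratio P X Z (fun x ω => cq P X Z' x (Z' ω)) (fun x ω => cq_nonneg P X Z' x _)
    (fun x ω ω' p p' e => by rw [h ω ω' p p' e]) fun ω _ => cq_sum_le P X Z' _ _

/-- one block -/
theorem act_one (X : Ω → S) (Z : Ω → T) (Z' : Ω → T') (h : Fn P Z' Z) (thr : ℝ) (h0 : 0 < thr)
    (h1 : thr < 1) :
    colp P X Z ≤ prE P (fun ω => thr ^ 2 < cq P X Z' (X ω) (Z' ω)) + thr +
      (hc P X Z' - hc P X Z + 1) / Real.log (1 / thr) := by
  classical
  have hl : 0 < Real.log (1 / thr) := Real.log_pos (by rw [lt_div_iff₀ h0]; linarith)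
  set p : Ω → ℝ := fun ω => cq P X Z' (X ω) (Z' ω) with hp
  set q : Ω → ℝ := fun ω => cq P X Z (X ω) (Z ω) with hq
  have hpr : prE P (fun ω => thr ^ 2 < p ω) = P.ex (fun ω => if thr ^ 2 < p ω then 1 else 0) := by
    unfold prE Law.ex
    rw [Finset.sum_filter]
    refine Finset.sum_congr rfl fun ω _ => ?_
    by_cases h : thr ^ 2 < p ω
    · simp only [if_pos h, mul_one]
    · simp only [if_neg h, mul_zero]
  have key : P.ex q ≤ P.ex (fun ω => (if thr ^ 2 < p ω then 1 else 0) + thr +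
      (1 / Real.log (1 / thr)) * ((- Real.log (p ω)) - (- Real.log (q ω)) + p ω / q ω)) := by
    refine P.ex_mono fun ω hω => ?_
    have hp0 : 0 < p ω := by
      have := cq_own_pos P X Z' hω
      exact this
    have hq0 : 0 < q ω := cq_own_pos P X Z hω
    have hq1 : q ω ≤ 1 := cq_le_one P X Z _ _
    have hy : 0 < p ω / q ω := div_pos hp0 hq0
    have hlog : (- Real.log (p ω)) - (- Real.log (q ω)) = - Real.log (p ω / q ω) := by
      rw [Real.log_div hp0.ne' hq0.ne']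
      ring
    rw [hlog]
    have hly := Real.log_le_sub_one_of_pos hy
    have hnn : 0 ≤ (1 / Real.log (1 / thr)) * (- Real.log (p ω / q ω) + p ω / q ω) :=
      mul_nonneg (by positivity) (by linarith)
    by_cases ha : thr ^ 2 < p ω
    · rw [if_pos ha]
      linarith
    · rw [if_neg ha]
      by_cases hb : q ω ≤ thr
      · linarith
      · push Not at ha hb
        have h3 : p ω / q ω ≤ thr := by
          rw [div_le_iff₀ hq0]
          nlinarith
        have h4 : Real.log (1 / thr) ≤ - Real.log (p ω / q ω) := by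
          rw [one_div, Real.log_inv]
          have := Real.log_le_log hy h3
          linarith
        have h5 : 1 ≤ (1 / Real.log (1 / thr)) * (- Real.log (p ω / q ω) + p ω / q ω) := by
          rw [one_div, inv_mul_eq_div, le_div_iff₀ hl]
          linarith
        linarith
  have e1 : P.ex (fun ω => (if thr ^ 2 < p ω then (1 : ℝ) else 0) + thr +
      (1 / Real.log (1 / thr)) * ((- Real.log (p ω)) - (- Real.log (q ω)) + p ω / q ω)) =
      prE P (fun ω => thr ^ 2 < p ω) + thr +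
        (1 / Real.log (1 / thr)) * (hc P X Z' - hc P X Z + P.ex (fun ω => p ω / q ω)) := by
    rw [P.ex_add, P.ex_add, P.ex_const, P.ex_const_mul, P.ex_add, P.ex_sub, hpr, hc_eq_cq P X Z,
      hc_eq_cq P X Z']
  rw [e1] at key
  have h6 := ex_cq_ratio P X Z Z' h
  have h7 : (1 / Real.log (1 / thr)) * (hc P X Z' - hc P X Z + P.ex (fun ω => p ω / q ω)) ≤
      (hc P X Z' - hc P X Z + 1) / Real.log (1 / thr) := by
    rw [one_div, inv_mul_eq_div]
    refine div_le_div_of_nonneg_right ?_ hl.le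
    have : P.ex (fun ω => p ω / q ω) ≤ 1 := h6
    linarith
  have h8 : colp P X Z = P.ex q := rfl
  rw [h8]
  linarith

end act

/-- the informations of the nested blocks telescope -/
theorem mi_tel {Ω : Type} [Fintype Ω] {ξ ν τ : Type} (P : Law Ω) (l : Ω → ξ) (V : Ω → ν)
    (T : ℕ → Ω → τ) (n : ℕ) (hT : ∀ i, Fn P (T i) (T (i + 1))) :
    ∑ i ∈ range n, (hc P (T (i + 1)) (fun ω => (l ω, T i ω)) -
      hc P (T (i + 1)) (fun ω => (l ω, V ω, T i ω))) ≤ hc P V l := by
  have h1 : ∀ i, hc P (T (i + 1)) (fun ω => (l ω, T i ω)) = hc P (T (i + 1)) l - hc P (T i) l := by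
    intro i
    have h := hc_pair P (T i) (T (i + 1)) l
    have h2 : hc P (fun ω => (T i ω, T (i + 1) ω)) l = hc P (T (i + 1)) l :=
      hc_congr P (fun ω ω' p p' e => by
          simp only [Prod.mk.injEq] at e ⊢
          exact ⟨hT i ω ω' p p' e.1, e.1⟩)
        (fun ω ω' p p' e => by
          simp only [Prod.mk.injEq] at e
          exact e.1.2) (fun _ _ _ _ e => e) (fun _ _ _ _ e => e)
    have h3 : hc P (T (i + 1)) (fun ω => (l ω, T i ω)) =
        hc P (T (i + 1)) (fun ω => (T i ω, l ω)) :=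
      hc_congr P (fun _ _ _ _ e => congrArg Prod.fst e) (fun _ _ _ _ e => congrArg Prod.fst e)
        (fun _ _ _ _ e => by simp only [Prod.mk.injEq] at e ⊢; exact ⟨e.2, e.1⟩)
        (fun _ _ _ _ e => by simp only [Prod.mk.injEq] at e ⊢; exact ⟨e.2, e.1⟩)
    linarith
  have h1' : ∀ i, hc P (T (i + 1)) (fun ω => (l ω, V ω, T i ω)) =
      hc P (T (i + 1)) (fun ω => (l ω, V ω)) - hc P (T i) (fun ω => (l ω, V ω)) := by
    intro i
    have h := hc_pair P (T i) (T (i + 1)) (fun ω => (l ω, V ω))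
    have h2 : hc P (fun ω => (T i ω, T (i + 1) ω)) (fun ω => (l ω, V ω)) =
        hc P (T (i + 1)) (fun ω => (l ω, V ω)) :=
      hc_congr P (fun ω ω' p p' e => by
          simp only [Prod.mk.injEq] at e ⊢
          exact ⟨hT i ω ω' p p' e.1, e.1⟩)
        (fun ω ω' p p' e => by
          simp only [Prod.mk.injEq] at e
          exact e.1.2) (fun _ _ _ _ e => e) (fun _ _ _ _ e => e)
    have h3 : hc P (T (i + 1)) (fun ω => (l ω, V ω, T i ω)) =
        hc P (T (i + 1)) (fun ω => (T i ω, (l ω, V ω))) :=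
      hc_congr P (fun _ _ _ _ e => congrArg Prod.fst e) (fun _ _ _ _ e => congrArg Prod.fst e)
        (fun _ _ _ _ e => by simp only [Prod.mk.injEq] at e ⊢; exact ⟨e.2.1, e.2.2, e.1⟩)
        (fun _ _ _ _ e => by simp only [Prod.mk.injEq] at e ⊢; exact ⟨e.2.2, e.1, e.2.1⟩)
    linarith
  have h2 : ∑ i ∈ range n, (hc P (T (i + 1)) (fun ω => (l ω, T i ω)) -
      hc P (T (i + 1)) (fun ω => (l ω, V ω, T i ω))) =
      (hc P (T n) l - hc P (T 0) l) -
        (hc P (T n) (fun ω => (l ω, V ω)) - hc P (T 0) (fun ω => (l ω, V ω))) := by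
    simp only [h1, h1']
    rw [Finset.sum_sub_distrib, Finset.sum_range_sub (fun i => hc P (T i) l),
      Finset.sum_range_sub (fun i => hc P (T i) (fun ω => (l ω, V ω)))]
  rw [h2]
  -- `I(T n ; V | l) ≤ H(V | l)`, `I(T 0 ; V | l) ≥ 0`
  have h3 : hc P (T 0) (fun ω => (l ω, V ω)) ≤ hc P (T 0) l :=
    hc_mono_right P (T 0) fun _ _ _ _ e => congrArg Prod.fst e
  have h4 : hc P (T n) l ≤ hc P V l + hc P (T n) (fun ω => (V ω, l ω)) := hc_le_add P (T n) V l
  have h5 : hc P (T n) (fun ω => (V ω, l ω)) = hc P (T n) (fun ω => (l ω, V ω)) :=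
    hc_congr P (fun _ _ _ _ e => congrArg Prod.fst e) (fun _ _ _ _ e => congrArg Prod.fst e)
      (fun _ _ _ _ e => by simp only [Prod.mk.injEq] at e ⊢; exact ⟨e.2, e.1⟩)
      (fun _ _ _ _ e => by simp only [Prod.mk.injEq] at e ⊢; exact ⟨e.2, e.1⟩)
  linarith

/-- **[ACT]** -/
theorem pActT : PActT := by
  refine ⟨1, zero_le_one, ?_⟩
  intro Ω _ ξ ν τ P l V T n thr hT h0 h1
  have hl : 0 < Real.log (1 / thr) := Real.log_pos (by rw [lt_div_iff₀ h0]; linarith)
  have hs : ∑ i ∈ range n, colp P (T (i + 1)) (fun ω => (l ω, V ω, T i ω)) ≤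
      ∑ i ∈ range n, (prE P (fun ω => thr ^ 2 < cq P (T (i + 1)) (fun ω => (l ω, T i ω)) (T (i + 1) ω)
        (l ω, T i ω)) + thr + (hc P (T (i + 1)) (fun ω => (l ω, T i ω)) -
          hc P (T (i + 1)) (fun ω => (l ω, V ω, T i ω)) + 1) / Real.log (1 / thr)) := by
    refine Finset.sum_le_sum fun i _ => ?_
    exact act_one P (T (i + 1)) (fun ω => (l ω, V ω, T i ω)) (fun ω => (l ω, T i ω))
      (fun _ _ _ _ e => by simp only [Prod.mk.injEq] at e ⊢; exact ⟨e.1, e.2.2⟩) thr h0 h1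
  refine hs.trans ?_
  rw [Finset.sum_add_distrib, Finset.sum_add_distrib, Finset.sum_const, card_range, nsmul_eq_mul,
    ← Finset.sum_div, Finset.sum_add_distrib, Finset.sum_const, card_range, nsmul_eq_mul, mul_one]
  have h2 := mi_tel P l V T n hT
  have h3 : (∑ i ∈ range n, (hc P (T (i + 1)) (fun ω => (l ω, T i ω)) -
      hc P (T (i + 1)) (fun ω => (l ω, V ω, T i ω))) + (n : ℝ)) / Real.log (1 / thr) ≤
      (hc P V l + 1 * n) / Real.log (1 / thr) :=
    div_le_div_of_nonneg_right (by linarith) hl.le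
  linarith

end Vale.Agent.P106.U.EndA
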