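import Vale.Agent.P106.U.H786.SCs
import Vale.Agent.P106.U.H357.USg
import Vale.Agent.P106.U.H459.XB

/-!
# P106 / U / H364 : the collisions of the heavy row, kind 2 (helper364)

* `cTL_P`, `cYL_P` : helper357's collisions given `LDk (fz k k)` at a step of `IdP` = collisions given `DpM`.
* `Cx.cP_le` : both terms at one step; `Cx.sum2g` : the sum of any function with this pointwise bound, along a map.
* `facts` : an a-step of `AK .. {2}`: the index is in `IdP`, the reading index is a pair, `rf` grows.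
* `tq_of` : the good time step outside `XB`.
* **`cc_PB`** : the sum over `AK R Vs i0 XL {2}` outside `XB R i0 E`, at the stage.
-/

set_option autoImplicit false

namespace Vale.Agent.P106.U.H364.HO2

open Finset Filter Vale.Agent.P127 Vale.Agent.P106.W
open Vale.Agent.P127.Stk hiding cst
open Vale.Agent.P127.U.CellD (q2 q2_pos q2_add q2_le q2_mul_pow fl1_fl1)
open Vale.Agent.P127.U.Mic (colp colp_nonneg colp_congr)
open Vale.Agent.P106.U.Cell (Pth)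
open Vale.Agent.P106.U.S3 (Run kaL uL mt mt0 F2 F2o IdO IdK IdP At' exc lv Pf LDk)
open Vale.Agent.P106.U.H785.Mtr
open Vale.Agent.P106.U.H958 (mfz DpM eqAt_mfz)
open Vale.Agent.P106.U.S5 Vale.Agent.P106.U.MIC Vale.Agent.P106.U.H652
open Vale.Agent.P106.U.H786.SC
open Vale.Agent.P106.U.H357 (cTL cYL AK mem_AK XLv gd_of Gd)
open Vale.Agent.P106.U.H118 (Sdat)
open Vale.Agent.P106.U.H459 (rxI XB)
open Vale.Agent.P106.U.H833 (aN)
open Vale.Agent.P106.U.H931 (nx)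
open Vale.Agent.P106.U.H336 (kd)

section point

variable {Ω : Type} [Fintype Ω] {τ υ π : Type} {R : Run Ω τ υ} {p : Run.Num} {K c' g' gU c εc : ℝ} {B bS bV μ : ℕ}
  {F : Pf R π} {Vs Xs : Finset ℕ} {K' : ℝ} {o : Fin 7 → ℝ} {o' : ℕ → ℝ} {k q i g : ℕ}

/-- time, deep phi regime -/
theorem cTL_P (hk : k ∈ IdP R F B Vs Xs) (hμ : μ ≤ R.m * B) :
    cTL R.Q ((mt0 R F μ o o').fz k k) (R.m * R.b1) k g =
      colp R.Q (fun ω => fl1 (R.C.a k + g) (R.C.t ω)) (DpM (mt0 R F μ o o') k (R.m * R.b1)) := by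
  unfold H357.cTL
  rw [ldk_P hk hμ]
  have e : (fun ω => fl1 (((mt0 R F μ o o').fz k k).a k + g) (((mt0 R F μ o o').fz k k).t ω)) =
      fun ω => fl1 (R.C.a k + g) (R.C.t ω) := by
    funext ω
    show fl1 (R.C.a (max k k) + g) (R.C.t ω) = _
    rw [max_self]
  rw [e]
  exact dpm_eq _

/-- direction, deep phi regime -/
theorem cYL_P (hk : k ∈ IdP R F B Vs Xs) (hμ : μ ≤ R.m * B) :
    cYL R.Q ((mt0 R F μ o o').fz k k) (R.m * R.b1) k g =
      colp R.Q (fun ω => fl1 (R.m * R.b1 + g) (R.C.l ω).v) (DpM (mt0 R F μ o o') k (R.m * R.b1)) := by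
  unfold H357.cYL
  rw [ldk_P hk hμ]
  exact dpm_eq _

section cx

variable (h : Cx R p K c' g' gU c εc B bS bV F Vs Xs μ K' o o')

include h

/-- both terms at one step -/
theorem Cx.cP_le {ε : ℝ} {b0 d : ℕ} (hε : 0 ≤ ε) (hmg : R.m ≤ g) (hk : k ∈ IdP R F B Vs Xs) (t : Tq R p ε b0 k q)
    (hi : i ∈ At' R p B d k) (hin : i ≤ R.n) (hir : R.C.rf k + 8 * μ ≤ R.C.rf i)
    (h8 : 8 * μ ≤ d * R.m) (hd' : d * R.m + 9 * μ ≤ 2 * (R.m * B)) :
    cTL R.Q ((mt0 R F μ o o').fz k k) (R.m * R.b1) k g + cYL R.Q ((mt0 R F μ o o').fz k k) (R.m * R.b1) k g ≤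
      (138 * K * Real.sqrt (2 * ε) + 2 * εc) + (138 * K * Real.sqrt (3 * xL R μ K' o o' k) +
      (3 * xP R F μ K' o o' k i + 3 * xL R μ K' o o' k)) := by
  obtain ⟨k1, k2, k3⟩ := mem_IdP hk
  have hki : k ≤ i := by
    classical
    have hi' := hi
    unfold At' at hi'
    rw [Finset.mem_filter] at hi'
    exact hi'.2.1.le
  have hμ : μ ≤ R.m * B := h.μB.trans h.mB
  rw [cTL_P hk hμ, cYL_P hk hμ]
  have K1 := h.K1
  have hM : 32 * K ≤ (⌈32 * K⌉₊ : ℝ) := Nat.le_ceil _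
  have hM' : (⌈32 * K⌉₊ : ℝ) ≤ 32 * K + 1 := (Nat.ceil_lt_add_one (by linarith)).le
  have a1 := h.cT2 (b' := R.m * R.b1) t.good k3 t.kq t.qn.le t.a hmg hM
  have a3 := h.cY2 (g := g) k2 k3 hki hin (h.reg_of hk hi h8 hd' hir) hmg
  have x0 := xL_nonneg (R := R) (μ := μ) (K' := K') (o := o) (o' := o') k
  have y0 : 0 ≤ 2 * ε + 3 * xL R μ K' o o' k := by linarith
  set L : ℝ := 2 * (⌈32 * K⌉₊ : ℝ) + 3 with hL
  have L1 : 1 ≤ L := by linarith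
  have L2 : L ≤ 138 * K := by linarith
  have e1 : ((2 * ⌈32 * K⌉₊ + 3 : ℕ) : ℝ) = L := by rw [hL]; push_cast; ring
  rw [e1] at a1
  have b1 : Real.sqrt (L * (2 * ε + 3 * xL R μ K' o o' k)) ≤ L * Real.sqrt (2 * ε + 3 * xL R μ K' o o' k) := by
    rw [Real.sqrt_mul (by linarith)]
    refine mul_le_mul_of_nonneg_right ?_ (Real.sqrt_nonneg _)
    rw [Real.sqrt_le_left (by linarith)]
    nlinarith
  have b3 : Real.sqrt (2 * ε + 3 * xL R μ K' o o' k) ≤ Real.sqrt (2 * ε) + Real.sqrt (3 * xL R μ K' o o' k) :=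
    sqrt_add_le' (by linarith) (by linarith)
  have b4 := mul_le_mul_of_nonneg_left b3 (by linarith : 0 ≤ L)
  have b5 : L * (Real.sqrt (2 * ε) + Real.sqrt (3 * xL R μ K' o o' k)) ≤
      138 * K * (Real.sqrt (2 * ε) + Real.sqrt (3 * xL R μ K' o o' k)) :=
    mul_le_mul_of_nonneg_right L2 (by positivity)
  linarith

/-- **the sum along a map**, of a function with the pointwise bound of kind 2 -/
theorem Cx.sum2g {ε : ℝ} {d : ℕ} {T : Finset ℕ} {ph : ℕ → ℕ}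
    (inj : ∀ i ∈ T, ∀ j ∈ T, ph i = ph j → i = j) (hS : ∀ j ∈ T, ph j ∈ IdP R F B Vs Xs) (ι : ℕ → ℕ)
    (hd : d ≤ B) (hι : ∀ j ∈ T, ι j ∈ At' R p B d (ph j)) {f : ℕ → ℝ}
    (hf : ∀ j ∈ T, f j ≤ (138 * K * Real.sqrt (2 * ε) + 2 * εc) + (138 * K * Real.sqrt (3 * xL R μ K' o o' (ph j)) +
      (3 * xP R F μ K' o o' (ph j) (ι j) + 3 * xL R μ K' o o' (ph j)))) :
    ∑ j ∈ T, f j ≤ ((R.n : ℝ) + p.J + 1) * (138 * K * (Real.sqrt (2 * ε) +
      2 * K' * q2 (μ / 8)) + 2 * εc + 3 * (((d : ℝ) + 1) ^ 2 + 1) * (K' ^ 2 * q2 (μ / 4))) := by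
  classical
  have K1 := h.K1
  have hK := h.K'0
  have hS1 : T.image ph ⊆ IdP R F B Vs Xs := fun k hk => by
    obtain ⟨j, hj, rfl⟩ := Finset.mem_image.1 hk
    exact hS j hj
  have hS2 : T.image ph ⊆ range (R.n + 1) := fun k hk =>
    Finset.mem_range.2 (by have := (mem_IdP (hS1 hk)).2.1; omega)
  have s1 := h.sum_xL hS2
  set ι' : ℕ → ℕ := fun k => if hk : ∃ j ∈ T, ph j = k then ι hk.choose else 0 with hι'
  have e0 : ∀ j ∈ T, ι' (ph j) = ι j := by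
    intro j hj
    have hk : ∃ i ∈ T, ph i = ph j := ⟨j, hj, rfl⟩
    have e1 : ι' (ph j) = ι hk.choose := by
      rw [hι']
      simp only [dif_pos hk]
    rw [e1, inj _ hk.choose_spec.1 j hj hk.choose_spec.2]
  have s2 := h.sum_xP hS1 hd ι' fun k hk => by
    obtain ⟨j, hj, rfl⟩ := Finset.mem_image.1 hk
    rw [e0 j hj]
    exact hι j hj
  rw [Finset.sum_image inj] at s1 s2
  have s2' : ∑ j ∈ T, xP R F μ K' o o' (ph j) (ι j) ≤ ((d : ℝ) + 1) ^ 2 * xS R p μ K' := by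
    refine le_trans (le_of_eq ?_) s2
    refine Finset.sum_congr rfl fun j hj => ?_
    rw [e0 j hj]
  refine (Finset.sum_le_sum hf).trans ?_
  rw [Finset.sum_add_distrib, Finset.sum_const, nsmul_eq_mul, Finset.sum_add_distrib, Finset.sum_add_distrib,
    ← Finset.mul_sum, ← Finset.mul_sum, ← Finset.mul_sum]
  have N0 : (0 : ℝ) ≤ (R.n : ℝ) + p.J + 1 := by positivity
  have cS := card_map (p := p) inj fun j hj => (mem_IdP (hS j hj)).2.1
  have r1 := sqrt_sum T (fun j => 3 * xL R μ K' o o' (ph j)) fun j => by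
    have := xL_nonneg (R := R) (μ := μ) (K' := K') (o := o) (o' := o') (ph j)
    linarith
  rw [← Finset.mul_sum] at r1
  have r2 : Real.sqrt (3 * ∑ j ∈ T, xL R μ K' o o' (ph j)) ≤
      2 * K' * q2 (μ / 8) * Real.sqrt ((R.n : ℝ) + p.J + 1) := by
    have e1 : Real.sqrt (3 * ∑ j ∈ T, xL R μ K' o o' (ph j)) ≤
        Real.sqrt ((2 * K') ^ 2 * (((R.n : ℝ) + p.J + 1) * q2 (μ / 4))) := by
      refine Real.sqrt_le_sqrt ?_
      have e2 : 3 * ∑ j ∈ T, xL R μ K' o o' (ph j) ≤ 4 * xS R p μ K' := by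
        have : 0 ≤ ∑ j ∈ T, xL R μ K' o o' (ph j) := Finset.sum_nonneg fun k _ => xL_nonneg _
        linarith
      refine e2.trans (le_of_eq ?_)
      unfold H786.SC.xS
      ring
    refine e1.trans ?_
    rw [Real.sqrt_mul (by positivity), Real.sqrt_sq (by linarith), Real.sqrt_mul N0]
    have e3 := mul_le_mul_of_nonneg_left (sqrt_q2 μ) (Real.sqrt_nonneg ((R.n : ℝ) + p.J + 1))
    calc 2 * K' * (Real.sqrt ((R.n : ℝ) + p.J + 1) * Real.sqrt (q2 (μ / 4))) ≤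
        2 * K' * (Real.sqrt ((R.n : ℝ) + p.J + 1) * q2 (μ / 8)) := mul_le_mul_of_nonneg_left e3 (by linarith)
      _ = _ := by ring
  have r3 : ∑ j ∈ T, Real.sqrt (3 * xL R μ K' o o' (ph j)) ≤ ((R.n : ℝ) + p.J + 1) * (2 * K' * q2 (μ / 8)) := by
    refine r1.trans ?_
    have q0 := q2_pos (μ / 8)
    calc _ ≤ 2 * K' * q2 (μ / 8) * Real.sqrt ((R.n : ℝ) + p.J + 1) * Real.sqrt ((R.n : ℝ) + p.J + 1) :=
          mul_le_mul r2 (Real.sqrt_le_sqrt cS) (Real.sqrt_nonneg _) (by positivity)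
      _ = 2 * K' * q2 (μ / 8) * (Real.sqrt ((R.n : ℝ) + p.J + 1) * Real.sqrt ((R.n : ℝ) + p.J + 1)) := by ring
      _ = 2 * K' * q2 (μ / 8) * ((R.n : ℝ) + p.J + 1) := by rw [Real.mul_self_sqrt N0]
      _ = _ := by ring
  have r4 := mul_le_mul_of_nonneg_left r3 (by linarith : 0 ≤ 138 * K)
  have εc0 : 0 ≤ εc := (colp_nonneg _ _ _).trans h.cap.act
  have r5 : (T.card : ℝ) * (138 * K * Real.sqrt (2 * ε) + 2 * εc) ≤
      ((R.n : ℝ) + p.J + 1) * (138 * K * Real.sqrt (2 * ε) + 2 * εc) := by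
    refine mul_le_mul_of_nonneg_right cS ?_
    have := mul_nonneg (by linarith : 0 ≤ 138 * K) (Real.sqrt_nonneg (2 * ε))
    linarith
  have e : ((R.n : ℝ) + p.J + 1) * (138 * K * (Real.sqrt (2 * ε) + 2 * K' * q2 (μ / 8)) + 2 * εc +
      3 * (((d : ℝ) + 1) ^ 2 + 1) * (K' ^ 2 * q2 (μ / 4))) =
      ((R.n : ℝ) + p.J + 1) * (138 * K * Real.sqrt (2 * ε) + 2 * εc) +
        (138 * K * (((R.n : ℝ) + p.J + 1) * (2 * K' * q2 (μ / 8))) +
          (3 * (((d : ℝ) + 1) ^ 2 * xS R p μ K') + 3 * xS R p μ K')) := by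
    unfold H786.SC.xS; ring
  rw [e]
  linarith

end cx

/-! ### the a-steps of kind 2 -/

/-- **an a-step of kind 2** -/
theorem facts {i0 L d t : ℕ} {gd : ℕ → Prop} {XL : Finset ℕ} (hP : R.Path p)
    (D : Sdat (nz R i0) gd (az R i0) (rz R i0)) (h : F2 R p K B bS bV F Vs Xs) (hB : 1 ≤ B)
    (hX : XLv R B Vs Xs i0 L XL) (hd : 1 ≤ d) (hdL : d + 2 ≤ L) (ht : p.J * t ≤ d) {j : ℕ}
    (hj : j ∈ AK R Vs i0 XL {2}) :
    ix R i0 (j + 1) ∈ IdP R F B Vs Xs ∧ rxI R i0 d j ∈ At' R p B d (ix R i0 (j + 1)) ∧ rxI R i0 d j ≤ R.n ∧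
      R.C.rf (ix R i0 (j + 1)) + R.m * t ≤ R.C.rf (rxI R i0 d j) := by
  classical
  rw [mem_AK, Finset.mem_singleton] at hj
  obtain ⟨j1, j2, j3, j4⟩ := hj
  have G := gd_of hP D h hB hX hd (q := d + 1) (by omega) (by omega) j1 j2 j3
  have l1 : aN R (ix R i0 (j + 1)) = az R i0 j + 1 := j2
  have n1 : ix R i0 (j + 1) ≤ R.n := H459.ix_n _ _
  have n2 : rxI R i0 d j ≤ R.n := G.h23.trans G.h3n
  have m1 := hP.m1
  have l2 : aN R (rxI R i0 d j) = az R i0 j + 1 + d := by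
    have e1 := H459.a_ix (i0 := i0) hP (j + 1)
    unfold H833.aN
    rw [G.a2, e1, j2, Nat.mul_comm d, ← Nat.mul_add, Nat.mul_div_cancel_left _ m1]
  have w1 := G.reg _ n1 (by omega) (by omega)
  have w2 := G.reg _ n2 (by omega) (by omega)
  obtain ⟨v1, v2, v3⟩ := w1.2.2.2.2.2.1 j4
  obtain ⟨u1, u2, u3⟩ := w2.2.2.2.2.2.1 j4
  have hS := h.loS
  have hV := h.loV
  have hh := h.hi
  have e1 : R.m * (R.b1 + B) = R.m * R.b1 + R.m * B := by ring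
  have hx : R.m * R.b1 ≤ p.B₁ := by omega
  have f1 : R.C.R (ix R i0 (j + 1)) (R.m * R.b1) = R.C.rf (ix R i0 (j + 1)) := by
    rw [Pth.R_eq]
    have := F.l0 (ix R i0 (j + 1))
    omega
  have f2 : R.C.R (rxI R i0 d j) (R.m * R.b1) = R.C.rf (rxI R i0 d j) := by
    rw [Pth.R_eq]
    have := F.l0 (rxI R i0 d j)
    omega
  refine ⟨?_, G.at_, n2, ?_⟩
  · unfold IdP
    rw [Finset.mem_filter, Finset.mem_Icc]
    exact ⟨⟨w1.1, n1⟩, v1, w1.2.1, v3⟩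
  · have hln : az R i0 (j + 1) + d < az R i0 (nz R i0) := by
      have h0 : az R i0 0 ≤ az R i0 j := D.am (Nat.zero_le _) j1.le
      have h0' : az R i0 j < az R i0 (nz R i0) := by
        have := D.am (show j + 1 ≤ nz R i0 by omega) le_rfl
        omega
      have := (hX _ h0 h0' j3).1
      omega
    obtain ⟨y, q1, q2, q3, q4, q5, q6, q7, q8, q9⟩ := H459.rx_spec hP D hd j1 hln
    have h2 : rz R i0 (j + 1) + t ≤ rz R i0 y :=
      H833.advT hP (fun i k hik => H812.ix_mono' R i0 hik) (H459.ix_n i0 (nz R i0)) (x := R.b1) D hx t (j + 1) y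
        (by omega) q1.le (by
          show az R i0 (j + 1) + p.J * t ≤ az R i0 y
          omega)
    have r1 : R.C.R (ix R i0 (j + 1)) (R.m * R.b1) = R.r0 + R.m * rz R i0 (j + 1) := H812.R_ix hP i0 _
    have r2 : R.C.R (ix R i0 y) (R.m * R.b1) = R.r0 + R.m * rz R i0 y := H812.R_ix hP i0 y
    have h3 := Nat.mul_le_mul_left R.m h2
    rw [Nat.mul_add] at h3
    rw [← f1, ← f2, q5]
    omega

/-- the good time step -/
theorem tq_of {i0 : ℕ} {ε : ℝ} {E : Finset ℕ} (hP : R.Path p)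
    (D : Sdat (nz R i0) (gdR R p ε i0) (az R i0) (rz R i0))
    (hE : ∀ i < nz R i0, az R i0 (i + 1) = az R i0 i + 1 → ¬ gdR R p ε i0 i → i ∈ E) {j : ℕ} (hj : j < nz R i0)
    (ha : az R i0 (j + 1) = az R i0 j + 1) (hX : j ∉ XB R i0 E) :
    Tq R p ε (bc R) (ix R i0 (j + 1)) (ix R i0 (nx (nz R i0) (az R i0) (j + 1))) := by
  obtain ⟨x1, x2, x3, x4, x5⟩ := H459.XB_good D hE hj ha hX
  refine ⟨ix_mono R i0 x2, ?_, x5, ?_⟩
  · exact (H459.ix_strict hP (Nat.lt_succ_self _) x1).trans_le (H459.ix_n _ _)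
  · rw [H459.a_ix hP, H459.a_ix hP, x3]

end point

/-! ### the stage -/

section stage

variable {η : ℝ} {x : ℕ} {σ : Cst} {ε : ℝ} {ρ : Thr} {g : Gv} {m B h : ℕ}

/-- the number of levels to the late step -/
noncomputable def dP (ρ : Thr) (x : ℕ) : ℕ := ρ.J * MuS x

open Classical in
/-- **[SC] of the heavy row, kind 2** : `AK .. {2}` minus `XB`, any exceptional levels `XL` of reach `L ≥ ρ.J * MuS x + 2` -/
theorem cc_PB {κ : Bs → ℝ → ℕ → ℝ → ℝ → ℝ} (hκ : ∀ b η x δh e3, 0 < η → 0 < δh → 0 < e3 → 0 < κ b η x δh e3) :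
    Pre fun b η x δh e3 σ ε ρ => Suf σ ε fun g m B h => ∀ s : St η x σ ε ρ g m B h, ∀ (L : ℕ) (XL : Finset ℕ),
      ρ.J * MuS x + 2 ≤ L → XLv s.R B s.Vs s.Xs s.i0 L XL →
      (m : ℝ) * ∑ j ∈ AK s.R s.Vs s.i0 XL {2} \ XB s.R s.i0 s.E,
        (cTL s.R.Q ((mt0 s.R s.F (μS x m) s.o s.o').fz (ix s.R s.i0 (j + 1)) (ix s.R s.i0 (j + 1))) (s.R.m * s.R.b1)
          (ix s.R s.i0 (j + 1)) (MIC.gS x m) +
        cYL s.R.Q ((mt0 s.R s.F (μS x m) s.o s.o').fz (ix s.R s.i0 (j + 1)) (ix s.R s.i0 (j + 1))) (s.R.m * s.R.b1)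
          (ix s.R s.i0 (j + 1)) (MIC.gS x m)) ≤ κ b η x δh e3 * h := by
  intro b hb η hη x δh e3
  intros
  have hδ : 0 < δh := by assumption
  have he : 0 < e3 := by assumption
  refine ⟨1, one_pos, fun θ _ _ => ⟨1, one_pos, fun δ1 _ _ σ hσe hσ => ?_⟩⟩
  obtain ⟨ε0, hε0, H⟩ := num2 hσ (hκ b η x δh e3 hη hδ he)
  refine ⟨ε0, hε0, fun ε hε hε' ρ hρ => Suf.of_ev3 fun g _ => Ev3.out ?_⟩
  have hmg : Ev3 fun m _ _ => 1 ≤ m := Ev3.of_m (ev_nat 1)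
  refine ((H ε hε hε' ρ hρ x (ρ.J * MuS x)).and hmg).mono fun m B h N => ?_
  obtain ⟨⟨N1, N2, N3, N5, N6, N4⟩, m1⟩ := N
  intro s L XL hL hX
  have C := cx s hσ hρ N1 N2
  have hm := s.run.hm
  have hJ : s.pn.J = ρ.J := s.run.hJ
  have hP := C.ok.pth
  have J1 : 1 ≤ ρ.J := hJ ▸ C.J1
  have M1 : 1 ≤ MuS x := by
    unfold MuS MIC.xS cμ cN
    have := le_max_left 800 cφ
    have h1 : 0 < 8 * (8000 * max 800 cφ) * (x + 12) := by positivity
    omega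
  have d1 : 1 ≤ ρ.J * MuS x := Nat.mul_pos J1 M1
  have e8 : 8 * μS x m = MuS x * m := by
    unfold μS MuS
    ring
  have h8 : 8 * μS x m ≤ ρ.J * MuS x * s.R.m := by
    rw [hm, e8]
    exact Nat.mul_le_mul_right _ (Nat.le_mul_of_pos_left _ J1)
  have F0 : ∀ j ∈ AK s.R s.Vs s.i0 XL {2} \ XB s.R s.i0 s.E, ix s.R s.i0 (j + 1) ∈ IdP s.R s.F B s.Vs s.Xs ∧
      rxI s.R s.i0 (ρ.J * MuS x) j ∈ At' s.R s.pn B (ρ.J * MuS x) (ix s.R s.i0 (j + 1)) ∧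
      rxI s.R s.i0 (ρ.J * MuS x) j ≤ s.R.n ∧
      s.R.C.rf (ix s.R s.i0 (j + 1)) + 8 * μS x m ≤ s.R.C.rf (rxI s.R s.i0 (ρ.J * MuS x) j) := by
    intro j hj
    rw [Finset.mem_sdiff] at hj
    have := facts hP s.word.sd s.f2 C.B1 hX d1 hL (t := MuS x) (by rw [hJ]) hj.1
    rw [hm, Nat.mul_comm m, ← e8] at this
    exact this
  have inj : ∀ i ∈ AK s.R s.Vs s.i0 XL {2} \ XB s.R s.i0 s.E, ∀ j ∈ AK s.R s.Vs s.i0 XL {2} \ XB s.R s.i0 s.E,
      ix s.R s.i0 (i + 1) = ix s.R s.i0 (j + 1) → i = j := by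
    intro i hi j hj e
    rw [Finset.mem_sdiff, mem_AK] at hi hj
    refine H459.step_inj' s.word.sd hi.1.1 hj.1.1 hi.1.2.1 hj.1.2.1 ?_
    have e1 := H459.a_ix (i0 := s.i0) hP (i + 1)
    have e2 := H459.a_ix (i0 := s.i0) hP (j + 1)
    rw [e, e2] at e1
    exact (Nat.eq_of_mul_eq_mul_left hP.m1 e1).symm
  have hg : s.R.m ≤ MIC.gS x m := by
    rw [hm]
    unfold MIC.gS
    exact Nat.le_mul_of_pos_left m (by unfold MIC.xS; omega)
  have h1 := Cx.sum2g C (ε := eG ε ρ) inj (fun j hj => (F0 j hj).1) (rxI s.R s.i0 (ρ.J * MuS x)) N5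
    (fun j hj => (F0 j hj).2.1) (f := fun j =>
      cTL s.R.Q ((mt0 s.R s.F (μS x m) s.o s.o').fz (ix s.R s.i0 (j + 1)) (ix s.R s.i0 (j + 1))) (s.R.m * s.R.b1)
          (ix s.R s.i0 (j + 1)) (MIC.gS x m) +
        cYL s.R.Q ((mt0 s.R s.F (μS x m) s.o s.o').fz (ix s.R s.i0 (j + 1)) (ix s.R s.i0 (j + 1))) (s.R.m * s.R.b1)
          (ix s.R s.i0 (j + 1)) (MIC.gS x m)) fun j hj => by
      have hj' := hj
      rw [Finset.mem_sdiff, mem_AK] at hj'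
      have t := tq_of hP s.word.sd s.word.hE hj'.1.1 hj'.1.2.1 hj'.2
      obtain ⟨f1, f2, f3, f4⟩ := F0 j hj
      exact Cx.cP_le C (H931.eG_nonneg hε.le hρ) hg f1 t f2 f3 f4 h8 (by rw [hm]; exact N6)
  have h2 := m_n s N3
  rw [hm] at h2
  have m0 : (0 : ℝ) ≤ m := Nat.cast_nonneg _
  have h0 : (0 : ℝ) ≤ h := Nat.cast_nonneg _
  have K1 := hρ.K1
  have hKS : 0 ≤ KS ρ := C.K'0
  set Z : ℝ := 138 * ρ.K * (Real.sqrt (2 * eG ε ρ) + 2 * KS ρ * q2 (μS x m / 8)) + 2 * ε +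
    3 * ((((ρ.J * MuS x : ℕ) : ℝ) + 1) ^ 2 + 1) * (KS ρ ^ 2 * q2 (μS x m / 4)) with hZ
  have z : 0 ≤ Z := by
    have := q2_pos (μS x m / 4)
    have := q2_pos (μS x m / 8)
    have := Real.sqrt_nonneg (2 * eG ε ρ)
    positivity
  calc (m : ℝ) * _ ≤ m * (((s.R.n : ℝ) + s.pn.J + 1) * Z) := mul_le_mul_of_nonneg_left h1 m0
    _ = m * ((s.R.n : ℝ) + s.pn.J + 1) * Z := by ring
    _ ≤ (2 * σ.K1 + 4) * h * Z := mul_le_mul_of_nonneg_right h2 z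
    _ = (2 * σ.K1 + 4) * Z * h := by ring
    _ ≤ κ b η x δh e3 * h := mul_le_mul_of_nonneg_right N4 h0

end stage

end Vale.Agent.P106.U.H364.HO2
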