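import Vale.Agent.P106.U.H785.MtrOk
import Vale.Agent.P106.U.H364.N4

/-!
# P106 / U / H364 : [MTR-W], the cell `mtr i b` of 785 is a near-function of the end label (helper364)

* `HW D K A i F s ω` : the end label (functional `F`, written at the time `s`) at the point `ω` against the true numbers of `D`.
* `HW.okW` : `OkW` of `[N4]` for the path `D.p1 i` of one letter, class `8 K`.
* `lt_of_W` : the letters `lt i` agree (time digits, prefix given) outside the events `Nb` of kappa, gamma and `Bad`.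
* `mtr_of_W` : `mtr i b` agrees, pointwise.
* `BadM` : the exceptional event; `hc_mtr` : `H(mtr i b | Y) ≤ (12 + 13 log ..) √P(BadM)` for every variable `Y` which determines
  the end label, the time digits, the prefix and the digits of `v`.
-/

set_option autoImplicit false

namespace Vale.Agent.P106.U.H364.MtrW

open Finset Vale.Agent.P127 Vale.Agent.P127.Stk Vale.Agent.P106.U.Cell Vale.Agent.P106.U.Cell.Pth
open Vale.Agent.P127.U.CellD (q2 rd Nb q2_pos q2_add q2_mul_pow q2_le rd_err fl1_fl1)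
open Vale.Agent.P106.U.H785.Mtr
open Vale.Agent.P106.U.H364.N4

variable {Ω π : Type} {D : Mtd Ω π} {K M : ℝ} {I : Set ℕ} {i b : ℕ} {ω ω' : Ω} {A h q : ℕ} {F : Fu} {s : ℝ}

/-- the end label at the point `ω`: functional `F` written at the time `s`, against the true numbers of `D` -/
structure HW (D : Mtd Ω π) (K : ℝ) (A i : ℕ) (F : Fu) (s : ℝ) (ω : Ω) : Prop where
  un : D.un ω = F.cN (D.l ω) s
  ka : D.κ i ω = F.ka + D.al i ω * (s - D.s i ω)
  pv : |F.cV (D.l ω) s - D.p ω * F.cN (D.l ω) s| ≤ K * q2 (D.rf i)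
  k1 : |F.ka| ≤ K
  a1 : |F.al| * q2 A ≤ K
  al : |F.al - D.g i ω| * q2 A ≤ K * q2 (D.rk i)
  ts : |s - D.s i ω| ≤ q2 (D.a i)

lemma X_tr (l : Ray) (s s' : ℝ) : l.X s' = l.X s + (s' - s) * l.v := by
  unfold Ray.X; ring

lemma N_tr (l : Ray) (s s' : ℝ) : l.N s' = l.N s + (s' - s) * l.w := by
  unfold Ray.N; ring

/-- **`OkW` for the path of one letter** -/
theorem HW.okW (h1 : 1 ≤ K) (hH : D.Hy K I ω) (hi : i ∈ I) (hw : HW D K A i F s ω) :
    OkW (D.p1 i) (8 * K) A 0 F s ω := by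
  have K0 : 0 < K := by linarith
  have rl := Mtd.rr_le D i
  have qr := q2_pos (D.rr i)
  refine ⟨?_, ?_, ?_, ?_, ?_, ⟨?_, ?_, ?_⟩, hw.ts⟩
  · show 1 ≤ 8 * K * F.cN (D.l ω) s
    rw [← hw.un]
    have := hH.n1
    linarith
  · show F.cN (D.l ω) s ≤ 8 * K
    rw [← hw.un]
    have := hH.n2
    linarith
  · have := hw.k1
    linarith
  · have := hw.a1
    linarith
  · have e := hw.pv
    have := q2_pos (D.rf i)
    show |F.cV (D.l ω) s - D.p ω * F.cN (D.l ω) s| ≤ 8 * K * q2 (D.rf i)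
    nlinarith
  · have sh := Fu.cN_sh ((D.p1 i).F 0 ω) ((D.p1 i).l ω) ((D.p1 i).s 0 ω) (s - (D.p1 i).s 0 ω)
    rw [add_sub_cancel] at sh
    rw [sh]
    have e := Mtd.cN_near h1 hH hi
    show |F.cN (D.l ω) s - Mtd.cNL D i ω| ≤ 8 * K * q2 (D.rr i)
    rw [← hw.un, abs_sub_comm]
    have := mul_pos K0 qr
    linarith
  · show |F.ka - (D.kaL i (D.lt i ω) - (s - D.s i ω) * D.g i ω)| ≤ 8 * K * q2 (D.rr i)
    have e1 := Mtd.ka_near D i ω
    have e2 := Mtd.prod_le (hH.ap i hi) hw.ts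
    have e : F.ka - (D.kaL i (D.lt i ω) - (s - D.s i ω) * D.g i ω) =
        -(D.kaL i (D.lt i ω) - D.κ i ω) - (D.al i ω - D.g i ω) * (s - D.s i ω) := by
      rw [hw.ka]; ring
    rw [e]
    refine (abs_sub _ _).trans ?_
    rw [abs_neg]
    have : K * q2 (D.rk i) ≤ K * q2 (D.rr i) := mul_le_mul_of_nonneg_left rl K0.le
    nlinarith
  · show |F.al - D.g i ω| * q2 A ≤ 8 * K * q2 (D.rr i)
    have e := hw.al
    have : K * q2 (D.rk i) ≤ K * q2 (D.rr i) := mul_le_mul_of_nonneg_left rl K0.le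
    nlinarith

/-- the true curvatures of two points with the same prefix -/
lemma al_near (hH : D.Hy K I ω) (hH' : D.Hy K I ω') (hi : i ∈ I) (hp : D.pf i ω = D.pf i ω') :
    |D.al i ω' - D.al i ω| * q2 (D.a i) ≤ 2 * (K * q2 (D.rk i)) := by
  have hg : D.g i ω' = D.g i ω := by
    unfold Mtd.g; rw [hp]
  have e1 := hH.ap i hi
  have e2 := hH'.ap i hi
  rw [hg] at e2
  have e3 : |D.al i ω' - D.al i ω| ≤ |D.al i ω' - D.g i ω| + |D.al i ω - D.g i ω| := by
    have : D.al i ω' - D.al i ω = (D.al i ω' - D.g i ω) - (D.al i ω - D.g i ω) := by ring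
    rw [this]
    exact abs_sub _ _
  have := mul_le_mul_of_nonneg_right e3 (q2_pos (D.a i)).le
  linarith

/-- true kappa of two points of the end label -/
lemma ka_dif (h1 : 1 ≤ K) (hM : 1 ≤ M) (hH : D.Hy K I ω) (hH' : D.Hy K I ω') (hi : i ∈ I)
    (hw : HW D K A i F s ω) (hw' : HW D K A i F s ω') (hs : D.s i ω' = D.s i ω) (hp : D.pf i ω = D.pf i ω') :
    |D.κ i ω' - D.κ i ω| ≤ 8 * K * M * q2 (D.rk i) := by
  have e := Mtd.prod_le (al_near hH hH' hi hp) hw.ts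
  have e2 : D.κ i ω' - D.κ i ω = (D.al i ω' - D.al i ω) * (s - D.s i ω) := by
    rw [hw.ka, hw'.ka, hs]; ring
  rw [e2]
  refine e.trans ?_
  have := q2_pos (D.rk i)
  have : 0 < K * q2 (D.rk i) := by positivity
  nlinarith

/-- gamma in terms of the end label -/
lemma u_eq (hw : HW D K A i F s ω) : D.u i ω = F.ga - F.al * (D.l ω).N s +
    D.al i ω * ((D.l ω).N s - D.Nr i ω) := by
  unfold Mtd.u
  rw [hw.un, hw.ka, N_tr (D.l ω) (D.s i ω) s]
  unfold Fu.cN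
  rw [N_tr (D.l ω) (D.s i ω) s]
  ring

/-- true gamma of two points of the end label -/
lemma u_dif (h1 : 1 ≤ K) (hM : 1 ≤ M) (hH : D.Hy K I ω) (hH' : D.Hy K I ω') (hi : i ∈ I)
    (hw : HW D K A i F s ω) (hw' : HW D K A i F s ω') (hp : D.pf i ω = D.pf i ω')
    (hn : D.nN i ω = D.nN i ω') (ha : D.a i ≤ A) (hA : A ≤ h)
    (hN : |(D.l ω').N s - (D.l ω).N s| ≤ M * q2 h) :
    |D.u i ω' - D.u i ω| ≤ 8 * K * M * q2 (D.rk i) := by
  have K0 : 0 < K := by linarith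
  have hNr : D.Nr i ω' = D.Nr i ω := by
    unfold Mtd.Nr; rw [hn]
  have hg : D.g i ω' = D.g i ω := by
    unfold Mtd.g; rw [hp]
  have e : D.u i ω' - D.u i ω = (D.al i ω' - F.al) * ((D.l ω').N s - (D.l ω).N s) +
      (D.al i ω' - D.al i ω) * ((D.l ω).N s - D.Nr i ω) := by
    rw [u_eq hw, u_eq hw', hNr]; ring
  have qk := q2_pos (D.rk i)
  have qA : q2 A ≤ q2 (D.a i) := q2_le ha
  -- the first product
  have f1 : |D.al i ω' - F.al| * q2 A ≤ 2 * (K * q2 (D.rk i)) := by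
    have e1 := hH'.ap i hi
    have e2 := hw'.al
    have e3 : |D.al i ω' - F.al| ≤ |D.al i ω' - D.g i ω'| + |F.al - D.g i ω'| := by
      have : D.al i ω' - F.al = (D.al i ω' - D.g i ω') - (F.al - D.g i ω') := by ring
      rw [this]
      exact abs_sub _ _
    have e4 := mul_le_mul_of_nonneg_right e3 (q2_pos A).le
    have e5 : |D.al i ω' - D.g i ω'| * q2 A ≤ |D.al i ω' - D.g i ω'| * q2 (D.a i) :=
      mul_le_mul_of_nonneg_left qA (abs_nonneg _)
    nlinarith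
  have f2 : |(D.al i ω' - F.al) * ((D.l ω').N s - (D.l ω).N s)| ≤ M * (2 * (K * q2 (D.rk i))) := by
    rw [abs_mul]
    have hNA : |(D.l ω').N s - (D.l ω).N s| ≤ M * q2 A :=
      hN.trans (mul_le_mul_of_nonneg_left (q2_le hA) (by linarith))
    calc |D.al i ω' - F.al| * |(D.l ω').N s - (D.l ω).N s| ≤ |D.al i ω' - F.al| * (M * q2 A) :=
          mul_le_mul_of_nonneg_left hNA (abs_nonneg _)
      _ = M * (|D.al i ω' - F.al| * q2 A) := by ring
      _ ≤ _ := mul_le_mul_of_nonneg_left f1 (by linarith)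
  -- the second product
  have g1 : |(D.l ω).N s - D.Nr i ω| ≤ 3 * q2 (D.a i) := by
    have e1 := Mtd.Nr_near D i ω
    have e2 : |(s - D.s i ω) * (D.l ω).w| ≤ q2 (D.a i) * 2 := by
      rw [abs_mul]
      exact mul_le_mul hw.ts hH.w1 (abs_nonneg _) (q2_pos _).le
    have e3 : (D.l ω).N s - D.Nr i ω = ((D.l ω).N (D.s i ω) - D.Nr i ω) + (s - D.s i ω) * (D.l ω).w := by
      rw [N_tr (D.l ω) (D.s i ω) s]; ring
    rw [e3]
    refine (abs_add_le _ _).trans ?_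
    linarith
  have g2 : |(D.al i ω' - D.al i ω) * ((D.l ω).N s - D.Nr i ω)| ≤ 3 * (2 * (K * q2 (D.rk i))) := by
    rw [abs_mul]
    calc |D.al i ω' - D.al i ω| * |(D.l ω).N s - D.Nr i ω| ≤ |D.al i ω' - D.al i ω| * (3 * q2 (D.a i)) :=
          mul_le_mul_of_nonneg_left g1 (abs_nonneg _)
      _ = 3 * (|D.al i ω' - D.al i ω| * q2 (D.a i)) := by ring
      _ ≤ _ := mul_le_mul_of_nonneg_left (al_near hH hH' hi hp) (by norm_num)
  rw [e]
  refine (abs_add_le _ _).trans ?_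
  have kq : 0 < K * q2 (D.rk i) := by positivity
  nlinarith

/-- the exceptional event of `mtr i b` at the point `ω` -/
def BadM (D : Mtd Ω π) (K M : ℝ) (i b : ℕ) (ω : Ω) : Prop :=
  (D.p1 i).Bad (4 * cst (8 * K) M) 0 b ω ∨ Nb (D.rr i) (D.κ i ω + D.oκ) (8 * K * M * q2 (D.rk i)) ∨
    Nb (D.rr i) (D.u i ω + D.oγ) (8 * K * M * q2 (D.rk i))

/-- what two points of one end label have in common -/
structure Cm (D : Mtd Ω π) (M : ℝ) (i b h q : ℕ) (F : Fu) (s : ℝ) (ω ω' : Ω) : Prop where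
  t : fl1 (D.a i) (D.t ω) = fl1 (D.a i) (D.t ω')
  pf : D.pf i ω = D.pf i ω'
  v : fl1 b (D.l ω).v = fl1 b (D.l ω').v
  cl : ClW M h q F (D.l ω) (D.l ω') s

/-- numbers -/
structure Nm (D : Mtd Ω π) (K M : ℝ) (A i b h q : ℕ) : Prop where
  K1 : 1 ≤ K
  M1 : 1 ≤ M
  μb : 8 * D.μ ≤ b
  μR : 8 * D.μ ≤ D.R i b
  ha : D.a i ≤ A
  hA : A + 2 * b ≤ h
  hq : D.R i b + b ≤ q
  hb : (8 * K) ^ 2 * M * q2 (2 * b) ≤ 1

lemma Nm.lev (n : Nm D K M A i b h q) : (D.p1 i).Lev 0 b := by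
  refine ⟨n.μb, ?_⟩
  rw [Mtd.p1_R]
  exact n.μR

lemma p1_ok (h1 : 1 ≤ K) (hH : D.Hy K I ω) (hi : i ∈ I) : (D.p1 i).Ok (8 * K) ω :=
  Mtd.pa_ok h1 hH fun _ => hi

lemma Cm.hs (c : Cm D M i b h q F s ω ω') : D.s i ω' = D.s i ω := by
  unfold Mtd.s rd
  rw [c.t]

/-- the N-positions at the own time -/
lemma N_dif (n : Nm D K M A i b h q) (hH : D.Hy K I ω) (hH' : D.Hy K I ω') (hi : i ∈ I)
    (hw : HW D K A i F s ω) (hw' : HW D K A i F s ω') (c : Cm D M i b h q F s ω ω') :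
    |(D.l ω').N (D.s i ω) - (D.l ω).N (D.s i ω)| ≤ cst (8 * K) M * q2 (D.a i + b) := by
  have h8 : 1 ≤ 8 * K := by linarith [n.K1]
  have hq' : (D.p1 i).R 0 b + b ≤ q := by rw [Mtd.p1_R]; exact n.hq
  exact (nrF h8 n.M1 (p1_ok n.K1 hH hi) (p1_ok n.K1 hH' hi) (hw.okW n.K1 hH hi) (hw'.okW n.K1 hH' hi) c.v n.ha
    n.hA hq' n.hb c.cl).N

/-- digits of the N-position -/
lemma nN_of_W (n : Nm D K M A i b h q) (hH : D.Hy K I ω) (hH' : D.Hy K I ω') (hi : i ∈ I)
    (hw : HW D K A i F s ω) (hw' : HW D K A i F s ω') (c : Cm D M i b h q F s ω ω')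
    (hB : ¬ (D.p1 i).Bad (4 * cst (8 * K) M) 0 b ω) : D.nN i ω = D.nN i ω' := by
  have h8 : 1 ≤ 8 * K := by linarith [n.K1]
  have e := N_dif n hH hH' hi hw hw' c
  have hμ : D.μ ≤ b := by have := n.μb; omega
  have hc1 := one_le_cst h8 n.M1
  unfold Pth.Bad at hB
  push Not at hB
  have h2 := hB 2
  have l2 : (D.p1 i).lv 0 b 2 = D.a i + b - D.μ := rfl
  have v2 : (D.p1 i).va 0 b ω 2 = (D.l ω).N (D.s i ω) := rfl
  have o2 : (D.p1 i).o 2 = D.o 2 := rfl
  have m2 : (D.p1 i).μ = D.μ := rfl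
  rw [l2, v2, o2, m2, show D.a i + b - D.μ + D.μ = D.a i + b by omega] at h2
  have hq0 := q2_pos (D.a i + b)
  have f := Nb.eq h2 (y := (D.l ω).N (D.s i ω) + D.o 2) (y' := (D.l ω').N (D.s i ω) + D.o 2)
    (by rw [sub_self, abs_zero]; positivity)
    (by
      rw [add_sub_add_right_eq_sub]
      refine e.trans ?_
      nlinarith)
  unfold Mtd.nN
  rw [c.hs]
  exact fl1_fl1 (by omega) f

/-- **the letters agree** -/
theorem lt_of_W (n : Nm D K M A i b h q) (hH : D.Hy K I ω) (hH' : D.Hy K I ω') (hi : i ∈ I)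
    (hw : HW D K A i F s ω) (hw' : HW D K A i F s ω') (c : Cm D M i b h q F s ω ω') (hB : ¬ BadM D K M i b ω) :
    D.lt i ω = D.lt i ω' := by
  unfold BadM at hB
  push Not at hB
  obtain ⟨b1, b2, b3⟩ := hB
  have hn := nN_of_W n hH hH' hi hw hw' c b1
  have h1 := n.K1
  have hM := n.M1
  have K0 : 0 < K := by linarith
  have M0 : 0 < M := by linarith
  have qk := q2_pos (D.rk i)
  have e1 : D.kN i ω = D.kN i ω' := by
    unfold Mtd.kN
    refine Nb.eq b2 (by rw [sub_self, abs_zero]; positivity) ?_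
    rw [add_sub_add_right_eq_sub]
    exact ka_dif h1 hM hH hH' hi hw hw' c.hs c.pf
  have e2 : D.uN i ω = D.uN i ω' := by
    unfold Mtd.uN
    refine Nb.eq b3 (by rw [sub_self, abs_zero]; positivity) ?_
    rw [add_sub_add_right_eq_sub]
    exact u_dif h1 hM hH hH' hi hw hw' c.pf hn n.ha (by have := n.hA; omega) c.cl.N
  unfold Mtd.lt
  rw [c.t, c.pf, e1, e2, hn]

/-- the letter of the path of one letter -/
lemma T_of_lt (e : D.lt i ω = D.lt i ω') : (D.p1 i).T 0 ω = (D.p1 i).T 0 ω' := by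
  unfold Mtd.p1
  rw [Mtd.pa_T_iff]
  exact fun _ _ => e

/-- closeness in the sense of the margin calculus, given the letter -/
theorem clo_of_lt (n : Nm D K M A i b h q) (hH : D.Hy K I ω) (hH' : D.Hy K I ω') (hi : i ∈ I)
    (hw : HW D K A i F s ω) (hw' : HW D K A i F s ω') (c : Cm D M i b h q F s ω ω')
    (e : D.lt i ω = D.lt i ω') : (D.p1 i).Clo 0 b (cst (8 * K) M) ω ω' := by
  have h8 : 1 ≤ 8 * K := by linarith [n.K1]
  have hq' : (D.p1 i).R 0 b + b ≤ q := by rw [Mtd.p1_R]; exact n.hq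
  exact clo_of_W h8 n.M1 (p1_ok n.K1 hH hi) (p1_ok n.K1 hH' hi) (hw.okW n.K1 hH hi) (hw'.okW n.K1 hH' hi)
    (T_of_lt e) c.v n.ha n.hA hq' n.hb c.cl

/-- **[MTR-W], pointwise** -/
theorem mtr_of_W (n : Nm D K M A i b h q) (hH : D.Hy K I ω) (hH' : D.Hy K I ω') (hi : i ∈ I)
    (hw : HW D K A i F s ω) (hw' : HW D K A i F s ω') (c : Cm D M i b h q F s ω ω') (hB : ¬ BadM D K M i b ω) :
    D.mtr i b ω = D.mtr i b ω' := by
  have h8 : 1 ≤ 8 * K := by linarith [n.K1]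
  have e := lt_of_W n hH hH' hi hw hw' c hB
  have hC := clo_of_lt n hH hH' hi hw hw' c e
  rw [← Mtd.p1_cell_iff D i 0 b]
  exact hC.cell n.lev (one_le_cst h8 n.M1) fun hb => hB (Or.inl hb)

/-! ### entropies -/

section ent

variable [Fintype Ω] {T : Type*}

lemma prE_mono0 (P : Law Ω) {E E' : Ω → Prop} (h : ∀ ω, E ω → E' ω) : prE P E ≤ prE P E' := by
  classical
  unfold prE
  refine Finset.sum_le_sum_of_subset_of_nonneg ?_ fun ω _ _ => P.nn ω
  intro ω hω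
  rw [Finset.mem_filter] at hω ⊢
  exact ⟨hω.1, h ω hω.2⟩

/-- **[MTR-W], entropy form** -/
theorem hc_mtr (P : Law Ω) (Y : Ω → T) {F : Ω → Fu} {s : Ω → ℝ} (n : Nm D K M A i b h q) (hi : i ∈ I)
    (hH : ∀ ω, 0 < P.w ω → D.Hy K I ω) (hw : ∀ ω, 0 < P.w ω → HW D K A i (F ω) (s ω) ω)
    (eF : ∀ ω ω', 0 < P.w ω → 0 < P.w ω' → Y ω = Y ω' → F ω = F ω')
    (es : ∀ ω ω', 0 < P.w ω → 0 < P.w ω' → Y ω = Y ω' → s ω = s ω')
    (ec : ∀ ω ω', 0 < P.w ω → 0 < P.w ω' → Y ω = Y ω' → Cm D M i b h q (F ω) (s ω) ω ω') :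
    hc P (D.mtr i b) Y ≤ (12 + 13 * Real.log (2 * ⌈3 * cst (8 * K) M⌉₊ + 3)) *
      Real.sqrt (prE P (BadM D K M i b)) := by
  have h1 := n.K1
  have hM := n.M1
  have K0 : 0 < K := by linarith
  have M0 : 0 < M := by linarith
  have h8 : 1 ≤ 8 * K := by linarith
  set c := cst (8 * K) M with hcd
  have hc1 : 1 ≤ c := one_le_cst h8 hM
  set m := ⌈3 * c⌉₊ with hm
  have hcm : 3 * c ≤ m := Nat.le_ceil _
  have hcu : 8 * K * M ≤ c := by
    rw [hcd]
    unfold cst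
    have k1 : 8 * K ≤ (8 * K) ^ 7 := by
      calc 8 * K = (8 * K) ^ 1 := (pow_one _).symm
        _ ≤ _ := pow_le_pow_right₀ h8 (by norm_num)
    have m1 : M ≤ M ^ 2 := by nlinarith
    have t : 8 * K * M ≤ (8 * K) ^ 7 * M ^ 2 := mul_le_mul k1 m1 M0.le (by positivity)
    have t0 : 0 ≤ (8 * K) ^ 7 * M ^ 2 := by positivity
    nlinarith
  set B := BadM D K M i b with hB
  have hwp : ∀ ω ω', 0 < P.w ω → 0 < P.w ω' → Y ω = Y ω' → HW D K A i (F ω) (s ω) ω' := by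
    intro ω ω' p p' e
    have := hw ω' p'
    rwa [← eF ω ω' p p' e, ← es ω ω' p p' e] at this
  -- the three integers of the letter
  have a1 : hc P (D.nN i) Y ≤ (2 + Real.log ((2 * m + 3 : ℕ) : ℝ)) * Real.sqrt (prE P B) := by
    refine nhc P _ Y B (2 * m + 3) (by omega) (fun ω ω' p p' nb _ e => ?_)
      (int_card P _ Y fun ω ω' p p' e => ?_)
    · exact nN_of_W n (hH ω p) (hH ω' p') hi (hw ω p) (hwp ω ω' p p' e) (ec ω ω' p p' e)
        fun hb => nb (Or.inl hb)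
    · have t := N_dif n (hH ω p) (hH ω' p') hi (hw ω p) (hwp ω ω' p p' e) (ec ω ω' p p' e)
      unfold Mtd.nN
      rw [(ec ω ω' p p' e).hs]
      refine fl1_le_of_near ?_
      rw [add_sub_add_right_eq_sub]
      have u : q2 (D.a i + b) ≤ q2 (D.a i) := q2_le (by omega)
      have := q2_pos (D.a i + b)
      refine t.trans (mul_le_mul (by linarith) u this.le (by linarith))
  have a2 : hc P (D.kN i) (fun ω => (D.nN i ω, Y ω)) ≤
      (2 + Real.log ((2 * m + 3 : ℕ) : ℝ)) * Real.sqrt (prE P B) := by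
    have key : ∀ ω ω', 0 < P.w ω → 0 < P.w ω' → Y ω = Y ω' → |D.κ i ω' - D.κ i ω| ≤ 8 * K * M * q2 (D.rk i) :=
      fun ω ω' p p' e => ka_dif h1 hM (hH ω p) (hH ω' p') hi (hw ω p) (hwp ω ω' p p' e)
        (ec ω ω' p p' e).hs (ec ω ω' p p' e).pf
    refine nhc P _ _ B (2 * m + 3) (by omega) (fun ω ω' p p' nb _ e => ?_)
      (int_card P _ _ fun ω ω' p p' e => ?_)
    · have e' := (Prod.ext_iff.1 e).2
      rw [hB] at nb
      unfold BadM at nb
      push Not at nb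
      unfold Mtd.kN
      have := q2_pos (D.rk i)
      refine Nb.eq nb.2.1 (by rw [sub_self, abs_zero]; positivity) ?_
      rw [add_sub_add_right_eq_sub]
      exact key ω ω' p p' e'
    · have e' := (Prod.ext_iff.1 e).2
      unfold Mtd.kN
      refine fl1_le_of_near ?_
      rw [add_sub_add_right_eq_sub]
      have := q2_pos (D.rk i)
      exact (key ω ω' p p' e').trans (mul_le_mul (by linarith) (Mtd.rr_le D i) this.le (by linarith))
  have a3 : hc P (D.uN i) (fun ω => (D.kN i ω, D.nN i ω, Y ω)) ≤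
      (2 + Real.log ((2 * m + 3 : ℕ) : ℝ)) * Real.sqrt (prE P B) := by
    have key : ∀ ω ω', 0 < P.w ω → 0 < P.w ω' → D.nN i ω = D.nN i ω' → Y ω = Y ω' →
        |D.u i ω' - D.u i ω| ≤ 8 * K * M * q2 (D.rk i) :=
      fun ω ω' p p' hn e => u_dif h1 hM (hH ω p) (hH ω' p') hi (hw ω p) (hwp ω ω' p p' e)
        (ec ω ω' p p' e).pf hn n.ha (by have := n.hA; omega) (ec ω ω' p p' e).cl.N
    refine nhc P _ _ B (2 * m + 3) (by omega) (fun ω ω' p p' nb _ e => ?_)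
      (int_card P _ _ fun ω ω' p p' e => ?_)
    · simp only [Prod.mk.injEq] at e
      rw [hB] at nb
      unfold BadM at nb
      push Not at nb
      unfold Mtd.uN
      have := q2_pos (D.rk i)
      refine Nb.eq nb.2.2 (by rw [sub_self, abs_zero]; positivity) ?_
      rw [add_sub_add_right_eq_sub]
      exact key ω ω' p p' e.2.1 e.2.2
    · simp only [Prod.mk.injEq] at e
      unfold Mtd.uN
      refine fl1_le_of_near ?_
      rw [add_sub_add_right_eq_sub]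
      have := q2_pos (D.rk i)
      exact (key ω ω' p p' e.2.1 e.2.2).trans (mul_le_mul (by linarith) (Mtd.rr_le D i) this.le (by linarith))
  -- the cell given the letter
  have a4 : hc P ((D.p1 i).cell 0 b) (fun ω => (D.uN i ω, D.kN i ω, D.nN i ω, Y ω)) ≤
      (6 + 10 * Real.log (2 * m + 3)) * Real.sqrt (prE P B) := by
    have e := hc_of_clo P (D.p1 i) (fun ω => (D.uN i ω, D.kN i ω, D.nN i ω, Y ω)) hc1 n.lev
      (fun ω ω' p p' e => by
        simp only [Prod.mk.injEq] at e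
        have c := ec ω ω' p p' e.2.2.2
        refine clo_of_lt n (hH ω p) (hH ω' p') hi (hw ω p) (hwp ω ω' p p' e.2.2.2) c ?_
        unfold Mtd.lt
        rw [c.t, c.pf, e.1, e.2.1, e.2.2.1])
    refine e.trans (mul_le_mul_of_nonneg_left (Real.sqrt_le_sqrt ?_) ?_)
    · exact prE_mono0 P fun ω hb => Or.inl hb
    · have : (0 : ℝ) ≤ Real.log (2 * m + 3) := Real.log_nonneg (by
        have : (0 : ℝ) ≤ m := Nat.cast_nonneg _
        linarith)
      positivity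
  have e0 : hc P (D.mtr i b) Y ≤ hc P (fun ω => (D.nN i ω, (D.p1 i).cell 0 b ω)) Y :=
    hc_mono_left P fun ω ω' _ _ e => by
      simp only [Prod.mk.injEq] at e
      exact (Mtd.p1_cell_iff D i 0 b ω ω').1 e.1.2
  have e1 := hc_pair P (D.nN i) ((D.p1 i).cell 0 b) Y
  have e2 : hc P ((D.p1 i).cell 0 b) (fun ω => (D.nN i ω, Y ω)) ≤
      hc P (fun ω => (D.kN i ω, (D.p1 i).cell 0 b ω)) (fun ω => (D.nN i ω, Y ω)) :=
    hc_mono_left P fun ω ω' _ _ e => by
      simp only [Prod.mk.injEq] at e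
      exact e.1.2
  have e3 := hc_pair P (D.kN i) ((D.p1 i).cell 0 b) (fun ω => (D.nN i ω, Y ω))
  have e4 : hc P ((D.p1 i).cell 0 b) (fun ω => (D.kN i ω, D.nN i ω, Y ω)) ≤
      hc P (fun ω => (D.uN i ω, (D.p1 i).cell 0 b ω)) (fun ω => (D.kN i ω, D.nN i ω, Y ω)) :=
    hc_mono_left P fun ω ω' _ _ e => by
      simp only [Prod.mk.injEq] at e
      exact e.1.2
  have e5 := hc_pair P (D.uN i) ((D.p1 i).cell 0 b) (fun ω => (D.kN i ω, D.nN i ω, Y ω))
  push_cast at a1 a2 a3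
  have : (12 + 13 * Real.log (2 * m + 3)) * Real.sqrt (prE P B) =
      (2 + Real.log (2 * m + 3)) * Real.sqrt (prE P B) + (2 + Real.log (2 * m + 3)) * Real.sqrt (prE P B) +
      (2 + Real.log (2 * m + 3)) * Real.sqrt (prE P B) +
      (6 + 10 * Real.log (2 * m + 3)) * Real.sqrt (prE P B) := by ring
  rw [this]
  linarith

end ent

end Vale.Agent.P106.U.H364.MtrW
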