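import Vale.Agent.P106.U.H364.MtrWR
import Vale.Agent.P106.U.H785.MtrF2

/-!
# P106 / U / H364 : [MTR-W] for the data `mt`, `mt0` of the record, and the sums (helper364)

* `NW R p K c B μ` : numbers; `hr_mt`, `hr_mt0` : the hypotheses `HR` of `MtrWR` at a young step; `hf_mt`, `hf_mt0` : `HF`.
* `mt` : `MtrWR.mtr_W'` etc. with `hr_mt`.
* `Bad0` : the exceptional event for `mt0` (digits of kappa and gamma of the letter at the precision `rk`, the cell at the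
  precision `rk0`); **`lt0_W'`, `mtr0_W'`, `hc_mtr0_Y`, `colp_mtr0`**; frozen path: `fz0_W'`, `Dp0_W'`, **`colp_Dp0`**.
* **`sum_K`, `sum_P`** : `Σ_(k ∈ IdK) P(BadR) ≤ 2 K'^2 (n + J + 1) 2^(-μ/4)`, the same for `Bad0` over `IdP`.
-/

set_option autoImplicit false

namespace Vale.Agent.P106.U.H364.MtrWF

open Finset Vale.Agent.P127 Vale.Agent.P127.Stk Vale.Agent.P106.U
open Vale.Agent.P127.U.CellD (q2 rd Nb Nb.eq q2_pos q2_add q2_le q2_mul_pow fl1_fl1)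
open Vale.Agent.P127.U.Mic (colp)
open Vale.Agent.P106.U.Cell (Pth Ray Fu)
open Vale.Agent.P106.U.H785.Mtr
open Vale.Agent.P106.U.H364.N4 Vale.Agent.P106.U.H364.MtrW Vale.Agent.P106.U.H364.MtrWR
open Vale.Agent.P106.U.S3 (Run)
open Vale.Agent.P106.U.H683 (Dp)
open Vale.Agent.P106.W

variable {Ω : Type} [Fintype Ω] {τ υ π : Type} {R : Run Ω τ υ} {p : Run.Num} {K c c' g' gU : ℝ}
  {B bS bV μ : ℕ} {F : S3.Pf R π} {Vs Xs : Finset ℕ} {o : Fin 7 → ℝ} {o' : ℕ → ℝ} {ω ω' : Ω} {i j k : ℕ}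

/-! ### numbers -/

/-- numbers -/
structure NW (R : Run Ω τ υ) (p : Run.Num) (K c : ℝ) (B μ : ℕ) : Prop where
  K1 : 1 ≤ K
  c1 : 1 ≤ c
  c2 : c ≤ 100
  hB : (100 * K) ^ 20 ≤ (B : ℝ)
  hr : 100 * (R.m * B) ≤ R.r0
  μB : μ ≤ B
  μC : μ ≤ R.C.μ
  low : 8 * B ≤ R.b1
  room : p.A' + 2 * (R.m * R.b1) ≤ R.h
  aA : R.C.a R.n ≤ p.A'
  qK : p.QK + R.m + 2 * (R.m * R.b1) ≤ R.q

lemma c4 (h : 1 ≤ c) (h' : c ≤ 100) : 0 ≤ c ^ 2 ∧ c ^ 2 ≤ 10000 := ⟨by positivity, by nlinarith⟩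

/-- constants against `(100 K)^20` -/
lemma cst_le (h1 : 1 ≤ K) (hc1 : 1 ≤ c) (hc2 : c ≤ 100) : 4 * N4.cst (32 * K) (6 * c ^ 2 * K) ≤ (100 * K) ^ 20 := by
  obtain ⟨c0, c4⟩ := c4 hc1 hc2
  have K9 : (0 : ℝ) ≤ K ^ 9 := by positivity
  have e : 4 * N4.cst (32 * K) (6 * c ^ 2 * K) = 800 * 32 ^ 7 * 36 * (c ^ 2) ^ 2 * K ^ 9 := by
    unfold N4.cst; ring
  have e2 : (c ^ 2) ^ 2 ≤ 10000 ^ 2 := pow_le_pow_left₀ c0 c4 2
  have e3 : (100 * K) ^ 20 = 100 ^ 20 * K ^ 11 * K ^ 9 := by ring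
  have e4 : (1 : ℝ) ≤ K ^ 11 := one_le_pow₀ h1
  rw [e, e3]
  refine mul_le_mul_of_nonneg_right ?_ K9
  calc 800 * 32 ^ 7 * 36 * (c ^ 2) ^ 2 ≤ 800 * 32 ^ 7 * 36 * 10000 ^ 2 := by gcongr
    _ ≤ 100 ^ 20 * 1 := by norm_num
    _ ≤ 100 ^ 20 * K ^ 11 := by gcongr

lemma cst_le2 (h1 : 1 ≤ K) (hc1 : 1 ≤ c) (hc2 : c ≤ 100) : 8 * (4 * K) * (6 * c ^ 2 * K) ≤ (100 * K) ^ 20 := by
  obtain ⟨c0, c4⟩ := c4 hc1 hc2
  have e3 : (100 * K) ^ 20 = 100 ^ 20 * K ^ 18 * K ^ 2 := by ring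
  have e4 : (1 : ℝ) ≤ K ^ 18 := one_le_pow₀ h1
  have e : 8 * (4 * K) * (6 * c ^ 2 * K) = 192 * c ^ 2 * K ^ 2 := by ring
  rw [e, e3]
  refine mul_le_mul_of_nonneg_right ?_ (by positivity)
  calc 192 * c ^ 2 ≤ 192 * 10000 := by gcongr
    _ ≤ 100 ^ 20 * 1 := by norm_num
    _ ≤ 100 ^ 20 * K ^ 18 := by gcongr

namespace NW

lemma b8 (N : NW R p K c B μ) (hok : R.Ok p K c' g' gU) : 8 * B ≤ R.m * R.b1 :=
  N.low.trans (Nat.le_mul_of_pos_left _ hok.pth.m1)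

lemma B1 (N : NW R p K c B μ) : 1 ≤ B := by
  by_contra hc
  have h0 : B = 0 := by omega
  have h := N.hB
  rw [h0] at h
  have : (1 : ℝ) ≤ (100 * K) ^ 20 := one_le_pow₀ (by linarith [N.K1])
  norm_num at h
  linarith

lemma bs (N : NW R p K c B μ) (hok : R.Ok p K c' g' gU) :
    (32 * K) ^ 2 * (6 * c ^ 2 * K) * q2 (2 * (R.m * R.b1)) ≤ 1 := by
  have h1 := N.K1
  obtain ⟨c0, c4⟩ := c4 N.c1 N.c2
  have e1 : q2 (2 * (R.m * R.b1)) ≤ q2 B := q2_le (by have := N.b8 hok; omega)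
  have e2 : (B : ℝ) ≤ 2 ^ B := by
    have : B < 2 ^ B := Nat.lt_two_pow_self
    exact_mod_cast this.le
  have e3 : (32 * K) ^ 2 * (6 * c ^ 2 * K) ≤ (100 * K) ^ 20 := by
    have e : (32 * K) ^ 2 * (6 * c ^ 2 * K) = 6144 * c ^ 2 * K ^ 3 := by ring
    have e' : (100 * K) ^ 20 = 100 ^ 20 * K ^ 17 * K ^ 3 := by ring
    have e4 : (1 : ℝ) ≤ K ^ 17 := one_le_pow₀ h1
    rw [e, e']
    refine mul_le_mul_of_nonneg_right ?_ (by positivity)
    calc 6144 * c ^ 2 ≤ 6144 * 10000 := by gcongr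
      _ ≤ 100 ^ 20 * 1 := by norm_num
      _ ≤ 100 ^ 20 * K ^ 17 := by gcongr
  calc (32 * K) ^ 2 * (6 * c ^ 2 * K) * q2 (2 * (R.m * R.b1)) ≤ 2 ^ B * q2 B :=
        mul_le_mul (e3.trans (N.hB.trans e2)) e1 (q2_pos _).le (by positivity)
    _ = 1 := q2_mul_pow B

lemma r0 (N : NW R p K c B μ) (hok : R.Ok p K c' g' gU) : 4 * K ^ 2 * q2 (R.C.rk 0) ≤ 1 := by
  have mB : B ≤ R.m * B := Nat.le_mul_of_pos_left B hok.pth.m1
  have := small N.K1 N.hB (n := R.C.rk 0) (by rw [hok.pth.k0]; have := N.hr; omega)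
  have := q2_pos (R.C.rk 0)
  nlinarith [sq_nonneg K]

/-- the line precision up to the stop -/
lemma rk_le (_N : NW R p K c B μ) (hok : R.Ok p K c' g' gU) (hi : i ≤ R.n) : R.C.rk i ≤ p.QK + R.m := by
  have hP := hok.pth
  rcases hi.lt_or_eq with h | h
  · have := (hP.stop i h).2
    omega
  · subst h
    rcases Nat.eq_zero_or_pos R.n with h0 | h0
    · rw [h0, hP.k0]
      have := hP.rK.1
      omega
    · have e := (hP.stop (R.n - 1) (by omega)).2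
      have s := hP.stp (R.n - 1) (by omega)
      rw [Nat.sub_add_cancel h0] at s
      omega

/-- the own slope above the start slab -/
lemma rf_ge (N : NW R p K c B μ) (hok : R.Ok p K c' g' gU) (i : ℕ) : 8 * B ≤ R.C.rf i := by
  have hP := hok.pth
  have e := R.C.hf (Nat.zero_le i)
  rw [hP.f0] at e
  have mB : B ≤ R.m * B := Nat.le_mul_of_pos_left B hP.m1
  have := N.hr
  omega

end NW

section inst

variable (N : NW R p K c B μ) (hok : R.Ok p K c' g' gU) (hf : S3.F2 R p K B bS bV F Vs Xs)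

include N hok hf

/-- **the hypotheses of `MtrWR` at a young step**, numbers of the cap -/
theorem hr_mt (hk : k ≤ R.n) (hV : S3.lv R k ∈ Vs) : HR R (S3.mt R F μ o o') p K c (YI R p Vs) k where
  of := ofR_mt N.μC
  K1 := N.K1
  c1 := N.c1
  r0 := N.r0 hok
  le := hk
  mem := ⟨hk.trans (Nat.le_add_right _ _), hV⟩
  hy := fun ω hω => hy_mt hok hf N.K1 N.hB N.hr N.μB N.μC hω
  rk := le_rfl
  g := fun ω hω => by
    have := hf.gvF k (hk.trans (Nat.le_add_right _ _)) ω hω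
    have q := q2_pos (R.C.rk k)
    have K0 := N.K1
    show |(R.C.F k ω).al - F.gv k (F.pf k ω)| * q2 (R.C.a k) ≤ 3 * K * q2 (R.C.rk k)
    nlinarith
  μb := by
    have := N.b8 hok
    have := N.μB
    show 8 * μ ≤ _
    omega
  μR := by
    have := N.b8 hok
    have := N.μB
    have := N.rf_ge hok k
    show 8 * μ ≤ min (R.C.rk k - μ / 2 + R.m * R.b1) (R.C.rf k)
    rw [le_min_iff]
    omega
  a := (R.C.ha hk).trans N.aA
  A := N.room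
  q := by
    have := N.rk_le hok hk
    have := N.qK
    show min (R.C.rk k - μ / 2 + R.m * R.b1) (R.C.rf k) + R.m * R.b1 ≤ R.q
    have := min_le_left (R.C.rk k - μ / 2 + R.m * R.b1) (R.C.rf k)
    omega
  b := N.bs hok

/-- **the same**, numbers of the precision `rk0` -/
theorem hr_mt0 (hk : k ≤ R.n) (hV : S3.lv R k ∈ Vs) : HR R (S3.mt0 R F μ o o') p K c (YI R p Vs) k where
  of := ofR_mt0 N.μC
  K1 := N.K1
  c1 := N.c1
  r0 := N.r0 hok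
  le := hk
  mem := ⟨hk.trans (Nat.le_add_right _ _), hV⟩
  hy := fun ω hω => hy_mt0 hok hf N.K1 N.hB N.hr N.μB N.μC hω hf.lo0
  rk := F.l0 k
  g := fun ω hω => by
    have hk' : k ≤ R.n + p.J := hk.trans (Nat.le_add_right _ _)
    have e1 := hf.gvF k hk' ω hω
    have e2 := hf.gvA k hk' ω hω
    have e3 := hf.gv0A k hk' ω hω
    have K0 : 0 ≤ K := by linarith [N.K1]
    have q := mul_le_mul_of_nonneg_left (q2_le (F.l0 k)) K0
    show |(R.C.F k ω).al - F.gv0 k (F.pf k ω)| * q2 (R.C.a k) ≤ 3 * K * q2 (F.rk0 k)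
    have e4 : |(R.C.F k ω).al - F.gv0 k (F.pf k ω)| ≤ |(R.C.F k ω).al - F.gv k (F.pf k ω)| +
        |R.al k ω - F.gv k (F.pf k ω)| + |R.al k ω - F.gv0 k (F.pf k ω)| := by
      have : (R.C.F k ω).al - F.gv0 k (F.pf k ω) = ((R.C.F k ω).al - F.gv k (F.pf k ω)) +
        (-(R.al k ω - F.gv k (F.pf k ω))) + (R.al k ω - F.gv0 k (F.pf k ω)) := by ring
      rw [this]
      refine (abs_add_le _ _).trans (add_le_add ((abs_add_le _ _).trans ?_) le_rfl)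
      rw [abs_neg]
    have e5 := mul_le_mul_of_nonneg_right e4 (q2_pos (R.C.a k)).le
    nlinarith
  μb := by
    have := N.b8 hok
    have := N.μB
    show 8 * μ ≤ _
    omega
  μR := by
    have := N.b8 hok
    have := N.μB
    have := N.rf_ge hok k
    show 8 * μ ≤ min (F.rk0 k - μ / 2 + R.m * R.b1) (R.C.rf k)
    rw [le_min_iff]
    omega
  a := (R.C.ha hk).trans N.aA
  A := N.room
  q := by
    have := N.rk_le hok hk
    have := N.qK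
    have := F.l0 k
    show min (F.rk0 k - μ / 2 + R.m * R.b1) (R.C.rf k) + R.m * R.b1 ≤ R.q
    have := min_le_left (F.rk0 k - μ / 2 + R.m * R.b1) (R.C.rf k)
    omega
  b := N.bs hok

/-- later steps of the frozen path -/
theorem hf_mt (hk : k ≤ R.n) (hV : S3.lv R k ∈ Vs) (hjk : j ≤ k) (ha : R.C.a j = R.C.a k) (hki : k ≤ i)
    (hi : i ≤ R.n + p.J) (hA : R.C.a i ≤ p.A') : HF R (S3.mt R F μ o o') p K c (YI R p Vs) j k i where
  hr := hr_mt N hok hf hk hV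
  jk := hjk
  aj := ha
  ki := hki
  le := hi
  μb := (hr_mt (o := o) (o' := o') N hok hf hk hV).μb
  μR := by
    have := N.b8 hok
    have := N.μB
    have := N.rf_ge hok i
    rw [Pth.R_eq, Mtd.fz_rk _ (hjk.trans hki) hki, Mtd.fz_rf _ (hjk.trans hki)]
    show 8 * μ ≤ min (R.C.rk k - μ / 2 + R.m * R.b1) (R.C.rf i)
    rw [le_min_iff]
    omega
  a := hA
  q := by
    have := N.rk_le hok hk
    have := N.qK
    rw [Pth.R_eq, Mtd.fz_rk _ (hjk.trans hki) hki, Mtd.fz_rf _ (hjk.trans hki)]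
    show min (R.C.rk k - μ / 2 + R.m * R.b1) (R.C.rf i) + R.m * R.b1 ≤ R.q
    have := min_le_left (R.C.rk k - μ / 2 + R.m * R.b1) (R.C.rf i)
    omega

theorem hf_mt0 (hk : k ≤ R.n) (hV : S3.lv R k ∈ Vs) (hjk : j ≤ k) (ha : R.C.a j = R.C.a k) (hki : k ≤ i)
    (hi : i ≤ R.n + p.J) (hA : R.C.a i ≤ p.A') : HF R (S3.mt0 R F μ o o') p K c (YI R p Vs) j k i where
  hr := hr_mt0 N hok hf hk hV
  jk := hjk
  aj := ha
  ki := hki
  le := hi
  μb := (hr_mt0 (o := o) (o' := o') N hok hf hk hV).μb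
  μR := by
    have := N.b8 hok
    have := N.μB
    have := N.rf_ge hok i
    rw [Pth.R_eq, Mtd.fz_rk _ (hjk.trans hki) hki, Mtd.fz_rf _ (hjk.trans hki)]
    show 8 * μ ≤ min (F.rk0 k - μ / 2 + R.m * R.b1) (R.C.rf i)
    rw [le_min_iff]
    omega
  a := hA
  q := by
    have := N.rk_le hok hk
    have := N.qK
    have := F.l0 k
    rw [Pth.R_eq, Mtd.fz_rk _ (hjk.trans hki) hki, Mtd.fz_rf _ (hjk.trans hki)]
    show min (F.rk0 k - μ / 2 + R.m * R.b1) (R.C.rf i) + R.m * R.b1 ≤ R.q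
    have := min_le_left (F.rk0 k - μ / 2 + R.m * R.b1) (R.C.rf i)
    omega

end inst

/-! ### the exceptional events -/

omit [Fintype Ω] in
/-- the bad event of the frozen path at its own step = that of the path of one letter -/
lemma fz_Bad (D : Mtd Ω π) (h : j ≤ k) (x : ℝ) (b : ℕ) (ω : Ω) :
    (D.fz j k).Bad x k b ω ↔ (D.p1 k).Bad x 0 b ω := by
  have hs : (D.fz j k).s k ω = (D.p1 k).s 0 ω := D.fz_s h ω
  have hF := D.fz_Fk h ω
  have hR : (D.fz j k).R k b = (D.p1 k).R 0 b := by rw [D.fz_R h, D.p1_R]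
  have hb := D.fz_bs h b
  have ha : (D.fz j k).a k = (D.p1 k).a 0 := D.fz_a h
  have hsl : (D.fz j k).sl k b ω = (D.p1 k).sl 0 b ω := by
    unfold Pth.sl
    rw [hF, hb]
    rfl
  have hFr : (D.fz j k).Fr k b ((D.fz j k).R k b - 3 * (D.fz j k).μ) ω =
      (D.p1 k).Fr 0 b ((D.p1 k).R 0 b - 3 * (D.p1 k).μ) ω := by
    unfold Pth.Fr
    rw [hF, hb, hsl, hR]
    rfl
  have hva : (D.fz j k).va k b ω = (D.p1 k).va 0 b ω := by
    unfold Pth.va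
    rw [hsl, hs, hFr]
    rfl
  have hlv : (D.fz j k).lv k b = (D.p1 k).lv 0 b := by
    unfold Pth.lv
    rw [ha, hR]
    rfl
  unfold Pth.Bad
  rw [hva, hlv]
  rfl

/-- the true digits of kappa and gamma of the letter at the precision `rk` -/
def EvL (R : Run Ω τ υ) (μ : ℕ) (o : Fin 7 → ℝ) (o' : ℕ → ℝ) (x : ℝ) (k : ℕ) (ω : Ω) : Prop :=
  Nb (R.C.rk k - μ / 2) (S3.kaL R k ω + o' 0) (x * q2 (R.C.rk k)) ∨
    Nb (R.C.rk k - μ / 2) (S3.uL R o k ω + o' 1) (x * q2 (R.C.rk k))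

/-- the event for `mt` -/
lemma badR_mt (ω : Ω) : BadR R (S3.mt R F μ o o') K c k ω ↔
    ((S3.mt R F μ o o').p1 k).Bad (4 * N4.cst (8 * (4 * K)) (6 * c ^ 2 * K)) 0 (R.m * R.b1) ω ∨
      EvL R μ o o' (8 * (4 * K) * (6 * c ^ 2 * K)) k ω := Iff.rfl

/-- **the event for `mt0`** : the cell at the precision `rk0`, the digits of the letter at the precision `rk` -/
def Bad0 (R : Run Ω τ υ) (F : S3.Pf R π) (μ : ℕ) (o : Fin 7 → ℝ) (o' : ℕ → ℝ) (K c : ℝ) (k : ℕ) (ω : Ω) : Prop :=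
  ((S3.mt0 R F μ o o').p1 k).Bad (4 * N4.cst (8 * (4 * K)) (6 * c ^ 2 * K)) 0 (R.m * R.b1) ω ∨
    EvL R μ o o' (8 * (4 * K) * (6 * c ^ 2 * K)) k ω

lemma Nb_mono {n : ℕ} {x e e' : ℝ} (he : e ≤ e') (h : Nb n x e) : Nb n x e' := by
  obtain ⟨y, h1, h2, h3⟩ := h
  by_contra hn
  have hy : |y - x| ≤ e' := by
    rw [abs_le]; constructor <;> linarith
  have hz : |x - e - x| ≤ e' := by
    have h0 : 0 ≤ e := by linarith
    rw [abs_le]; constructor <;> linarith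
  exact h3 (Nb.eq hn hy hz)

lemma prE_mono0 (P : Law Ω) {E E' : Ω → Prop} (h : ∀ ω, E ω → E' ω) : prE P E ≤ prE P E' :=
  MtrW.prE_mono0 P h

lemma prE_or (Q : Law Ω) (E1 E2 : Ω → Prop) : prE Q (fun ω => E1 ω ∨ E2 ω) ≤ prE Q E1 + prE Q E2 := by
  classical
  rw [← H300.ex_ind_eq, ← H300.ex_ind_eq, ← H300.ex_ind_eq, ← Q.ex_add]
  refine Q.ex_mono fun ω _ => ?_
  have n1 := H683.lind_nonneg (E1 ω)
  have n2 := H683.lind_nonneg (E2 ω)
  by_cases h : E1 ω ∨ E2 ω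
  · rw [Law.ind_of h]
    rcases h with h | h
    · rw [Law.ind_of h]; linarith
    · rw [Law.ind_of h]; linarith
  · rw [Law.ind_not h]
    linarith

lemma prE_nn (Q : Law Ω) (E : Ω → Prop) : 0 ≤ prE Q E := Finset.sum_nonneg fun ω _ => Q.nn ω

lemma exc_bad (Q : Law Ω) {τ' : Type} (C : Pth Ω τ') (x : ℝ) (i b : ℕ) : prE Q (C.Bad x i b) ≤ S3.exc Q C x i b := by
  unfold S3.exc
  have := prE_nn Q (H420.BadS C x i b)
  have := prE_nn Q (H300.BadR C x i b)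
  linarith

/-- the events of the letters -/
lemma prE_EvL (x y : ℝ) (hxy : x ≤ y) : prE R.Q (EvL R μ o o' x k) ≤
    prE R.Q (fun ω => Nb (R.C.rk k - μ / 2) (S3.kaL R k ω + o' 0) (y * q2 (R.C.rk k))) +
    prE R.Q (fun ω => Nb (R.C.rk k - μ / 2) (S3.uL R o k ω + o' 1) (y * q2 (R.C.rk k))) := by
  have e := mul_le_mul_of_nonneg_right hxy (q2_pos (R.C.rk k)).le
  refine (prE_or _ _ _).trans (add_le_add (prE_mono0 _ fun ω h => Nb_mono e h) (prE_mono0 _ fun ω h => Nb_mono e h))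

/-- the exceptional event of `mt` in terms of the events of `F2o` -/
theorem prE_mt {K' : ℝ} (h1 : 1 ≤ K) (hc1 : 1 ≤ c) (hc2 : c ≤ 100) (hK : (100 * K) ^ 20 ≤ K') :
    prE R.Q (BadR R (S3.mt R F μ o o') K c k) ≤ S3.exc R.Q ((S3.mt R F μ o o').fz k k) K' k (R.m * R.b1) +
      (prE R.Q (fun ω => Nb (R.C.rk k - μ / 2) (S3.kaL R k ω + o' 0) (K' * q2 (R.C.rk k))) +
      prE R.Q (fun ω => Nb (R.C.rk k - μ / 2) (S3.uL R o k ω + o' 1) (K' * q2 (R.C.rk k)))) := by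
  have e1 : 4 * N4.cst (8 * (4 * K)) (6 * c ^ 2 * K) ≤ K' := by
    rw [show 8 * (4 * K) = 32 * K by ring]
    exact (cst_le h1 hc1 hc2).trans hK
  have a1 := prE_or R.Q (((S3.mt R F μ o o').p1 k).Bad (4 * N4.cst (8 * (4 * K)) (6 * c ^ 2 * K)) 0 (R.m * R.b1))
    (EvL R μ o o' (8 * (4 * K) * (6 * c ^ 2 * K)) k)
  have a2 := prE_EvL (R := R) (μ := μ) (o := o) (o' := o') (k := k) _ K' ((cst_le2 h1 hc1 hc2).trans hK)
  have a3 : prE R.Q (((S3.mt R F μ o o').p1 k).Bad (4 * N4.cst (8 * (4 * K)) (6 * c ^ 2 * K)) 0 (R.m * R.b1)) ≤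
      prE R.Q (((S3.mt R F μ o o').fz k k).Bad K' k (R.m * R.b1)) :=
    prE_mono0 _ fun ω h => (fz_Bad _ le_rfl _ _ _).2 (Pth.Bad_mono e1 h)
  have a4 := exc_bad R.Q ((S3.mt R F μ o o').fz k k) K' k (R.m * R.b1)
  refine le_trans a1 ?_
  linarith

theorem prE_mt0 {K' : ℝ} (h1 : 1 ≤ K) (hc1 : 1 ≤ c) (hc2 : c ≤ 100) (hK : (100 * K) ^ 20 ≤ K') :
    prE R.Q (Bad0 R F μ o o' K c k) ≤ S3.exc R.Q ((S3.mt0 R F μ o o').fz k k) K' k (R.m * R.b1) +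
      (prE R.Q (fun ω => Nb (R.C.rk k - μ / 2) (S3.kaL R k ω + o' 0) (K' * q2 (R.C.rk k))) +
      prE R.Q (fun ω => Nb (R.C.rk k - μ / 2) (S3.uL R o k ω + o' 1) (K' * q2 (R.C.rk k)))) := by
  have e1 : 4 * N4.cst (8 * (4 * K)) (6 * c ^ 2 * K) ≤ K' := by
    rw [show 8 * (4 * K) = 32 * K by ring]
    exact (cst_le h1 hc1 hc2).trans hK
  have a1 := prE_or R.Q (((S3.mt0 R F μ o o').p1 k).Bad (4 * N4.cst (8 * (4 * K)) (6 * c ^ 2 * K)) 0 (R.m * R.b1))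
    (EvL R μ o o' (8 * (4 * K) * (6 * c ^ 2 * K)) k)
  have a2 := prE_EvL (R := R) (μ := μ) (o := o) (o' := o') (k := k) _ K' ((cst_le2 h1 hc1 hc2).trans hK)
  have a3 : prE R.Q (((S3.mt0 R F μ o o').p1 k).Bad (4 * N4.cst (8 * (4 * K)) (6 * c ^ 2 * K)) 0 (R.m * R.b1)) ≤
      prE R.Q (((S3.mt0 R F μ o o').fz k k).Bad K' k (R.m * R.b1)) :=
    prE_mono0 _ fun ω h => (fz_Bad _ le_rfl _ _ _).2 (Pth.Bad_mono e1 h)
  have a4 := exc_bad R.Q ((S3.mt0 R F μ o o').fz k k) K' k (R.m * R.b1)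
  refine le_trans a1 ?_
  linarith

lemma exc_nn (Q : Law Ω) {τ' : Type} (C : Pth Ω τ') (x : ℝ) (i b : ℕ) : 0 ≤ S3.exc Q C x i b := by
  unfold S3.exc
  have := prE_nn Q (C.Bad x i b)
  have := prE_nn Q (H420.BadS C x i b)
  have := prE_nn Q (H300.BadR C x i b)
  linarith

/-- **the sum over the young steps, kappa regime** -/
theorem sum_K {K' : ℝ} (h1 : 1 ≤ K) (hc1 : 1 ≤ c) (hc2 : c ≤ 100) (hK : (100 * K) ^ 20 ≤ K')
    (S : S3.F2o R p B bS bV F Vs Xs μ K' o o') :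
    ∑ k ∈ S3.IdK R Vs Xs, prE R.Q (BadR R (S3.mt R F μ o o') K c k) ≤
      2 * (K' ^ 2 * (R.n + p.J + 1) * q2 (μ / 4)) := by
  classical
  have s1 := S.offK 0 (Nat.zero_le _)
  have s2 := S.offL
  have s3 : ∑ k ∈ S3.IdK R Vs Xs, prE R.Q (BadR R (S3.mt R F μ o o') K c k) ≤
      ∑ k ∈ S3.IdK R Vs Xs, (S3.exc R.Q ((S3.mt R F μ o o').fz k k) K' k (R.m * R.b1) +
        S3.exc R.Q ((S3.mt R F μ o o').fz k k) K' k bV +
        ∑ i ∈ S3.At' R p B 0 k, S3.exc R.Q ((S3.mt R F μ o o').fz k k) K' i (R.m * R.b1)) +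
      ∑ k ∈ S3.IdK R Vs Xs,
      (prE R.Q (fun ω => Nb (R.C.rk k - μ / 2) (S3.kaL R k ω + o' 0) (K' * q2 (R.C.rk k))) +
      prE R.Q (fun ω => Nb (R.C.rk k - μ / 2) (S3.uL R o k ω + o' 1) (K' * q2 (R.C.rk k)))) := by
    rw [← Finset.sum_add_distrib]
    refine Finset.sum_le_sum fun k _ => ?_
    have a1 := prE_mt (R := R) (F := F) (μ := μ) (o := o) (o' := o') (k := k) h1 hc1 hc2 hK
    have a2 := exc_nn R.Q ((S3.mt R F μ o o').fz k k) K' k bV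
    have a3 : 0 ≤ ∑ i ∈ S3.At' R p B 0 k, S3.exc R.Q ((S3.mt R F μ o o').fz k k) K' i (R.m * R.b1) :=
      Finset.sum_nonneg fun i _ => exc_nn _ _ _ _ _
    linarith
  have s4 : ∑ k ∈ S3.IdK R Vs Xs,
      (prE R.Q (fun ω => Nb (R.C.rk k - μ / 2) (S3.kaL R k ω + o' 0) (K' * q2 (R.C.rk k))) +
      prE R.Q (fun ω => Nb (R.C.rk k - μ / 2) (S3.uL R o k ω + o' 1) (K' * q2 (R.C.rk k)))) ≤
      ∑ k ∈ range (R.n + 1),
      (prE R.Q (fun ω => Nb (R.C.rk k - μ / 2) (S3.kaL R k ω + o' 0) (K' * q2 (R.C.rk k))) +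
      prE R.Q (fun ω => Nb (R.C.rk k - μ / 2) (S3.uL R o k ω + o' 1) (K' * q2 (R.C.rk k)))) := by
    refine Finset.sum_le_sum_of_subset_of_nonneg (fun k hk => ?_) fun k _ _ =>
      add_nonneg (prE_nn _ _) (prE_nn _ _)
    have := (Finset.mem_filter.1 hk).1
    rw [Finset.mem_Icc] at this
    rw [Finset.mem_range]
    omega
  have e : K' ^ 2 * ((0 : ℕ) + 1) ^ 2 * (R.n + p.J + 1) * q2 (μ / 4) = K' ^ 2 * (R.n + p.J + 1) * q2 (μ / 4) := by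
    push_cast; ring
  rw [e] at s1
  linarith

/-- **the same, deep phi regime** -/
theorem sum_P {K' : ℝ} (h1 : 1 ≤ K) (hc1 : 1 ≤ c) (hc2 : c ≤ 100) (hK : (100 * K) ^ 20 ≤ K')
    (S : S3.F2o R p B bS bV F Vs Xs μ K' o o') :
    ∑ k ∈ S3.IdP R F B Vs Xs, prE R.Q (Bad0 R F μ o o' K c k) ≤
      2 * (K' ^ 2 * (R.n + p.J + 1) * q2 (μ / 4)) := by
  classical
  have s1 := S.offP 0 (Nat.zero_le _)
  have s2 := S.offL
  have s3 : ∑ k ∈ S3.IdP R F B Vs Xs, prE R.Q (Bad0 R F μ o o' K c k) ≤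
      ∑ k ∈ S3.IdP R F B Vs Xs, (S3.exc R.Q ((S3.mt0 R F μ o o').fz k k) K' k (R.m * R.b1) +
        S3.exc R.Q ((S3.mt0 R F μ o o').fz k k) K' k bV +
        ∑ i ∈ S3.At' R p B 0 k, S3.exc R.Q ((S3.mt0 R F μ o o').fz k k) K' i (R.m * R.b1)) +
      ∑ k ∈ S3.IdP R F B Vs Xs,
      (prE R.Q (fun ω => Nb (R.C.rk k - μ / 2) (S3.kaL R k ω + o' 0) (K' * q2 (R.C.rk k))) +
      prE R.Q (fun ω => Nb (R.C.rk k - μ / 2) (S3.uL R o k ω + o' 1) (K' * q2 (R.C.rk k)))) := by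
    rw [← Finset.sum_add_distrib]
    refine Finset.sum_le_sum fun k _ => ?_
    have a1 := prE_mt0 (R := R) (F := F) (μ := μ) (o := o) (o' := o') (k := k) h1 hc1 hc2 hK
    have a2 := exc_nn R.Q ((S3.mt0 R F μ o o').fz k k) K' k bV
    have a3 : 0 ≤ ∑ i ∈ S3.At' R p B 0 k, S3.exc R.Q ((S3.mt0 R F μ o o').fz k k) K' i (R.m * R.b1) :=
      Finset.sum_nonneg fun i _ => exc_nn _ _ _ _ _
    linarith
  have s4 : ∑ k ∈ S3.IdP R F B Vs Xs,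
      (prE R.Q (fun ω => Nb (R.C.rk k - μ / 2) (S3.kaL R k ω + o' 0) (K' * q2 (R.C.rk k))) +
      prE R.Q (fun ω => Nb (R.C.rk k - μ / 2) (S3.uL R o k ω + o' 1) (K' * q2 (R.C.rk k)))) ≤
      ∑ k ∈ range (R.n + 1),
      (prE R.Q (fun ω => Nb (R.C.rk k - μ / 2) (S3.kaL R k ω + o' 0) (K' * q2 (R.C.rk k))) +
      prE R.Q (fun ω => Nb (R.C.rk k - μ / 2) (S3.uL R o k ω + o' 1) (K' * q2 (R.C.rk k)))) := by
    refine Finset.sum_le_sum_of_subset_of_nonneg (fun k hk => ?_) fun k _ _ =>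
      add_nonneg (prE_nn _ _) (prE_nn _ _)
    have := (Finset.mem_filter.1 hk).1
    rw [Finset.mem_Icc] at this
    rw [Finset.mem_range]
    omega
  have e : K' ^ 2 * ((0 : ℕ) + 1) ^ 2 * (R.n + p.J + 1) * q2 (μ / 4) = K' ^ 2 * (R.n + p.J + 1) * q2 (μ / 4) := by
    push_cast; ring
  rw [e] at s1
  linarith

/-! ### `mt0` : letters at the precision `rk`, numbers at the precision `rk0` -/

section mt0

variable (N : NW R p K c B μ) (hok : R.Ok p K c' g' gU) (hf : S3.F2 R p K B bS bV F Vs Xs)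
  (hlb : ∀ ω, 0 < R.Q.w ω → LbOk c R.L R.h (R.W ω) (R.ry ω) (R.t ω) ∧ (R.W ω).u2 = 1 ∧
      (R.W ω).u1 = (1 / 2 : ℝ) ^ R.q)

include N hok hf hlb

/-- the N-positions -/
theorem N_dif0 (hk : k ≤ R.n) (hV : S3.lv R k ∈ Vs) (hω : 0 < R.Q.w ω) (hω' : 0 < R.Q.w ω') (e : R.W' ω = R.W' ω') :
    |(R.C.l ω').N (R.C.s k ω) - (R.C.l ω).N (R.C.s k ω)| ≤
      N4.cst (32 * K) (6 * c ^ 2 * K) * q2 (R.C.a k + R.m * R.b1) ∧ R.C.s k ω' = R.C.s k ω := by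
  have H := hr_mt (o := fun _ => 0) (o' := fun _ => 0) N hok hf hk hV
  have hk' : k ≤ R.n + p.J := hk.trans (Nat.le_add_right _ _)
  have cm := cm_run H.of hok N.K1 N.c1 hlb hk' hω hω' e (hf.pfW k hk' ω ω' hω hω' e)
  have h := N_dif H.nm (H.hy ω hω) (H.hy ω' hω') H.mem (H.hw hok hω) (H.hw' hok hω hω' e) cm
  rw [show 8 * (4 * K) = 32 * K by ring] at h
  exact ⟨h, cm.hs⟩

/-- kappa -/
theorem ka_dif0 (hk : k ≤ R.n) (hV : S3.lv R k ∈ Vs) (hω : 0 < R.Q.w ω) (hω' : 0 < R.Q.w ω') (e : R.W' ω = R.W' ω') :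
    |S3.kaL R k ω' - S3.kaL R k ω| ≤ 8 * (4 * K) * (6 * c ^ 2 * K) * q2 (R.C.rk k) := by
  have H := hr_mt (o := fun _ => 0) (o' := fun _ => 0) N hok hf hk hV
  have hk' : k ≤ R.n + p.J := hk.trans (Nat.le_add_right _ _)
  have cm := cm_run H.of hok N.K1 N.c1 hlb hk' hω hω' e (hf.pfW k hk' ω ω' hω hω' e)
  exact ka_dif (by linarith [N.K1]) H.nm.M1 (H.hy ω hω) (H.hy ω' hω') H.mem (H.hw hok hω) (H.hw' hok hω hω' e)
    cm.hs cm.pf

/-- gamma, given the digits of the position -/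
theorem u_dif0 (hk : k ≤ R.n) (hV : S3.lv R k ∈ Vs) (hω : 0 < R.Q.w ω) (hω' : 0 < R.Q.w ω') (e : R.W' ω = R.W' ω')
    (hn : (S3.mt R F μ o o').nN k ω = (S3.mt R F μ o o').nN k ω') :
    |S3.uL R o k ω' - S3.uL R o k ω| ≤ 8 * (4 * K) * (6 * c ^ 2 * K) * q2 (R.C.rk k) := by
  have H := hr_mt (o := o) (o' := o') N hok hf hk hV
  have hk' : k ≤ R.n + p.J := hk.trans (Nat.le_add_right _ _)
  have cm := cm_run H.of hok N.K1 N.c1 hlb hk' hω hω' e (hf.pfW k hk' ω ω' hω hω' e)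
  exact u_dif (by linarith [N.K1]) H.nm.M1 (H.hy ω hω) (H.hy ω' hω') H.mem (H.hw hok hω) (H.hw' hok hω hω' e)
    cm.pf hn H.nm.ha (by have := H.nm.hA; omega) cm.cl.N

/-- the digits of the position -/
theorem nN0_W' (hk : k ≤ R.n) (hV : S3.lv R k ∈ Vs) (hω : 0 < R.Q.w ω) (hω' : 0 < R.Q.w ω') (e : R.W' ω = R.W' ω')
    (hB : ¬ ((S3.mt0 R F μ o o').p1 k).Bad (4 * N4.cst (8 * (4 * K)) (6 * c ^ 2 * K)) 0 (R.m * R.b1) ω) :
    (S3.mt0 R F μ o o').nN k ω = (S3.mt0 R F μ o o').nN k ω' := by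
  obtain ⟨h, hs⟩ := N_dif0 N hok hf hlb hk hV hω hω' e
  have M1 := (hr_mt (o := o) (o' := o') N hok hf hk hV).nm.M1
  have K1 := N.K1
  have hμ : μ ≤ R.m * R.b1 := by
    have := N.b8 hok
    have := N.μB
    omega
  have hc1 : 1 ≤ N4.cst (32 * K) (6 * c ^ 2 * K) := one_le_cst (by linarith) M1
  unfold Pth.Bad at hB
  push Not at hB
  rw [show 8 * (4 * K) = 32 * K by ring] at hB
  have h2 := hB 2
  have l2 : ((S3.mt0 R F μ o o').p1 k).lv 0 (R.m * R.b1) 2 = R.C.a k + R.m * R.b1 - μ := rfl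
  have v2 : ((S3.mt0 R F μ o o').p1 k).va 0 (R.m * R.b1) ω 2 = (R.C.l ω).N (R.C.s k ω) := rfl
  have o2 : ((S3.mt0 R F μ o o').p1 k).o 2 = o 2 := rfl
  have m2 : ((S3.mt0 R F μ o o').p1 k).μ = μ := rfl
  rw [l2, v2, o2, m2, show R.C.a k + R.m * R.b1 - μ + μ = R.C.a k + R.m * R.b1 by omega] at h2
  have hq0 := q2_pos (R.C.a k + R.m * R.b1)
  have f := Nb.eq h2 (y := (R.C.l ω).N (R.C.s k ω) + o 2) (y' := (R.C.l ω').N (R.C.s k ω) + o 2)
    (by rw [sub_self, abs_zero]; positivity)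
    (by
      rw [add_sub_add_right_eq_sub]
      refine h.trans ?_
      nlinarith)
  show fl1 (R.C.a k) ((R.C.l ω).N (R.C.s k ω) + o 2) = fl1 (R.C.a k) ((R.C.l ω').N (R.C.s k ω') + o 2)
  rw [hs]
  exact fl1_fl1 (by omega) f

/-- the letter from the digits -/
lemma lt0_of (hk : k ≤ R.n) (hω : 0 < R.Q.w ω) (hω' : 0 < R.Q.w ω')
    (e : R.W' ω = R.W' ω') (hn : (S3.mt0 R F μ o o').nN k ω = (S3.mt0 R F μ o o').nN k ω')
    (e1 : fl1 (R.C.rk k - μ / 2) (S3.kaL R k ω + o' 0) = fl1 (R.C.rk k - μ / 2) (S3.kaL R k ω' + o' 0))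
    (e2 : fl1 (R.C.rk k - μ / 2) (S3.uL R o k ω + o' 1) = fl1 (R.C.rk k - μ / 2) (S3.uL R o k ω' + o' 1)) :
    (S3.mt0 R F μ o o').pf k ω = (S3.mt0 R F μ o o').pf k ω' ∧
      (S3.mt0 R F μ o o').lt k ω = (S3.mt0 R F μ o o').lt k ω' := by
  have hk' : k ≤ R.n + p.J := hk.trans (Nat.le_add_right _ _)
  have hp : F.pf k ω = F.pf k ω' := hf.pfW k hk' ω ω' hω hω' e
  have hpf : (S3.mt0 R F μ o o').pf k ω = (S3.mt0 R F μ o o').pf k ω' := by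
    show (F.pf k ω, fl1 (R.C.rk k - μ / 2) (S3.kaL R k ω + o' 0), fl1 (R.C.rk k - μ / 2) (S3.uL R o k ω + o' 1)) =
      (F.pf k ω', fl1 (R.C.rk k - μ / 2) (S3.kaL R k ω' + o' 0), fl1 (R.C.rk k - μ / 2) (S3.uL R o k ω' + o' 1))
    rw [hp, e1, e2]
  have cm := cm_run (D := S3.mt0 R F μ o o') (ofR_mt0 N.μC) hok N.K1 N.c1 hlb hk' hω hω' e hpf
  have l0 : F.rk0 k - μ / 2 ≤ R.C.rk k - μ / 2 := Nat.sub_le_sub_right (F.l0 k) _
  refine ⟨hpf, ?_⟩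
  have k1 : (S3.mt0 R F μ o o').kN k ω = (S3.mt0 R F μ o o').kN k ω' := fl1_fl1 l0 e1
  have k2 : (S3.mt0 R F μ o o').uN k ω = (S3.mt0 R F μ o o').uN k ω' := fl1_fl1 l0 e2
  unfold Mtd.lt
  rw [cm.t, hpf, k1, k2, hn]

/-- **the letter of `mt0` is a function of `W'`** -/
theorem lt0_W' (hk : k ≤ R.n) (hV : S3.lv R k ∈ Vs) (hω : 0 < R.Q.w ω) (hω' : 0 < R.Q.w ω') (e : R.W' ω = R.W' ω')
    (hB : ¬ Bad0 R F μ o o' K c k ω) : (S3.mt0 R F μ o o').pf k ω = (S3.mt0 R F μ o o').pf k ω' ∧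
      (S3.mt0 R F μ o o').lt k ω = (S3.mt0 R F μ o o').lt k ω' := by
  unfold Bad0 EvL at hB
  push Not at hB
  obtain ⟨b1, b2, b3⟩ := hB
  have K1 := N.K1
  have M1 := (hr_mt (o := o) (o' := o') N hok hf hk hV).nm.M1
  have qk := q2_pos (R.C.rk k)
  have hn := nN0_W' N hok hf hlb hk hV hω hω' e b1
  refine lt0_of N hok hf hlb hk hω hω' e hn (Nb.eq b2 (by rw [sub_self, abs_zero]; positivity) ?_)
    (Nb.eq b3 (by rw [sub_self, abs_zero]; positivity) ?_)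
  · rw [add_sub_add_right_eq_sub]
    exact ka_dif0 N hok hf hlb hk hV hω hω' e
  · rw [add_sub_add_right_eq_sub]
    exact u_dif0 (o := o) (o' := o') N hok hf hlb hk hV hω hω' e hn

/-- closeness in the frozen path of `mt0`, given the letter -/
theorem clo0 (hk : k ≤ R.n) (hV : S3.lv R k ∈ Vs) (hω : 0 < R.Q.w ω) (hω' : 0 < R.Q.w ω') (e : R.W' ω = R.W' ω')
    (hl : (S3.mt0 R F μ o o').lt k ω = (S3.mt0 R F μ o o').lt k ω') :
    ((S3.mt0 R F μ o o').p1 k).Clo 0 (R.m * R.b1) (N4.cst (8 * (4 * K)) (6 * c ^ 2 * K)) ω ω' := by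
  have H := hr_mt0 (o := o) (o' := o') N hok hf hk hV
  have hk' : k ≤ R.n + p.J := hk.trans (Nat.le_add_right _ _)
  have hpf : (S3.mt0 R F μ o o').pf k ω = (S3.mt0 R F μ o o').pf k ω' := congrArg (fun z => z.2.1) hl
  have cm := cm_run H.of hok N.K1 N.c1 hlb hk' hω hω' e hpf
  exact clo_of_lt H.nm (H.hy ω hω) (H.hy ω' hω') H.mem (H.hw hok hω) (H.hw' hok hω hω' e) cm hl

/-- **the cell of `mt0` is a function of `W'`** -/
theorem mtr0_W' (hk : k ≤ R.n) (hV : S3.lv R k ∈ Vs) (hω : 0 < R.Q.w ω) (hω' : 0 < R.Q.w ω') (e : R.W' ω = R.W' ω')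
    (hB : ¬ Bad0 R F μ o o' K c k ω) :
    (S3.mt0 R F μ o o').mtr k (R.m * R.b1) ω = (S3.mt0 R F μ o o').mtr k (R.m * R.b1) ω' := by
  have H := hr_mt0 (o := o) (o' := o') N hok hf hk hV
  have hl := (lt0_W' N hok hf hlb hk hV hω hω' e hB).2
  have hC := clo0 N hok hf hlb hk hV hω hω' e hl
  rw [← Mtd.p1_cell_iff _ k 0 (R.m * R.b1)]
  exact hC.cell H.nm.lev (one_le_cst (by linarith [N.K1]) H.nm.M1) fun hb => hB (Or.inl hb)

/-- **direction** given the cell of `mt0` -/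
theorem colp_mtr0 (hk : k ≤ R.n) (hV : S3.lv R k ∈ Vs) {ε : ℝ} {B' : ℕ} (cap : R.Cap p B' ε) {g : ℕ} (hg : R.m ≤ g) :
    colp R.Q (fun ω => fl1 (R.m * R.b1 + g) (R.C.l ω).v) ((S3.mt0 R F μ o o').mtr k (R.m * R.b1)) ≤
      2 * ε + 3 * prE R.Q (Bad0 R F μ o o' K c k) := by
  have h1 := H931.colp_v hg ((S3.mt0 R F μ o o').mtr k (R.m * R.b1)) (Bad0 R F μ o o' K c k)
    fun ω ω' a b n e => mtr0_W' N hok hf hlb hk hV a b e n
  have h2 := cap.act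
  linarith

/-- **later cells of the frozen path of `mt0`** -/
theorem fz0_W' (hk : k ≤ R.n) (hV : S3.lv R k ∈ Vs) (hjk : j ≤ k) (ha : R.C.a j = R.C.a k) (hki : k ≤ i)
    (hi : i ≤ R.n + p.J) (hA : R.C.a i ≤ p.A') (hω : 0 < R.Q.w ω) (hω' : 0 < R.Q.w ω') (e : R.W' ω = R.W' ω')
    (hB : ¬ Bad0 R F μ o o' K c k ω)
    (hB2 : ¬ ((S3.mt0 R F μ o o').fz j k).Bad (4 * N4.cst (32 * K) (6 * c ^ 2 * K)) i (R.m * R.b1) ω) :
    ((S3.mt0 R F μ o o').fz j k).cell i (R.m * R.b1) ω = ((S3.mt0 R F μ o o').fz j k).cell i (R.m * R.b1) ω' := by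
  have H := hf_mt0 (o := o) (o' := o') N hok hf hk hV hjk ha hki hi hA
  exact (fz_clo H hok hlb hω hω' e (lt0_W' N hok hf hlb hk hV hω hω' e hB).2).cell ⟨H.μb, H.μR⟩
    (one_le_cst (by linarith [N.K1]) H.hr.nm.M1) hB2

/-- **with the digits of the slope** -/
theorem Dp0_W' (hk : k ≤ R.n) (hV : S3.lv R k ∈ Vs) (hjk : j ≤ k) (ha : R.C.a j = R.C.a k) (hki : k ≤ i)
    (hi : i ≤ R.n + p.J) (hA : R.C.a i ≤ p.A') (hR : H683.Reg ((S3.mt0 R F μ o o').fz j k) k i (R.m * R.b1))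
    (hω : 0 < R.Q.w ω) (hω' : 0 < R.Q.w ω') (e : R.W' ω = R.W' ω') (hB : ¬ Bad0 R F μ o o' K c k ω)
    (hB2 : ¬ ((S3.mt0 R F μ o o').fz j k).Bad (4 * N4.cst (32 * K) (6 * c ^ 2 * K)) i (R.m * R.b1) ω)
    (hS : ¬ H683.Bads ((S3.mt0 R F μ o o').fz j k) (32 * K) k (R.m * R.b1) ω) :
    Dp ((S3.mt0 R F μ o o').fz j k) k (R.m * R.b1) ω = Dp ((S3.mt0 R F μ o o').fz j k) k (R.m * R.b1) ω' := by
  have e1 : ((S3.mt0 R F μ o o').fz j k).cell k (R.m * R.b1) ω =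
      ((S3.mt0 R F μ o o').fz j k).cell k (R.m * R.b1) ω' := by
    rw [Mtd.fz_cell_iff _ hjk]
    exact mtr0_W' N hok hf hlb hk hV hω hω' e hB
  have hI : k ∈ YI R p Vs := ⟨hk.trans (Nat.le_add_right _ _), hV⟩
  exact H683.Dp_of_late hR (fz_mt0 hok hf N.K1 N.hB N.hr N.μB N.μC hω hf.lo0 hI ha)
    (fz_mt0 hok hf N.K1 N.hB N.hr N.μB N.μC hω' hf.lo0 hI ha) e1
    (fz0_W' N hok hf hlb hk hV hjk ha hki hi hA hω hω' e hB hB2) hS

/-- **direction**, given the cell and the digits of the slope (= `MIC.cY` of the frozen path) -/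
theorem colp_Dp0 (hk : k ≤ R.n) (hV : S3.lv R k ∈ Vs) (hjk : j ≤ k) (ha : R.C.a j = R.C.a k) (hki : k ≤ i)
    (hi : i ≤ R.n + p.J) (hA : R.C.a i ≤ p.A') (hR : H683.Reg ((S3.mt0 R F μ o o').fz j k) k i (R.m * R.b1))
    {ε : ℝ} {B' : ℕ} (cap : R.Cap p B' ε) {g : ℕ} (hg : R.m ≤ g) :
    colp R.Q (fun ω => fl1 (R.m * R.b1 + g) (R.C.l ω).v) (Dp ((S3.mt0 R F μ o o').fz j k) k (R.m * R.b1)) ≤
      2 * ε + 3 * (prE R.Q (Bad0 R F μ o o' K c k) +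
        prE R.Q (((S3.mt0 R F μ o o').fz j k).Bad (4 * N4.cst (32 * K) (6 * c ^ 2 * K)) i (R.m * R.b1)) +
        prE R.Q (H683.Bads ((S3.mt0 R F μ o o').fz j k) (32 * K) k (R.m * R.b1))) := by
  have h1 := H931.colp_v hg (Dp ((S3.mt0 R F μ o o').fz j k) k (R.m * R.b1)) (fun ω => Bad0 R F μ o o' K c k ω ∨
    (((S3.mt0 R F μ o o').fz j k).Bad (4 * N4.cst (32 * K) (6 * c ^ 2 * K)) i (R.m * R.b1) ω ∨
      H683.Bads ((S3.mt0 R F μ o o').fz j k) (32 * K) k (R.m * R.b1) ω))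
    fun ω ω' a b n e => by
      push Not at n
      exact Dp0_W' N hok hf hlb hk hV hjk ha hki hi hA hR a b e n.1 n.2.1 n.2.2
  have h2 := cap.act
  have h3 := prE_or3 R.Q (Bad0 R F μ o o' K c k)
    (((S3.mt0 R F μ o o').fz j k).Bad (4 * N4.cst (32 * K) (6 * c ^ 2 * K)) i (R.m * R.b1))
    (H683.Bads ((S3.mt0 R F μ o o').fz j k) (32 * K) k (R.m * R.b1))
  linarith

open Classical in
/-- **entropy form for `mt0`**; `Y` determines `W'` -/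
theorem hc_mtr0_Y {T : Type*} (Y : Ω → T) (hY : Fn R.Q R.W' Y) (hk : k ≤ R.n) (hV : S3.lv R k ∈ Vs) :
    hc R.Q ((S3.mt0 R F μ o o').mtr k (R.m * R.b1)) Y ≤ cE K c * Real.sqrt (prE R.Q (Bad0 R F μ o o' K c k)) := by
  have h1 := N.K1
  have H := hr_mt0 (o := o) (o' := o') N hok hf hk hV
  have M1 := H.nm.M1
  have K0 : 0 < K := by linarith
  have e32 : 8 * (4 * K) = 32 * K := by ring
  set cc := N4.cst (32 * K) (6 * c ^ 2 * K) with hcd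
  have hc1 : 1 ≤ cc := one_le_cst (by linarith) M1
  set m := ⌈3 * cc⌉₊ with hm
  have hcm : 3 * cc ≤ m := Nat.le_ceil _
  have hcu : 8 * (4 * K) * (6 * c ^ 2 * K) ≤ cc := by
    rw [hcd]
    unfold N4.cst
    have k1 : 32 * K ≤ (32 * K) ^ 7 := by
      calc 32 * K = (32 * K) ^ 1 := (pow_one _).symm
        _ ≤ _ := pow_le_pow_right₀ (by linarith) (by norm_num)
    have m1 : 6 * c ^ 2 * K ≤ (6 * c ^ 2 * K) ^ 2 := by nlinarith
    have t : 32 * K * (6 * c ^ 2 * K) ≤ (32 * K) ^ 7 * (6 * c ^ 2 * K) ^ 2 := mul_le_mul k1 m1 (by linarith) (by positivity)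
    have t0 : 0 ≤ (32 * K) ^ 7 * (6 * c ^ 2 * K) ^ 2 := by positivity
    rw [e32]
    nlinarith
  set E := Bad0 R F μ o o' K c k with hE
  set D := S3.mt0 R F μ o o' with hD
  set b := R.m * R.b1 with hb
  set fK : Ω → ℤ := fun ω => fl1 (R.C.rk k - μ / 2) (S3.kaL R k ω + o' 0) with hfK
  set fU : Ω → ℤ := fun ω => fl1 (R.C.rk k - μ / 2) (S3.uL R o k ω + o' 1) with hfU
  have hq : q2 (R.C.rk k) ≤ q2 (R.C.rk k - μ / 2) := q2_le (Nat.sub_le _ _)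
  have a1 : hc R.Q (D.nN k) Y ≤ (2 + Real.log ((2 * m + 3 : ℕ) : ℝ)) * Real.sqrt (prE R.Q E) := by
    refine nhc R.Q _ Y E (2 * m + 3) (by omega) (fun ω ω' p p' nb _ e => ?_)
      (int_card R.Q _ Y fun ω ω' p p' e => ?_)
    · exact nN0_W' N hok hf hlb hk hV p p' (hY ω ω' p p' e) fun hb => nb (Or.inl hb)
    · obtain ⟨t, hs⟩ := N_dif0 N hok hf hlb hk hV p p' (hY ω ω' p p' e)
      show |fl1 (R.C.a k) ((R.C.l ω').N (R.C.s k ω') + o 2) - fl1 (R.C.a k) ((R.C.l ω).N (R.C.s k ω) + o 2)| ≤ _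
      rw [hs]
      refine fl1_le_of_near ?_
      rw [add_sub_add_right_eq_sub]
      have u : q2 (R.C.a k + b) ≤ q2 (R.C.a k) := q2_le (by omega)
      have := q2_pos (R.C.a k + b)
      exact t.trans (mul_le_mul (by linarith) u this.le (by linarith))
  have a2 : hc R.Q fK (fun ω => (D.nN k ω, Y ω)) ≤
      (2 + Real.log ((2 * m + 3 : ℕ) : ℝ)) * Real.sqrt (prE R.Q E) := by
    have key : ∀ ω ω', 0 < R.Q.w ω → 0 < R.Q.w ω' → Y ω = Y ω' →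
        |S3.kaL R k ω' - S3.kaL R k ω| ≤ 8 * (4 * K) * (6 * c ^ 2 * K) * q2 (R.C.rk k) :=
      fun ω ω' p p' e => ka_dif0 N hok hf hlb hk hV p p' (hY ω ω' p p' e)
    refine nhc R.Q _ _ E (2 * m + 3) (by omega) (fun ω ω' p p' nb _ e => ?_)
      (int_card R.Q _ _ fun ω ω' p p' e => ?_)
    · have e' := (Prod.ext_iff.1 e).2
      rw [hE] at nb
      unfold Bad0 EvL at nb
      push Not at nb
      have := q2_pos (R.C.rk k)
      refine Nb.eq nb.2.1 (by rw [sub_self, abs_zero]; positivity) ?_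
      rw [add_sub_add_right_eq_sub]
      exact key ω ω' p p' e'
    · have e' := (Prod.ext_iff.1 e).2
      refine fl1_le_of_near ?_
      rw [add_sub_add_right_eq_sub]
      have := q2_pos (R.C.rk k)
      exact (key ω ω' p p' e').trans (mul_le_mul (by linarith) hq this.le (by linarith))
  have a3 : hc R.Q fU (fun ω => (fK ω, D.nN k ω, Y ω)) ≤
      (2 + Real.log ((2 * m + 3 : ℕ) : ℝ)) * Real.sqrt (prE R.Q E) := by
    have key : ∀ ω ω', 0 < R.Q.w ω → 0 < R.Q.w ω' → D.nN k ω = D.nN k ω' → Y ω = Y ω' →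
        |S3.uL R o k ω' - S3.uL R o k ω| ≤ 8 * (4 * K) * (6 * c ^ 2 * K) * q2 (R.C.rk k) :=
      fun ω ω' p p' hn e => u_dif0 (o := o) (o' := o') N hok hf hlb hk hV p p' (hY ω ω' p p' e) hn
    refine nhc R.Q _ _ E (2 * m + 3) (by omega) (fun ω ω' p p' nb _ e => ?_)
      (int_card R.Q _ _ fun ω ω' p p' e => ?_)
    · simp only [Prod.mk.injEq] at e
      rw [hE] at nb
      unfold Bad0 EvL at nb
      push Not at nb
      have := q2_pos (R.C.rk k)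
      refine Nb.eq nb.2.2 (by rw [sub_self, abs_zero]; positivity) ?_
      rw [add_sub_add_right_eq_sub]
      exact key ω ω' p p' e.2.1 e.2.2
    · simp only [Prod.mk.injEq] at e
      refine fl1_le_of_near ?_
      rw [add_sub_add_right_eq_sub]
      have := q2_pos (R.C.rk k)
      exact (key ω ω' p p' e.2.1 e.2.2).trans (mul_le_mul (by linarith) hq this.le (by linarith))
  have a4 : hc R.Q ((D.p1 k).cell 0 b) (fun ω => (fU ω, fK ω, D.nN k ω, Y ω)) ≤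
      (6 + 10 * Real.log (2 * m + 3)) * Real.sqrt (prE R.Q E) := by
    have e := hc_of_clo R.Q (D.p1 k) (fun ω => (fU ω, fK ω, D.nN k ω, Y ω)) hc1 H.nm.lev
      (fun ω ω' p p' e => by
        simp only [Prod.mk.injEq] at e
        have hW := hY ω ω' p p' e.2.2.2
        have hl := (lt0_of (o := o) (o' := o') N hok hf hlb hk p p' hW e.2.2.1 e.2.1 e.1).2
        have := clo0 N hok hf hlb hk hV p p' hW hl
        rwa [e32] at this)
    refine e.trans (mul_le_mul_of_nonneg_left (Real.sqrt_le_sqrt ?_) ?_)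
    · refine prE_mono0 R.Q fun ω hb => Or.inl ?_
      rw [e32]
      exact hb
    · have : (0 : ℝ) ≤ Real.log (2 * m + 3) := Real.log_nonneg (by
        have : (0 : ℝ) ≤ m := Nat.cast_nonneg _
        linarith)
      positivity
  have e0 : hc R.Q (D.mtr k b) Y ≤ hc R.Q (fun ω => (D.nN k ω, (D.p1 k).cell 0 b ω)) Y :=
    hc_mono_left R.Q fun ω ω' _ _ e => by
      simp only [Prod.mk.injEq] at e
      exact (Mtd.p1_cell_iff D k 0 b ω ω').1 e.1.2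
  have e1 := hc_pair R.Q (D.nN k) ((D.p1 k).cell 0 b) Y
  have e2 : hc R.Q ((D.p1 k).cell 0 b) (fun ω => (D.nN k ω, Y ω)) ≤
      hc R.Q (fun ω => (fK ω, (D.p1 k).cell 0 b ω)) (fun ω => (D.nN k ω, Y ω)) :=
    hc_mono_left R.Q fun ω ω' _ _ e => by
      simp only [Prod.mk.injEq] at e
      exact e.1.2
  have e3 := hc_pair R.Q fK ((D.p1 k).cell 0 b) (fun ω => (D.nN k ω, Y ω))
  have e4 : hc R.Q ((D.p1 k).cell 0 b) (fun ω => (fK ω, D.nN k ω, Y ω)) ≤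
      hc R.Q (fun ω => (fU ω, (D.p1 k).cell 0 b ω)) (fun ω => (fK ω, D.nN k ω, Y ω)) :=
    hc_mono_left R.Q fun ω ω' _ _ e => by
      simp only [Prod.mk.injEq] at e
      exact e.1.2
  have e5 := hc_pair R.Q fU ((D.p1 k).cell 0 b) (fun ω => (fK ω, D.nN k ω, Y ω))
  push_cast at a1 a2 a3
  have e6 : cE K c = 12 + 13 * Real.log (2 * m + 3) := rfl
  rw [e6]
  have : (12 + 13 * Real.log (2 * m + 3)) * Real.sqrt (prE R.Q E) =
      (2 + Real.log (2 * m + 3)) * Real.sqrt (prE R.Q E) + (2 + Real.log (2 * m + 3)) * Real.sqrt (prE R.Q E) +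
      (2 + Real.log (2 * m + 3)) * Real.sqrt (prE R.Q E) +
      (6 + 10 * Real.log (2 * m + 3)) * Real.sqrt (prE R.Q E) := by ring
  rw [this]
  linarith

end mt0

/-! ### sums of the collisions of the direction -/

section sums

lemma prE_bad_le {τ' : Type} (Q : Law Ω) (C : Pth Ω τ') {x K' : ℝ} (h : x ≤ K') (i b : ℕ) :
    prE Q (C.Bad x i b) ≤ S3.exc Q C K' i b :=
  (prE_mono0 Q fun _ hb => Pth.Bad_mono h hb).trans (exc_bad Q C K' i b)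

/-- the event of the slope, deep phi regime -/
lemma prE_Bads {τ' : Type} (Q : Law Ω) (C : Pth Ω τ') {K1 K' : ℝ} (h : 24 * K1 ^ 3 ≤ K') {b : ℕ}
    (hR : C.R k b = C.rf k) : prE Q (H683.Bads C K1 k b) ≤ S3.exc Q C K' k b := by
  have e : prE Q (H683.Bads C K1 k b) ≤ prE Q (H300.BadR C K' k b) := by
    refine prE_mono0 Q fun ω hb => ?_
    unfold H300.BadR
    rw [hR]
    exact Nb_mono (mul_le_mul_of_nonneg_right h (q2_pos _).le) hb
  unfold S3.exc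
  have := prE_nn Q (C.Bad K' k b)
  have := prE_nn Q (H420.BadS C K' k b)
  linarith

lemma c24 (h1 : 1 ≤ K) : 24 * (32 * K) ^ 3 ≤ (100 * K) ^ 20 := by
  have e' : (100 * K) ^ 20 = 100 ^ 20 * K ^ 17 * K ^ 3 := by ring
  have e : 24 * (32 * K) ^ 3 = 786432 * K ^ 3 := by ring
  have e4 : (1 : ℝ) ≤ K ^ 17 := one_le_pow₀ h1
  rw [e, e']
  refine mul_le_mul_of_nonneg_right ?_ (by positivity)
  calc (786432 : ℝ) ≤ 100 ^ 20 * 1 := by norm_num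
    _ ≤ 100 ^ 20 * K ^ 17 := by gcongr

variable (N : NW R p K c B μ) (hok : R.Ok p K c' g' gU) (hf : S3.F2 R p K B bS bV F Vs Xs)
  (hlb : ∀ ω, 0 < R.Q.w ω → LbOk c R.L R.h (R.W ω) (R.ry ω) (R.t ω) ∧ (R.W ω).u2 = 1 ∧
      (R.W ω).u1 = (1 / 2 : ℝ) ^ R.q)

include N hok hf hlb

/-- **direction, kappa regime, summed** -/
theorem sum_cY_K {K' : ℝ} (hK : (100 * K) ^ 20 ≤ K') (S : S3.F2o R p B bS bV F Vs Xs μ K' o o') {ε : ℝ} {B' : ℕ}
    (cap : R.Cap p B' ε) {g : ℕ} (hg : R.m ≤ g) (I : Finset ℕ) (hI : I ⊆ S3.IdK R Vs Xs) :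
    ∑ k ∈ I, colp R.Q (fun ω => fl1 (R.m * R.b1 + g) (R.C.l ω).v) ((S3.mt R F μ o o').mtr k (R.m * R.b1)) ≤
      2 * ε * I.card + 6 * (K' ^ 2 * (R.n + p.J + 1) * q2 (μ / 4)) := by
  classical
  have s1 := sum_K (Ω := Ω) (c := c) N.K1 N.c1 N.c2 hK S
  have s2 : ∑ k ∈ I, prE R.Q (BadR R (S3.mt R F μ o o') K c k) ≤
      ∑ k ∈ S3.IdK R Vs Xs, prE R.Q (BadR R (S3.mt R F μ o o') K c k) :=
    Finset.sum_le_sum_of_subset_of_nonneg hI fun k _ _ => prE_nn _ _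
  have s3 : ∑ k ∈ I, colp R.Q (fun ω => fl1 (R.m * R.b1 + g) (R.C.l ω).v) ((S3.mt R F μ o o').mtr k (R.m * R.b1)) ≤
      ∑ k ∈ I, (2 * ε + 3 * prE R.Q (BadR R (S3.mt R F μ o o') K c k)) := by
    refine Finset.sum_le_sum fun k hk => ?_
    have h := Finset.mem_filter.1 (hI hk)
    have hk1 : k ≤ R.n := (Finset.mem_Icc.1 h.1).2
    have hk' : k ≤ R.n + p.J := hk1.trans (Nat.le_add_right _ _)
    exact colp_mtr (hr_mt N hok hf hk1 h.2.1) hok hlb (hf.pfW k hk') cap hg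
  rw [Finset.sum_add_distrib, Finset.sum_const, nsmul_eq_mul, ← Finset.mul_sum] at s3
  linarith

/-- **direction, deep phi regime, summed**; `u k` = a later step at which the slope can be read -/
theorem sum_cY_P {K' : ℝ} (hK : (100 * K) ^ 20 ≤ K') (S : S3.F2o R p B bS bV F Vs Xs μ K' o o') {ε : ℝ} {B' : ℕ}
    (cap : R.Cap p B' ε) {g : ℕ} (hg : R.m ≤ g) (I : Finset ℕ) (hI : I ⊆ S3.IdP R F B Vs Xs) (d : ℕ) (hd : d ≤ B)
    (u : ℕ → ℕ) (hu : ∀ k ∈ I, u k ∈ S3.At' R p B d k) (hA : ∀ k ∈ I, R.C.a (u k) ≤ p.A')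
    (hR : ∀ k ∈ I, H683.Reg ((S3.mt0 R F μ o o').fz k k) k (u k) (R.m * R.b1)) :
    ∑ k ∈ I, colp R.Q (fun ω => fl1 (R.m * R.b1 + g) (R.C.l ω).v)
      (Dp ((S3.mt0 R F μ o o').fz k k) k (R.m * R.b1)) ≤
      2 * ε * I.card + 9 * (K' ^ 2 * (d + 1) ^ 2 * (R.n + p.J + 1) * q2 (μ / 4)) := by
  classical
  set C : ℕ → Pth Ω _ := fun k => (S3.mt0 R F μ o o').fz k k with hC
  have hcst : 4 * N4.cst (32 * K) (6 * c ^ 2 * K) ≤ K' := (cst_le N.K1 N.c1 N.c2).trans hK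
  have h24 : 24 * (32 * K) ^ 3 ≤ K' := (c24 N.K1).trans hK
  have s1 := sum_P (Ω := Ω) (c := c) N.K1 N.c1 N.c2 hK S
  have s2 : ∑ k ∈ I, prE R.Q (Bad0 R F μ o o' K c k) ≤
      ∑ k ∈ S3.IdP R F B Vs Xs, prE R.Q (Bad0 R F μ o o' K c k) :=
    Finset.sum_le_sum_of_subset_of_nonneg hI fun k _ _ => prE_nn _ _
  have s4 := S.offP d hd
  have s5 : ∑ k ∈ I, (S3.exc R.Q (C k) K' k (R.m * R.b1) + S3.exc R.Q (C k) K' (u k) (R.m * R.b1)) ≤
      ∑ k ∈ S3.IdP R F B Vs Xs, (S3.exc R.Q (C k) K' k (R.m * R.b1) + S3.exc R.Q (C k) K' k bV +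
        ∑ i ∈ S3.At' R p B d k, S3.exc R.Q (C k) K' i (R.m * R.b1)) := by
    refine le_trans (Finset.sum_le_sum fun k hk => ?_) (Finset.sum_le_sum_of_subset_of_nonneg hI fun k _ _ => ?_)
    · have a1 := Finset.single_le_sum (f := fun i => S3.exc R.Q (C k) K' i (R.m * R.b1))
        (fun i _ => exc_nn R.Q (C k) K' i (R.m * R.b1)) (hu k hk)
      have a2 := exc_nn R.Q (C k) K' k bV
      linarith
    · have a1 : 0 ≤ ∑ i ∈ S3.At' R p B d k, S3.exc R.Q (C k) K' i (R.m * R.b1) :=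
        Finset.sum_nonneg fun i _ => exc_nn _ _ _ _ _
      have a2 := exc_nn R.Q (C k) K' k bV
      have a3 := exc_nn R.Q (C k) K' k (R.m * R.b1)
      linarith
  have s3 : ∑ k ∈ I, colp R.Q (fun ω => fl1 (R.m * R.b1 + g) (R.C.l ω).v) (Dp (C k) k (R.m * R.b1)) ≤
      ∑ k ∈ I, (2 * ε + 3 * (prE R.Q (Bad0 R F μ o o' K c k) +
        (S3.exc R.Q (C k) K' k (R.m * R.b1) + S3.exc R.Q (C k) K' (u k) (R.m * R.b1)))) := by
    refine Finset.sum_le_sum fun k hk => ?_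
    have h := Finset.mem_filter.1 (hI hk)
    have hk1 : k ≤ R.n := (Finset.mem_Icc.1 h.1).2
    have hat := (Finset.mem_filter.1 (hu k hk)).2
    have e := colp_Dp0 (o := o) (o' := o') N hok hf hlb hk1 h.2.1 le_rfl rfl hat.1.le hat.2.2.1 (hA k hk) (hR k hk)
      cap hg
    have x1 := prE_bad_le R.Q (C k) hcst (u k) (R.m * R.b1)
    have hRk : (C k).R k (R.m * R.b1) = (C k).rf k := by
      rw [Pth.R_eq]
      show min (F.rk0 (min (max k k) k) - μ / 2 + R.m * R.b1) (R.C.rf (max k k)) = R.C.rf (max k k)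
      simp only [max_self, min_self]
      refine min_eq_right ?_
      have h3 := h.2.2.2
      have := N.μB
      have : B ≤ R.m * B := Nat.le_mul_of_pos_left B hok.pth.m1
      omega
    have x2 := prE_Bads (k := k) R.Q (C k) h24 (b := R.m * R.b1) hRk
    show colp R.Q (fun ω => fl1 (R.m * R.b1 + g) (R.C.l ω).v) (Dp ((S3.mt0 R F μ o o').fz k k) k (R.m * R.b1)) ≤ _
    refine e.trans ?_
    linarith
  rw [Finset.sum_add_distrib, Finset.sum_const, nsmul_eq_mul, ← Finset.mul_sum, Finset.sum_add_distrib] at s3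
  have e1 : K' ^ 2 * (R.n + p.J + 1) * q2 (μ / 4) ≤ K' ^ 2 * (d + 1) ^ 2 * (R.n + p.J + 1) * q2 (μ / 4) := by
    have t1 : (1 : ℝ) ≤ ((d : ℝ) + 1) ^ 2 := one_le_pow₀ (by have : (0 : ℝ) ≤ d := Nat.cast_nonneg _; linarith)
    have t2 : 0 ≤ K' ^ 2 * (R.n + p.J + 1) * q2 (μ / 4) := by
      have := q2_pos (μ / 4)
      positivity
    nlinarith
  show ∑ k ∈ I, colp R.Q (fun ω => fl1 (R.m * R.b1 + g) (R.C.l ω).v) (Dp (C k) k (R.m * R.b1)) ≤ _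
  linarith

end sums

end Vale.Agent.P106.U.H364.MtrWF
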