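import Vale.Agent.P106.U.H364.MtrWF
import Vale.Agent.P106.U.H786.CollV
import Vale.Agent.P106.U.H958.EqAt

/-!
# P106 / U / H364 : the collisions of the direction, in 958's letters `DpM` (helper364)

* `colp_fz_DpM` : `Dp` of the frozen path and `DpM` have the same collisions.
* **`colp_DpM0`**, **`sum_cY_M`** : direction given `DpM (mt0 ..) k`, one step and summed over steps of `IdP`.
-/

set_option autoImplicit false

namespace Vale.Agent.P106.U.H364.MtrWM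

open Finset Vale.Agent.P127 Vale.Agent.P127.Stk Vale.Agent.P106.U Vale.Agent.P106.W
open Vale.Agent.P127.U.CellD (q2)
open Vale.Agent.P127.U.Mic (colp)
open Vale.Agent.P106.U.H785.Mtr
open Vale.Agent.P106.U.S3 (Run)
open Vale.Agent.P106.U.H683 (Dp)
open Vale.Agent.P106.U.H958
open Vale.Agent.P106.U.H364.MtrWR Vale.Agent.P106.U.H364.MtrWF

variable {Ω : Type} [Fintype Ω] {τ υ π : Type} {R : Run Ω τ υ} {p : Run.Num} {K c c' g' gU : ℝ}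
  {B bS bV μ : ℕ} {F : S3.Pf R π} {Vs Xs : Finset ℕ} {o : Fin 7 → ℝ} {o' : ℕ → ℝ} {j k i : ℕ}

theorem colp_fz_DpM (D : Mtd Ω π) (hjk : j ≤ k) (b : ℕ) {S : Type} (X : Ω → S) :
    colp R.Q X (Dp (D.fz j k) k b) = colp R.Q X (DpM D k b) := by
  rw [← (eqAt_mfz (D := D) hjk le_rfl).Dp]
  exact H786.CollV.colp_DpM X

variable (N : NW R p K c B μ) (hok : R.Ok p K c' g' gU) (hf : S3.F2 R p K B bS bV F Vs Xs)
  (hlb : ∀ ω, 0 < R.Q.w ω → LbOk c R.L R.h (R.W ω) (R.ry ω) (R.t ω) ∧ (R.W ω).u2 = 1 ∧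
      (R.W ω).u1 = (1 / 2 : ℝ) ^ R.q)

include N hok hf hlb

/-- **direction**, given `DpM` of `mt0` -/
theorem colp_DpM0 (hk : k ≤ R.n) (hV : S3.lv R k ∈ Vs) (hki : k ≤ i)
    (hi : i ≤ R.n + p.J) (hA : R.C.a i ≤ p.A') (hR : H683.Reg ((S3.mt0 R F μ o o').fz k k) k i (R.m * R.b1))
    {ε : ℝ} {B' : ℕ} (cap : R.Cap p B' ε) {g : ℕ} (hg : R.m ≤ g) :
    colp R.Q (fun ω => fl1 (R.m * R.b1 + g) (R.C.l ω).v) (DpM (S3.mt0 R F μ o o') k (R.m * R.b1)) ≤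
      2 * ε + 3 * (prE R.Q (Bad0 R F μ o o' K c k) +
        prE R.Q (((S3.mt0 R F μ o o').fz k k).Bad (4 * N4.cst (32 * K) (6 * c ^ 2 * K)) i (R.m * R.b1)) +
        prE R.Q (H683.Bads ((S3.mt0 R F μ o o').fz k k) (32 * K) k (R.m * R.b1))) := by
  rw [← colp_fz_DpM (R := R) (S3.mt0 R F μ o o') (le_refl k)]
  exact colp_Dp0 N hok hf hlb hk hV le_rfl rfl hki hi hA hR cap hg

/-- **summed over young steps, deep phi regime** -/
theorem sum_cY_M {K' : ℝ} (hK : (100 * K) ^ 20 ≤ K') (S : S3.F2o R p B bS bV F Vs Xs μ K' o o') {ε : ℝ} {B' : ℕ}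
    (cap : R.Cap p B' ε) {g : ℕ} (hg : R.m ≤ g) (I : Finset ℕ) (hI : I ⊆ S3.IdP R F B Vs Xs) (d : ℕ) (hd : d ≤ B)
    (u : ℕ → ℕ) (hu : ∀ k ∈ I, u k ∈ S3.At' R p B d k) (hA : ∀ k ∈ I, R.C.a (u k) ≤ p.A')
    (hR : ∀ k ∈ I, H683.Reg ((S3.mt0 R F μ o o').fz k k) k (u k) (R.m * R.b1)) :
    ∑ k ∈ I, colp R.Q (fun ω => fl1 (R.m * R.b1 + g) (R.C.l ω).v) (DpM (S3.mt0 R F μ o o') k (R.m * R.b1)) ≤
      2 * ε * I.card + 9 * (K' ^ 2 * (d + 1) ^ 2 * (R.n + p.J + 1) * q2 (μ / 4)) := by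
  refine le_trans (Finset.sum_le_sum fun k _ => ?_) (sum_cY_P N hok hf hlb hK S cap hg I hI d hd u hu hA hR)
  exact (colp_fz_DpM (R := R) (S3.mt0 R F μ o o') (le_refl k) _ _).ge

end Vale.Agent.P106.U.H364.MtrWM
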