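import Vale.Agent.P106.U.H364.MtrW
import Vale.Agent.P106.U.H785.MtrRun
import Vale.Agent.P106.U.H931.Base

/-!
# P106 / U / H364 : [MTR-W] over a run (helper364)

`R : S3.Run`, `D : Mtd` of the run (785's `OfR`), `hlb` = field `lb` of `NEx`, `b = m b1` = cap = base.

* `hw_run`, `cm_run` : 785's data against the end label; two points with the same `W'`.
* **`mtr_W'`** : outside `BadM` the cell `mtr i (m b1)` is a function of `W'` (and of the prefix); `hc_mtr_W'` : entropy form;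
  `colp_mtr` : activity of the direction given `mtr`.
* **`fz_W'`** : the cell of a later step of the frozen path `fz j k`; `Dp_fz` : with the digits of the slope (deep phi regime);
  `colp_fz`, `colp_Dp`.
* the instances `mt`, `mt0` and the sums: next file `MtrWF`.
-/

set_option autoImplicit false

namespace Vale.Agent.P106.U.H364.MtrWR

open Finset Vale.Agent.P127 Vale.Agent.P127.Stk Vale.Agent.P106.U
open Vale.Agent.P127.U.CellD (q2 rd Nb q2_pos q2_add q2_le q2_mul_pow fl1_fl1)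
open Vale.Agent.P127.U.Mic (colp)
open Vale.Agent.P106.U.Cell (Pth Ray Fu)
open Vale.Agent.P106.U.H785.Mtr
open Vale.Agent.P106.U.H364.N4 Vale.Agent.P106.U.H364.MtrW
open Vale.Agent.P106.U.S3 (Run)
open Vale.Agent.P106.U.H683 (Dp)
open Vale.Agent.P106.W

variable {Ω : Type} [Fintype Ω] {τ υ π : Type} {R : Run Ω τ υ} {D : Mtd Ω π} {p : Run.Num} {K c' g' gU : ℝ}
  {I : Set ℕ} {ω ω' : Ω} {i j k : ℕ}

/-- the label against the true numbers -/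
theorem hw_run (hD : OfR R D) (hok : R.Ok p K c' g' gU) (h1 : 1 ≤ K) (hr0 : 4 * K ^ 2 * q2 (R.C.rk 0) ≤ 1)
    (hi : i ≤ R.n + p.J) (hω : 0 < R.Q.w ω)
    (hal : |(R.FW ω).al - D.g i ω| * q2 p.A' ≤ 4 * K * q2 (D.rk i)) :
    HW D (4 * K) p.A' i (R.FW ω) (R.tW ω) ω := by
  have K0 : 0 < K := by linarith
  have hs : D.s i ω = R.C.s i ω := by
    unfold Mtd.s Pth.s
    rw [hD.a, hD.t]
  have q0 := q2_pos (R.C.rk 0)
  have ow := H931.okW hok h1 (i := 0) (Nat.zero_le _) (by nlinarith) hω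
  refine ⟨?_, ?_, ?_, ?_, ?_, hal, ?_⟩
  · rw [hD.un, hD.l]
  · rw [hD.κ, hD.al, hs]
    rfl
  · rw [hD.l, hD.p, hok.Cp ω hω, sub_self, abs_zero]
    have := q2_pos (D.rf i)
    positivity
  · have := ow.k1
    linarith
  · have := hok.alW ω hω
    linarith
  · rw [hs, hD.a]
    exact OfR.tW_near hok hi ω

/-- the curvature of the label and the number of the prefix -/
theorem hal_run (hok : R.Ok p K c' g' gU) (h1 : 1 ≤ K) (hi : i ≤ R.n) (hω : 0 < R.Q.w ω) (ha : R.C.a i ≤ p.A')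
    (hk : D.rk i ≤ R.C.rk i) (hg : |(R.C.F i ω).al - D.g i ω| * q2 (R.C.a i) ≤ 3 * K * q2 (D.rk i)) :
    |(R.FW ω).al - D.g i ω| * q2 p.A' ≤ 4 * K * q2 (D.rk i) := by
  have e1 : |(R.FW ω).al - (R.C.F i ω).al| * q2 p.A' ≤ K * q2 (R.C.rk i) := (hok.agW ω hω i hi).al
  have e2 := mul_le_mul_of_nonneg_left (q2_le hk) (by linarith : 0 ≤ K)
  have e3 : |(R.C.F i ω).al - D.g i ω| * q2 p.A' ≤ |(R.C.F i ω).al - D.g i ω| * q2 (R.C.a i) :=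
    mul_le_mul_of_nonneg_left (q2_le ha) (abs_nonneg _)
  have e4 : |(R.FW ω).al - D.g i ω| ≤ |(R.FW ω).al - (R.C.F i ω).al| + |(R.C.F i ω).al - D.g i ω| := by
    have := abs_add_le ((R.FW ω).al - (R.C.F i ω).al) ((R.C.F i ω).al - D.g i ω)
    rwa [sub_add_sub_cancel] at this
  have e5 := mul_le_mul_of_nonneg_right e4 (q2_pos p.A').le
  linarith

/-- what two points with the same `W'` have in common -/
theorem cm_run (hD : OfR R D) (hok : R.Ok p K c' g' gU) (h1 : 1 ≤ K) {c : ℝ} (hc : 1 ≤ c)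
    (hlb : ∀ ω, 0 < R.Q.w ω → LbOk c R.L R.h (R.W ω) (R.ry ω) (R.t ω) ∧ (R.W ω).u2 = 1 ∧
      (R.W ω).u1 = (1 / 2 : ℝ) ^ R.q) (hi : i ≤ R.n + p.J) (hω : 0 < R.Q.w ω) (hω' : 0 < R.Q.w ω')
    (e : R.W' ω = R.W' ω') (hpf : D.pf i ω = D.pf i ω') :
    Cm D (6 * c ^ 2 * K) i (R.m * R.b1) R.h R.q (R.FW ω) (R.tW ω) ω ω' := by
  have e0 := H931.F0_W' hok hω hω' e
  have et : fl1 R.h (R.t ω) = fl1 R.h (R.t ω') := congrArg (fun z => z.1.2) e0.1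
  have ha : R.C.a i ≤ R.h := (R.C.ha hi).trans hok.pth.rA
  refine ⟨?_, hpf, ?_, ?_⟩
  · rw [hD.a, hD.t, hok.Ct, hok.Ct]
    exact fl1_fl1 ha et
  · rw [hD.l]
    exact e0.2
  · rw [hD.l]
    exact H931.clW hok h1 hc hlb hω hω' e0.1

theorem FW_W' (hok : R.Ok p K c' g' gU) (hω : 0 < R.Q.w ω) (hω' : 0 < R.Q.w ω') (e : R.W' ω = R.W' ω') :
    R.FW ω = R.FW ω' ∧ R.tW ω = R.tW ω' := by
  have e0 := (H931.F0_W' hok hω hω' e).1
  have et : fl1 R.h (R.t ω) = fl1 R.h (R.t ω') := congrArg (fun z => z.1.2) e0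
  refine ⟨hok.FWf ω ω' hω hω' e0, ?_⟩
  show rd R.h (R.t ω) = rd R.h (R.t ω')
  unfold rd
  rw [et]

/-- **hypotheses for one step `i`** : the data of the run, the number of the prefix, levels -/
structure HR (R : Run Ω τ υ) (D : Mtd Ω π) (p : Run.Num) (K c : ℝ) (I : Set ℕ) (i : ℕ) : Prop where
  of : OfR R D
  K1 : 1 ≤ K
  c1 : 1 ≤ c
  r0 : 4 * K ^ 2 * q2 (R.C.rk 0) ≤ 1
  le : i ≤ R.n
  mem : i ∈ I
  hy : ∀ ω, 0 < R.Q.w ω → D.Hy (4 * K) I ω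
  rk : D.rk i ≤ R.C.rk i
  g : ∀ ω, 0 < R.Q.w ω → |(R.C.F i ω).al - D.g i ω| * q2 (R.C.a i) ≤ 3 * K * q2 (D.rk i)
  μb : 8 * D.μ ≤ R.m * R.b1
  μR : 8 * D.μ ≤ D.R i (R.m * R.b1)
  a : R.C.a i ≤ p.A'
  A : p.A' + 2 * (R.m * R.b1) ≤ R.h
  q : D.R i (R.m * R.b1) + R.m * R.b1 ≤ R.q
  b : (32 * K) ^ 2 * (6 * c ^ 2 * K) * q2 (2 * (R.m * R.b1)) ≤ 1

variable {c : ℝ}

lemma HR.nm (H : HR R D p K c I i) : Nm D (4 * K) (6 * c ^ 2 * K) p.A' i (R.m * R.b1) R.h R.q where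
  K1 := by linarith [H.K1]
  M1 := by
    have h1 := H.K1
    have h2 := H.c1
    have h3 : 1 ≤ c ^ 2 := one_le_pow₀ h2
    nlinarith
  μb := H.μb
  μR := H.μR
  ha := by rw [H.of.a]; exact H.a
  hA := H.A
  hq := H.q
  hb := by
    have e : 8 * (4 * K) = 32 * K := by ring
    rw [e]
    exact H.b

lemma HR.hw (H : HR R D p K c I i) (hok : R.Ok p K c' g' gU) (hω : 0 < R.Q.w ω) :
    HW D (4 * K) p.A' i (R.FW ω) (R.tW ω) ω :=
  hw_run H.of hok H.K1 H.r0 (H.le.trans (Nat.le_add_right _ _)) hω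
    (hal_run hok H.K1 H.le hω H.a H.rk (H.g ω hω))

lemma HR.hw' (H : HR R D p K c I i) (hok : R.Ok p K c' g' gU) (hω : 0 < R.Q.w ω) (hω' : 0 < R.Q.w ω')
    (e : R.W' ω = R.W' ω') : HW D (4 * K) p.A' i (R.FW ω) (R.tW ω) ω' := by
  have h := H.hw hok hω'
  have e0 := FW_W' hok hω hω' e
  rwa [← e0.1, ← e0.2] at h

/-- the exceptional event at the base -/
def BadR (R : Run Ω τ υ) (D : Mtd Ω π) (K c : ℝ) (i : ℕ) (ω : Ω) : Prop :=
  BadM D (4 * K) (6 * c ^ 2 * K) i (R.m * R.b1) ω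

/-- **the letter of the true digits is a function of `W'`** -/
theorem lt_W' (H : HR R D p K c I i) (hok : R.Ok p K c' g' gU)
    (hlb : ∀ ω, 0 < R.Q.w ω → LbOk c R.L R.h (R.W ω) (R.ry ω) (R.t ω) ∧ (R.W ω).u2 = 1 ∧
      (R.W ω).u1 = (1 / 2 : ℝ) ^ R.q) (hω : 0 < R.Q.w ω) (hω' : 0 < R.Q.w ω')
    (e : R.W' ω = R.W' ω') (hpf : D.pf i ω = D.pf i ω') (hB : ¬ BadR R D K c i ω) : D.lt i ω = D.lt i ω' :=
  lt_of_W H.nm (H.hy ω hω) (H.hy ω' hω') H.mem (H.hw hok hω) (H.hw' hok hω hω' e)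
    (cm_run H.of hok H.K1 H.c1 hlb (H.le.trans (Nat.le_add_right _ _)) hω hω' e hpf) hB

/-- **[MTR-W]** : the cell `mtr` of the base is a function of `W'` -/
theorem mtr_W' (H : HR R D p K c I i) (hok : R.Ok p K c' g' gU)
    (hlb : ∀ ω, 0 < R.Q.w ω → LbOk c R.L R.h (R.W ω) (R.ry ω) (R.t ω) ∧ (R.W ω).u2 = 1 ∧
      (R.W ω).u1 = (1 / 2 : ℝ) ^ R.q) (hω : 0 < R.Q.w ω) (hω' : 0 < R.Q.w ω')
    (e : R.W' ω = R.W' ω') (hpf : D.pf i ω = D.pf i ω') (hB : ¬ BadR R D K c i ω) :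
    D.mtr i (R.m * R.b1) ω = D.mtr i (R.m * R.b1) ω' :=
  mtr_of_W H.nm (H.hy ω hω) (H.hy ω' hω') H.mem (H.hw hok hω) (H.hw' hok hω hω' e)
    (cm_run H.of hok H.K1 H.c1 hlb (H.le.trans (Nat.le_add_right _ _)) hω hω' e hpf) hB

/-- the constant of the entropy form -/
noncomputable def cE (K c : ℝ) : ℝ := 12 + 13 * Real.log (2 * ⌈3 * cst (32 * K) (6 * c ^ 2 * K)⌉₊ + 3)

/-- **entropy form**; `Y` determines `W'` and the prefix -/
theorem hc_mtr_Y {T : Type*} (Y : Ω → T) (H : HR R D p K c I i) (hok : R.Ok p K c' g' gU)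
    (hlb : ∀ ω, 0 < R.Q.w ω → LbOk c R.L R.h (R.W ω) (R.ry ω) (R.t ω) ∧ (R.W ω).u2 = 1 ∧
      (R.W ω).u1 = (1 / 2 : ℝ) ^ R.q) (hY : Fn R.Q R.W' Y) (hpf : Fn R.Q (D.pf i) Y) :
    hc R.Q (D.mtr i (R.m * R.b1)) Y ≤ cE K c * Real.sqrt (prE R.Q (BadR R D K c i)) := by
  have e32 : 8 * (4 * K) = 32 * K := by ring
  have h := hc_mtr R.Q Y (F := R.FW) (s := R.tW) H.nm H.mem H.hy (fun ω hω => H.hw hok hω)
    (fun ω ω' p p' e => (FW_W' hok p p' (hY ω ω' p p' e)).1)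
    (fun ω ω' p p' e => (FW_W' hok p p' (hY ω ω' p p' e)).2)
    (fun ω ω' p p' e => cm_run H.of hok H.K1 H.c1 hlb (H.le.trans (Nat.le_add_right _ _)) p p'
      (hY ω ω' p p' e) (hpf ω ω' p p' e))
  rw [e32] at h
  exact h

theorem hc_mtr_W' (H : HR R D p K c I i) (hok : R.Ok p K c' g' gU)
    (hlb : ∀ ω, 0 < R.Q.w ω → LbOk c R.L R.h (R.W ω) (R.ry ω) (R.t ω) ∧ (R.W ω).u2 = 1 ∧
      (R.W ω).u1 = (1 / 2 : ℝ) ^ R.q) (hpf : Fn R.Q (D.pf i) R.W') :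
    hc R.Q (D.mtr i (R.m * R.b1)) R.W' ≤ cE K c * Real.sqrt (prE R.Q (BadR R D K c i)) :=
  hc_mtr_Y R.W' H hok hlb (fun _ _ _ _ e => e) hpf

/-- **direction**, given `mtr` -/
theorem colp_mtr (H : HR R D p K c I i) (hok : R.Ok p K c' g' gU)
    (hlb : ∀ ω, 0 < R.Q.w ω → LbOk c R.L R.h (R.W ω) (R.ry ω) (R.t ω) ∧ (R.W ω).u2 = 1 ∧
      (R.W ω).u1 = (1 / 2 : ℝ) ^ R.q) (hpf : Fn R.Q (D.pf i) R.W') {B : ℕ} {ε : ℝ} (cap : R.Cap p B ε) {g : ℕ}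
    (hg : R.m ≤ g) : colp R.Q (fun ω => fl1 (R.m * R.b1 + g) (R.C.l ω).v) (D.mtr i (R.m * R.b1)) ≤
      2 * ε + 3 * prE R.Q (BadR R D K c i) := by
  have h1 := H931.colp_v hg (D.mtr i (R.m * R.b1)) (BadR R D K c i)
    fun ω ω' a b n e => mtr_W' H hok hlb a b e (hpf ω ω' a b e) n
  have h2 := cap.act
  linarith

/-! ### the frozen path -/

/-- levels of the later step `i` of the frozen path of the step `k` -/
structure HF (R : Run Ω τ υ) (D : Mtd Ω π) (p : Run.Num) (K c : ℝ) (I : Set ℕ) (j k i : ℕ) : Prop where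
  hr : HR R D p K c I k
  jk : j ≤ k
  aj : D.a j = D.a k
  ki : k ≤ i
  le : i ≤ R.n + p.J
  μb : 8 * D.μ ≤ R.m * R.b1
  μR : 8 * D.μ ≤ (D.fz j k).R i (R.m * R.b1)
  a : R.C.a i ≤ p.A'
  q : (D.fz j k).R i (R.m * R.b1) + R.m * R.b1 ≤ R.q

/-- the label and the frozen path -/
theorem HF.okW (H : HF R D p K c I j k i) (hok : R.Ok p K c' g' gU) (hω : 0 < R.Q.w ω)
    (hw : HW D (4 * K) p.A' k (R.FW ω) (R.tW ω) ω) :
    OkW (D.fz j k) (32 * K) p.A' i (R.FW ω) (R.tW ω) ω := by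
  have K0 : 0 < K := by linarith [H.hr.K1]
  have o := hw.okW (I := I) (by linarith [H.hr.K1]) (H.hr.hy ω hω) H.hr.mem
  rw [show 8 * (4 * K) = 32 * K by ring] at o
  have hr : (D.fz j k).rk i = D.rr k := D.fz_rk (H.jk.trans H.ki) H.ki
  have hs : (D.fz j k).s i ω = R.C.s i ω := by
    rw [D.fz_s (H.jk.trans H.ki)]
    unfold Mtd.s Pth.s
    rw [H.hr.of.a, H.hr.of.t]
  have ha : (D.fz j k).a i = R.C.a i := by
    rw [D.fz_a' (H.jk.trans H.ki), H.hr.of.a]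
  refine ⟨o.n1, o.n2, o.k1, o.a1, ?_, ⟨?_, ?_, ?_⟩, ?_⟩
  · show |(R.FW ω).cV (D.l ω) (R.tW ω) - D.p ω * (R.FW ω).cN (D.l ω) (R.tW ω)| ≤ _
    rw [H.hr.of.l, H.hr.of.p, hok.Cp ω hω, sub_self, abs_zero]
    have := q2_pos ((D.fz j k).rf i)
    positivity
  · have e := o.ag.cN
    have s1 := Fu.cN_sh ((D.fz j k).F i ω) ((D.fz j k).l ω) ((D.fz j k).s i ω)
      (R.tW ω - (D.fz j k).s i ω)
    rw [add_sub_cancel] at s1
    have s2 := Fu.cN_sh ((D.p1 k).F 0 ω) ((D.p1 k).l ω) ((D.p1 k).s 0 ω) (R.tW ω - (D.p1 k).s 0 ω)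
    rw [add_sub_cancel] at s2
    rw [s2] at e
    rw [s1, hr, Mtd.fz_cN]
    exact e
  · have e := o.ag.ka
    rw [hr]
    have e2 : (((D.fz j k).F i ω).sh (R.tW ω - (D.fz j k).s i ω)).ka =
        (((D.p1 k).F 0 ω).sh (R.tW ω - (D.p1 k).s 0 ω)).ka := by
      show (D.kaL k (D.lt k ω) - ((D.fz j k).s i ω - D.s k ω) * D.g k ω) -
        (R.tW ω - (D.fz j k).s i ω) * D.g k ω =
        D.kaL k (D.lt k ω) - (R.tW ω - D.s k ω) * D.g k ω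
      ring
    rw [e2]
    exact e
  · rw [hr]
    exact o.ag.al
  · rw [hs, ha]
    exact OfR.tW_near hok H.le ω

/-- the letter of the frozen path -/
lemma HF.T_eq (H : HF R D p K c I j k i) (hl : D.lt k ω = D.lt k ω')
    (ht : fl1 (D.a i) (D.t ω) = fl1 (D.a i) (D.t ω')) : (D.fz j k).T i ω = (D.fz j k).T i ω' := by
  refine Prod.ext hl ?_
  show fl1 (D.a (max i j)) (D.t ω) = fl1 (D.a (max i j)) (D.t ω')
  rw [max_eq_left (H.jk.trans H.ki)]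
  exact ht

/-- close cells of the frozen path -/
theorem fz_clo (H : HF R D p K c I j k i) (hok : R.Ok p K c' g' gU)
    (hlb : ∀ ω, 0 < R.Q.w ω → LbOk c R.L R.h (R.W ω) (R.ry ω) (R.t ω) ∧ (R.W ω).u2 = 1 ∧
      (R.W ω).u1 = (1 / 2 : ℝ) ^ R.q) (hω : 0 < R.Q.w ω) (hω' : 0 < R.Q.w ω')
    (e : R.W' ω = R.W' ω') (hl : D.lt k ω = D.lt k ω') :
    (D.fz j k).Clo i (R.m * R.b1) (cst (32 * K) (6 * c ^ 2 * K)) ω ω' := by
  have K1 := H.hr.K1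
  have hpf : D.pf k ω = D.pf k ω' := congrArg (fun z => z.2.1) hl
  have cm := cm_run H.hr.of hok K1 H.hr.c1 hlb (i := k) (H.hr.le.trans (Nat.le_add_right _ _)) hω hω' e hpf
  have e0 := H931.F0_W' hok hω hω' e
  have et : fl1 R.h (R.t ω) = fl1 R.h (R.t ω') := congrArg (fun z => z.1.2) e0.1
  have ha : R.C.a i ≤ R.h := (R.C.ha H.le).trans hok.pth.rA
  have ht : fl1 (D.a i) (D.t ω) = fl1 (D.a i) (D.t ω') := by
    rw [H.hr.of.a, H.hr.of.t, hok.Ct, hok.Ct]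
    exact fl1_fl1 ha et
  have ok1 : (D.fz j k).Ok (32 * K) ω := by
    have := Mtd.fz_ok (by linarith) (H.hr.hy ω hω) H.hr.mem H.aj
    rwa [show 8 * (4 * K) = 32 * K by ring] at this
  have ok2 : (D.fz j k).Ok (32 * K) ω' := by
    have := Mtd.fz_ok (by linarith) (H.hr.hy ω' hω') H.hr.mem H.aj
    rwa [show 8 * (4 * K) = 32 * K by ring] at this
  have w1 := H.okW hok hω (H.hr.hw hok hω)
  have w2 := H.okW hok hω' (H.hr.hw hok hω')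
  have e1 := FW_W' hok hω hω' e
  rw [← e1.1, ← e1.2] at w2
  have hA : (D.fz j k).a i ≤ p.A' := by
    rw [D.fz_a' (H.jk.trans H.ki), H.hr.of.a]
    exact H.a
  exact clo_of_W (by linarith) H.hr.nm.M1 ok1 ok2 w1 w2 (H.T_eq hl ht) cm.v hA H.hr.A H.q H.hr.b cm.cl

/-- **the cells of the frozen path are functions of `W'`** -/
theorem fz_W' (H : HF R D p K c I j k i) (hok : R.Ok p K c' g' gU)
    (hlb : ∀ ω, 0 < R.Q.w ω → LbOk c R.L R.h (R.W ω) (R.ry ω) (R.t ω) ∧ (R.W ω).u2 = 1 ∧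
      (R.W ω).u1 = (1 / 2 : ℝ) ^ R.q) (hω : 0 < R.Q.w ω) (hω' : 0 < R.Q.w ω')
    (e : R.W' ω = R.W' ω') (hpf : D.pf k ω = D.pf k ω') (hB : ¬ BadR R D K c k ω)
    (hB2 : ¬ (D.fz j k).Bad (4 * cst (32 * K) (6 * c ^ 2 * K)) i (R.m * R.b1) ω) :
    (D.fz j k).cell i (R.m * R.b1) ω = (D.fz j k).cell i (R.m * R.b1) ω' :=
  (fz_clo H hok hlb hω hω' e (lt_W' H.hr hok hlb hω hω' e hpf hB)).cell ⟨H.μb, H.μR⟩
    (one_le_cst (by linarith [H.hr.K1]) H.hr.nm.M1) hB2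

/-- **with the digits of the slope**, deep phi regime -/
theorem Dp_W' (H : HF R D p K c I j k i) (hok : R.Ok p K c' g' gU)
    (hlb : ∀ ω, 0 < R.Q.w ω → LbOk c R.L R.h (R.W ω) (R.ry ω) (R.t ω) ∧ (R.W ω).u2 = 1 ∧
      (R.W ω).u1 = (1 / 2 : ℝ) ^ R.q) (hR : H683.Reg (D.fz j k) k i (R.m * R.b1))
    (hω : 0 < R.Q.w ω) (hω' : 0 < R.Q.w ω') (e : R.W' ω = R.W' ω') (hpf : D.pf k ω = D.pf k ω')
    (hB : ¬ BadR R D K c k ω)
    (hB2 : ¬ (D.fz j k).Bad (4 * cst (32 * K) (6 * c ^ 2 * K)) i (R.m * R.b1) ω)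
    (hS : ¬ H683.Bads (D.fz j k) (32 * K) k (R.m * R.b1) ω) :
    Dp (D.fz j k) k (R.m * R.b1) ω = Dp (D.fz j k) k (R.m * R.b1) ω' := by
  have K1 := H.hr.K1
  have ok : ∀ x, 0 < R.Q.w x → (D.fz j k).Ok (32 * K) x := fun x hx => by
    have := Mtd.fz_ok (by linarith) (H.hr.hy x hx) H.hr.mem H.aj
    rwa [show 8 * (4 * K) = 32 * K by ring] at this
  have e1 : (D.fz j k).cell k (R.m * R.b1) ω = (D.fz j k).cell k (R.m * R.b1) ω' := by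
    rw [D.fz_cell_iff H.jk]
    exact mtr_W' H.hr hok hlb hω hω' e hpf hB
  exact H683.Dp_of_late hR (ok ω hω) (ok ω' hω') e1 (fz_W' H hok hlb hω hω' e hpf hB hB2) hS

/-- **direction**, given the cell of the frozen path -/
theorem colp_fz (hjk : j ≤ k) (H : HR R D p K c I k) (hok : R.Ok p K c' g' gU)
    (hlb : ∀ ω, 0 < R.Q.w ω → LbOk c R.L R.h (R.W ω) (R.ry ω) (R.t ω) ∧ (R.W ω).u2 = 1 ∧
      (R.W ω).u1 = (1 / 2 : ℝ) ^ R.q) (hpf : Fn R.Q (D.pf k) R.W') {B : ℕ} {ε : ℝ} (cap : R.Cap p B ε) {g : ℕ}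
    (hg : R.m ≤ g) : colp R.Q (fun ω => fl1 (R.m * R.b1 + g) (R.C.l ω).v) ((D.fz j k).cell k (R.m * R.b1)) ≤
      2 * ε + 3 * prE R.Q (BadR R D K c k) := by
  have h1 := H931.colp_v hg ((D.fz j k).cell k (R.m * R.b1)) (BadR R D K c k)
    fun ω ω' a b n e => by
      rw [D.fz_cell_iff hjk]
      exact mtr_W' H hok hlb a b e (hpf ω ω' a b e) n
  have h2 := cap.act
  linarith

lemma prE_or3 (Q : Law Ω) (E1 E2 E3 : Ω → Prop) :
    prE Q (fun ω => E1 ω ∨ (E2 ω ∨ E3 ω)) ≤ prE Q E1 + prE Q E2 + prE Q E3 := by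
  classical
  rw [← H300.ex_ind_eq, ← H300.ex_ind_eq, ← H300.ex_ind_eq, ← H300.ex_ind_eq, ← Q.ex_add, ← Q.ex_add]
  refine Q.ex_mono fun ω _ => ?_
  have n1 := H683.lind_nonneg (E1 ω)
  have n2 := H683.lind_nonneg (E2 ω)
  have n3 := H683.lind_nonneg (E3 ω)
  by_cases h : E1 ω ∨ (E2 ω ∨ E3 ω)
  · rw [Law.ind_of h]
    rcases h with h | h | h
    · rw [Law.ind_of h]; linarith
    · rw [Law.ind_of h]; linarith
    · rw [Law.ind_of h]; linarith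
  · rw [Law.ind_not h]
    linarith

/-- **direction**, given the cell and the digits of the slope, deep phi regime -/
theorem colp_Dp (H : HF R D p K c I j k i) (hok : R.Ok p K c' g' gU)
    (hlb : ∀ ω, 0 < R.Q.w ω → LbOk c R.L R.h (R.W ω) (R.ry ω) (R.t ω) ∧ (R.W ω).u2 = 1 ∧
      (R.W ω).u1 = (1 / 2 : ℝ) ^ R.q) (hR : H683.Reg (D.fz j k) k i (R.m * R.b1)) (hpf : Fn R.Q (D.pf k) R.W')
    {B : ℕ} {ε : ℝ} (cap : R.Cap p B ε) {g : ℕ} (hg : R.m ≤ g) :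
    colp R.Q (fun ω => fl1 (R.m * R.b1 + g) (R.C.l ω).v) (Dp (D.fz j k) k (R.m * R.b1)) ≤
      2 * ε + 3 * (prE R.Q (BadR R D K c k) +
        prE R.Q ((D.fz j k).Bad (4 * cst (32 * K) (6 * c ^ 2 * K)) i (R.m * R.b1)) +
        prE R.Q (H683.Bads (D.fz j k) (32 * K) k (R.m * R.b1))) := by
  have h1 := H931.colp_v hg (Dp (D.fz j k) k (R.m * R.b1)) (fun ω => BadR R D K c k ω ∨
    ((D.fz j k).Bad (4 * cst (32 * K) (6 * c ^ 2 * K)) i (R.m * R.b1) ω ∨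
      H683.Bads (D.fz j k) (32 * K) k (R.m * R.b1) ω))
    fun ω ω' a b n e => by
      push Not at n
      exact Dp_W' H hok hlb hR a b e (hpf ω ω' a b e) n.1 n.2.1 n.2.2
  have h2 := cap.act
  have h3 := prE_or3 R.Q (BadR R D K c k) ((D.fz j k).Bad (4 * cst (32 * K) (6 * c ^ 2 * K)) i (R.m * R.b1))
    (H683.Bads (D.fz j k) (32 * K) k (R.m * R.b1))
  linarith

end Vale.Agent.P106.U.H364.MtrWR
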