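import Vale.Agent.P106.U.H364.MtrWF
import Vale.Agent.P106.U.S5.Run
import Vale.Agent.P106.U.H652.Ev3

/-!
# P106 / U / H364 : the numbers `NW` of [MTR-W] from the record (helper364)

* `NwNum σ ρ c m B h` : `1 ≤ c ≤ 100`, `(100 K)^20 ≤ B`, `m ≤ 2 δ1 h`; `ev_NwNum`.
* `nw_rec` : `NW R p ρ.K c B μ` from `RunOk`; `lb_rec` : the field `lb` of `NEx` in terms of the record.
* `room_q` : `QK + m + 2 m b1 ≤ q`.
-/

set_option autoImplicit false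

namespace Vale.Agent.P106.U.H364.NwRec

open Vale.Agent.P127 Vale.Agent.P127.Stk Vale.Agent.P127.U Vale.Agent.P106.W Vale.Agent.P106.K Vale.Agent.P106.U
open Vale.Agent.P106.U.S5 Vale.Agent.P106.U.H652 Vale.Agent.P106.U.H364.MtrWF

/-- numbers -/
structure NwNum (σ : Cst) (ρ : Thr) (m B h : ℕ) : Prop where
  B : (100 * ρ.K) ^ 20 ≤ (B : ℝ)
  h : (m : ℝ) ≤ 2 * σ.δ1 * h

theorem ev_NwNum (σ : Cst) (hσ : σ.Ok) (ρ : Thr) : Ev3 (NwNum σ ρ) := by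
  have a1 : Ev3 fun _ B _ => (100 * ρ.K) ^ 20 ≤ (B : ℝ) := by
    refine Ev3.of_B' fun _ => ?_
    obtain ⟨n, hn⟩ := exists_nat_ge ((100 * ρ.K) ^ 20)
    exact (ev_nat n).mono fun B hB => hn.trans (by exact_mod_cast hB)
  have a2 : Ev3 fun m _ h => (m : ℝ) ≤ 2 * σ.δ1 * h := by
    refine Ev3.of_h fun m _ => ?_
    obtain ⟨n, hn⟩ := exists_nat_ge ((m : ℝ) / (2 * σ.δ1))
    refine (ev_nat n).mono fun h hh => ?_
    have d := hσ.δ0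
    have e : (m : ℝ) / (2 * σ.δ1) ≤ h := hn.trans (by exact_mod_cast hh)
    rw [div_le_iff₀ (by positivity)] at e
    linarith
  exact Ev3.mono2 a1 a2 fun _ _ _ x y => ⟨x, y⟩

section rec

variable {σ : Cst} {ε : ℝ} {ρ : Thr} {m B : ℕ} {Ω : Type} [Fintype Ω] {Q : Law Ω} {l : Ω → Ry} {t : Ω → ℝ}
  {L h q r0 Rn : ℕ} {W : Ω → Cbx} {τ υ : Type} {R : S3.Run Ω τ υ} {p : S3.Run.Num} {g' gU e κ₀ : ℝ} {a1 r1 : ℕ} {μ : ℕ}

/-- room above the last precision -/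
theorem room_q (hσ : σ.Ok) (H : RunOk σ ε ρ m B Q l t L h q r0 Rn W R p g' gU e κ₀ a1 r1)
    (hh : (m : ℝ) ≤ 2 * σ.δ1 * h) : p.QK + R.m + 2 * (R.m * R.b1) ≤ R.q := by
  have h1 := H.QK1
  have h2 := H.B1
  have h3 := H.cap.top
  have C1 : 1 ≤ σ.C1 := by
    have := hσ.bs.lam0
    unfold Bs.C1
    have : 0 ≤ 1000 / σ.lam := by positivity
    linarith
  have d0 := hσ.δ0
  have h4 : R.m * R.b1 ≤ p.B₁ := (Nat.mul_le_mul_left _ (Nat.le_add_right _ _)).trans h3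
  have h5 : ((R.m * R.b1 : ℕ) : ℝ) ≤ p.B₁ := by exact_mod_cast h4
  have h6 : (0 : ℝ) ≤ h := Nat.cast_nonneg _
  have h7 : σ.δ1 * h ≤ σ.C1 * σ.δ1 * h := by nlinarith [mul_nonneg d0.le h6]
  have h8 : ((p.QK + R.m + 2 * (R.m * R.b1) : ℕ) : ℝ) ≤ (R.q : ℝ) := by
    push_cast at h5 ⊢
    rw [H.hm] at h5 ⊢
    rw [H.hq]
    linarith
  exact_mod_cast h8

/-- **the numbers of [MTR-W] from the record** -/
theorem nw_rec (hσ : σ.Ok) (hρ : ρ.Ok) (H : RunOk σ ε ρ m B Q l t L h q r0 Rn W R p g' gU e κ₀ a1 r1)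
    {c : ℝ} (hc1 : 1 ≤ c) (hc2 : c ≤ 100) (N : NwNum σ ρ m B h) (hμ : μ ≤ B) : NW R p ρ.K c B μ where
  K1 := hρ.K1
  c1 := hc1
  c2 := hc2
  hB := N.B
  hr := by
    rw [H.hm, H.hr0]
    exact H.rm
  μB := hμ
  μC := by
    rw [H.hμ]
    have m1 := H.ok.pth.m1
    rw [H.hm] at m1
    exact hμ.trans (Nat.le_mul_of_pos_left B m1)
  low := H.cap.low.le
  room := by
    have := H.cap.room
    have e : R.m * (R.b1 + B) = R.m * R.b1 + R.m * B := Nat.mul_add _ _ _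
    omega
  aA := H.aA
  qK := room_q hσ H N.h

/-- the field `lb` in terms of the record -/
theorem lb_rec {lam Nn k β ε' c : ℝ} (H : RunOk σ ε ρ m B Q l t L h q r0 Rn W R p g' gU e κ₀ a1 r1)
    (X : NEx c lam Nn k β ε' Q l t (fun _ => ()) L h q W) :
    ∀ ω, 0 < R.Q.w ω → LbOk c R.L R.h (R.W ω) (R.ry ω) (R.t ω) ∧ (R.W ω).u2 = 1 ∧
      (R.W ω).u1 = (1 / 2 : ℝ) ^ R.q := by
  rw [H.hQ, H.hL, H.hh, H.hW, H.hry, H.ht, H.hq]
  exact X.lb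

end rec

end Vale.Agent.P106.U.H364.NwRec
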