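import Vale.Agent.P106.U.H611.Props2

/-!
# P106 / U / H364 : entropy of the word given the velocity (block [WCR] of H611/Props2)

`pWcr (d) : PWcr d` : given `Q` and `w j`, `w (j + 1)` is a function of the code; there are at most
`(d + 1) 2^(d (m + 2))` codes.
-/

set_option autoImplicit false

namespace Vale.Agent.P106.U.EndA

open Finset Vale.Agent.P127 Vale.Agent.P127.Stk Vale.Agent.P127.U.CellD Vale.Agent.P127.U.Mic

/-- the admissible codes -/
noncomputable def codes (d m : ℕ) : Finset (Cd d) :=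
  insert none (((univ : Finset (Fin d)) ×ˢ
    Fintype.piFinset fun _ : Fin d => Icc (-(2 : ℤ) ^ m) (2 ^ m)).image some)

theorem mem_codes {d m : ℕ} {c : Cd d} (h : ∀ k q, c = some (k, q) → okc m q) : c ∈ codes d m := by
  unfold codes
  rcases c with _ | ⟨k, q⟩
  · exact mem_insert_self _ _
  · refine mem_insert_of_mem (mem_image.2 ⟨(k, q), ?_, rfl⟩)
    rw [mem_product]
    refine ⟨mem_univ _, ?_⟩
    rw [Fintype.mem_piFinset]
    intro l
    have := abs_le.1 (h k q rfl l)
    exact mem_Icc.2 this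

theorem card_codes (d m : ℕ) : (codes d m).card ≤ (d + 1) * (2 ^ (m + 2)) ^ d := by
  have h1 : (codes d m).card ≤ d * (2 * 2 ^ m + 1) ^ d + 1 := by
    unfold codes
    refine (card_insert_le _ _).trans ?_
    refine Nat.add_le_add_right (card_image_le.trans ?_) 1
    rw [card_product, card_univ, Fintype.card_fin, Fintype.card_piFinset]
    simp only [Int.card_Icc, prod_const, card_univ, Fintype.card_fin]
    refine Nat.mul_le_mul_left d (Nat.pow_le_pow_left ?_ d)
    have : (2 : ℤ) ^ m = ((2 ^ m : ℕ) : ℤ) := by push_cast; rfl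
    rw [this]
    omega
  refine h1.trans ?_
  have h2 : 2 * 2 ^ m + 1 ≤ 2 ^ (m + 2) := by
    have : 1 ≤ 2 ^ m := Nat.one_le_two_pow
    rw [pow_add]
    omega
  have h3 : (2 * 2 ^ m + 1) ^ d ≤ (2 ^ (m + 2)) ^ d := Nat.pow_le_pow_left h2 d
  have h4 : 1 ≤ (2 ^ (m + 2)) ^ d := Nat.one_le_pow _ _ (by positivity)
  calc d * (2 * 2 ^ m + 1) ^ d + 1 ≤ d * (2 ^ (m + 2)) ^ d + (2 ^ (m + 2)) ^ d :=
        Nat.add_le_add (Nat.mul_le_mul_left d h3) h4
    _ = (d + 1) * (2 ^ (m + 2)) ^ d := by ring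

theorem hc_step_code {Ω : Type} [Fintype Ω] {d : ℕ} (P : Law Ω) (Q : Ω → Fin d → ℝ)
    (m p : ℕ) (w : ℕ → Ω → Sta d) (hw : IsWd m p Q w) (j : ℕ) :
    hc P (w (j + 1)) (fun ω => (w j ω, Q ω)) ≤ Real.log (d + 1) + d * (m + 2) * Real.log 2 := by
  classical
  have h := hc_le_log P (w (j + 1)) (fun ω => (w j ω, Q ω)) ((d + 1) * (2 ^ (m + 2)) ^ d) ?_
  · refine h.trans (le_of_eq ?_)
    push_cast
    rw [Real.log_mul (by positivity) (by positivity), Real.log_pow, Real.log_pow]
    push_cast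
    ring
  · intro ω _
    refine ⟨(codes d m).image fun c => (c, dg (upd m p (fr m p (w j ω)) c) (Q ω)) :: w j ω,
      card_image_le.trans (card_codes d m), fun ω' _ e => ?_⟩
    obtain ⟨c, hc1, hc2⟩ := hw.succ j ω'
    have e1 : w j ω' = w j ω := congrArg Prod.fst e
    have e2 : Q ω' = Q ω := congrArg Prod.snd e
    rw [e1, e2] at hc2
    rw [hc2]
    exact mem_image.2 ⟨c, mem_codes hc1, rfl⟩

/-- **[WCR]** -/
theorem pWcr (d : ℕ) : PWcr d := by
  intro Ω _ P Q m p w hw j
  induction j with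
  | zero =>
    have h0 : hc P (w 0) Q = 0 := hc_zero P fun ω ω' _ _ _ => by rw [hw.zero ω, hw.zero ω']
    rw [h0]
    simp
  | succ j ih =>
    have h1 := hc_le_add P (w (j + 1)) (w j) Q
    have h2 := hc_step_code P Q m p w hw j
    have e : ((j + 1 : ℕ) : ℝ) * (Real.log (d + 1) + d * (m + 2) * Real.log 2) =
        j * (Real.log (d + 1) + d * (m + 2) * Real.log 2) + (Real.log (d + 1) + d * (m + 2) * Real.log 2) := by
      push_cast
      ring
    rw [e]
    linarith

end Vale.Agent.P106.U.EndA
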